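/-
Row 324 (S0582), module AP, part A5: the pointwise coercivity fields of `BgGood` (CoerL, CoerH, CoerS).     Sub-architect: helper232.
Blueprint: origin/helper232:docs/R324_blueprint.md, section 7.2b.

INTERFACE.  `g` below is the REFERENCE background `bgR q g₀`.  A5 uses only
  * `BgSm g`,
  * `TipBox q g`   explicit bounds (constants independent of q) of the normalised coefficients for `X ≤ δ₀ Λ`, north side   (AP, helper263),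
  * `CoefBd q g`   qualitative bounds of the coefficients of the tt-form                                                  (from BgSym, BgSymT),
  * `OutS g`       `B = w = W = 0` for `y ≤ 3/4`.

TOOLKIT (all imported here):   Core/PR/Sm.lean, SmBg.lean (class `Sm`, `BgSm.smZ`, `BgSm.Z_mul`, `Sm.hasDerivAt_y`, `iteratedDeriv_sl`, `dY_*`),
Core/W/TtCalc.lean (class `SmI` = smooth near [-1,1]; `tt_mul`, `tt_add`, `tt_pow`, `tt_div`, `tt_congr`, `tt_Xf`, `tt_id`, ...), Core/W/TBa..TBf (second order rules `tt_tt_mul`, ...; class `TB C V`: `V > 0`, `|tt V|, |tt² V| ≤ C V`; `w0_tb_base`, `TB.pow/mul/div`),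
Core/W/WtA, WtB (`w0_Xt_S`, `Xt_eq`, `Xt_mem`, `Xt_nonneg`, `w0_Xf_le_Xt`, `w0_ell2_pos`, `w0_ell2_le`, `w0_rh2_pos`, `w0_Th_pos`, `w0_Xf_le_Th`, ...).
-/
import Claimed.Agent.R324.Core.Bgd
import Claimed.Agent.R324.Core.PR.SmBg
import Claimed.Agent.R324.Core.W.TB

set_option autoImplicit false

namespace Claimed.Agent.R324.Core

open Set Filter Topology MeasureTheory
open scoped ContDiff

noncomputable section

/-- explicit bounds near the tip.  Pure Bohm values (`Z = z/y²`, `X 𝖽 ≈ θz/z²`, `X w' = -y Q`, `X² w'' ≈ θQ - 2Q`, `X e^{-w} = P`):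
`0 ≤ 1-z ≤ 2/(q-1)`, `|θz| ≤ 12/(q-1)`, `|θ²z| ≤ 41`, `0 ≤ Q ≤ 2`, `0 ≤ θQ ≤ 8`, `P ≤ min (q-1) Ξ`, `100 ℓ² = (q-1) λ²`. -/
def TipBox (q : ℝ) (g : Bg) : Prop := ∃ δ₀ Λ₀ : ℝ, 0 < δ₀ ∧ 0 < Λ₀ ∧
  ∀ t ∈ Ico (-Λ₀) 0, ∀ y ∈ Icc (1 / 2 : ℝ) 1, Xf y ≤ δ₀ * (-t) →
    |g.Z (t, y) - 1| ≤ 3 / q ∧
    |Xf y * g.dd (t, y)| ≤ 14 / q ∧
    |tt (fun z => Xf z * g.dd (t, z)) y| ≤ 60 ∧
    -(201 / 100) ≤ Xf y * g.wp (t, y) ∧ Xf y * g.wp (t, y) ≤ 1 / 100 ∧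
    |Xf y ^ 2 * g.wpp (t, y)| ≤ 13 ∧
    Xf y * Real.exp (-g.w (t, y)) ≤ 1001 / 1000 * (q - 1) ∧
    Xf y * Real.exp (-g.w (t, y)) * (100 * ell2 q t) ≤ 1001 / 1000 * (q - 1) * Xf y ∧
    |Xf y * g.W (t, y)| ≤ 1 / 100 ∧ |Xf y ^ 2 * dY g.W (t, y)| ≤ 1 / 100

/-- qualitative bounds of the coefficients of the tt-form. -/
def CoefBd (q : ℝ) (g : Bg) : Prop := ∃ C Λ₀ : ℝ, 0 < Λ₀ ∧
  ∀ t ∈ Ico (-Λ₀) 0, ∀ y ∈ Icc (-1 : ℝ) 1,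
    |g.Z (t, y)| ≤ C ∧ |tt (sl g.Z t) y| ≤ C ∧ |tt (tt (sl g.Z t)) y| ≤ C ∧
    |g.bh q (t, y)| ≤ C ∧ |tt (sl (g.bh q) t) y| ≤ C ∧ (∀ i k, |mF q g i k (t, y)| ≤ C) ∧
    Th t y * |dT g.Z (t, y)| ≤ C

/-- round `S^(q+1) × S²` for `y ≤ 3/4`. -/
def OutS (g : Bg) : Prop := ∀ t < 0, ∀ y ≤ (3 / 4 : ℝ), g.B (t, y) = 0 ∧ g.w (t, y) = 0 ∧ g.W (t, y) = 0

/-- the general weight `R^a L^e / T^M`, `R = r̂²`, `L = (1+Γ)Λ + X̃`, `T = Θ`. -/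
def wG (a e M : ℕ) (q Γ t y : ℝ) : ℝ :=
  (rh2 q t y) ^ a * ((1 + Γ) * (-t) + Xt y) ^ e / (Th t y) ^ M

/-- `2 𝔷_v` expressed through `v0 = v`, `v1 = tt v`, `v2 = tt tt v` at the point. -/
def zzE (q : ℝ) (g : Bg) (t y v0 v1 v2 : ℝ) : ℝ :=
  g.Z (t, y) * (v2 + 2 * y * v1 + (y ^ 2 - Xf y) * v0) + 2 * (v1 + y * v0) * tt (sl g.Z t) y
    + v0 * tt (tt (sl g.Z t)) y - (v1 + y * v0) * g.bh q (t, y) - v0 * tt (sl (g.bh q) t) y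

/-- logarithmic tt-derivative of `wG` on the north side. -/
def nG1 (a e M : ℕ) (q Γ t y : ℝ) : ℝ :=
  2 * y * (a * (Xf y / rh2 q t y) + e * (Xf y / ((1 + Γ) * (-t) + Xf y)) - M * (Xf y / Th t y))

/-- `tt nG1`. -/
def nG2 (a e M : ℕ) (q Γ t y : ℝ) : ℝ :=
  (4 * y ^ 2 - 2 * Xf y)
      * (a * (Xf y / rh2 q t y) + e * (Xf y / ((1 + Γ) * (-t) + Xf y)) - M * (Xf y / Th t y))
    + 4 * y ^ 2 * (-(a * (Xf y / rh2 q t y) ^ 2) - e * (Xf y / ((1 + Γ) * (-t) + Xf y)) ^ 2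
      + M * (Xf y / Th t y) ^ 2)

/-- hygiene. -/
theorem core_ap_coer_hygiene : True := by
  have := @TipBox.eq_1
  have := @CoefBd.eq_1
  have := @OutS.eq_1
  have := @wG.eq_1
  have := @zzE.eq_1
  have := @nG1.eq_1
  have := @nG2.eq_1
  trivial

end

end Claimed.Agent.R324.Core
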