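/-
Row 324 (S0582), AP/A5 (pointwise coercivity), sub-architect helper232.   Blueprint origin/helper232:docs/R324_blueprint.md, section 7.2b.
Pure real inequality.
-/
import Claimed.Agent.R324.Core.AP.Coer.Defs

set_option autoImplicit false
set_option linter.unusedTactic false
set_option linter.unreachableTactic false

namespace Claimed.Agent.R324.Core

open Set
open scoped ContDiff

theorem coer_bd_add {a b A B : ℝ} (ha : |a| ≤ A) (hb : |b| ≤ B) : |a + b| ≤ A + B :=
  (abs_add_le a b).trans (add_le_add ha hb)

theorem coer_bd_sub {a b A B : ℝ} (ha : |a| ≤ A) (hb : |b| ≤ B) : |a - b| ≤ A + B :=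
  (abs_sub a b).trans (add_le_add ha hb)

theorem coer_bd_mul {a b A B : ℝ} (ha : |a| ≤ A) (hb : |b| ≤ B) : |a * b| ≤ A * B := by
  rw [abs_mul]
  exact mul_le_mul ha hb (abs_nonneg b) ((abs_nonneg a).trans ha)

theorem coer_bd_neg {a A : ℝ} (ha : |a| ≤ A) : |-a| ≤ A := by
  rwa [abs_neg]

theorem coer_bd_pow {a A : ℝ} (n : ℕ) (ha : |a| ≤ A) : |a ^ n| ≤ A ^ n := by
  rw [abs_pow]
  exact pow_le_pow_left₀ (abs_nonneg a) ha n

/-- ALG8.  crude bounds of all the expressions of `coer_ttZ`, `coer_tt2Z`, `coer_bh`, `coer_ttbh`, `coer_mF_formula` when all arguments are bounded by `C ≥ 1`.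
Every expression is a sum of at most 12 monomials, each `≤ 4 q² C⁴`-ish;  the bound `100 q² C⁴` is very generous
(`abs_add`, `abs_mul`, `abs_div`; `1/(q+1) ≤ 1`, `q/(q+1) ≤ 1`).   Suggestion: prove first `|u v| ≤ C²` etc., then `abs_le.mpr ⟨by nlinarith, by nlinarith⟩` or the triangle inequality term by term. -/
theorem coer_alg_bd (q C Z b1 tb o1 o2 P p0 p1 X y : ℝ) (hq : 10 ^ 6 ≤ q) (hC : 1 ≤ C) (hZ : |Z| ≤ C)
    (hb1 : |b1| ≤ C) (htb : |tb| ≤ C) (ho1 : |o1| ≤ C) (ho2 : |o2| ≤ C) (hP : |P| ≤ C) (hp0 : |p0| ≤ C)
    (hp1 : |p1| ≤ C) (hX0 : 0 ≤ X) (hX : X ≤ 1) (hy : |y| ≤ 1) :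
    |Z ^ 2 * b1| ≤ 100 * q ^ 2 * C ^ 4 ∧ |2 * Z ^ 3 * b1 ^ 2 + Z ^ 2 * tb| ≤ 100 * q ^ 2 * C ^ 5 ∧
    |(q - 1) * y * Z - (-Z ^ 2 * b1 / 2 + Z * o1 + p0)| ≤ 100 * q ^ 2 * C ^ 4 ∧
    |(q - 1) * (-X * Z + y * (Z ^ 2 * b1))
      - (-Z * (Z ^ 2 * b1) * b1 - Z ^ 2 * tb / 2 + Z ^ 2 * b1 * o1 + Z * (2 * y * o1 - o2)
        + 2 * y * p0 - p1)| ≤ 100 * q ^ 2 * C ^ 5 ∧
    |(-Z * o1 ^ 2 - 2 * q * y * Z ^ 2 * b1 + 2 * q * ((q - 1) * (1 - Z) + (q + 1) * X * Z)) / (q + 1)|
      ≤ 100 * q ^ 2 * C ^ 4 ∧
    |Z * ((2 * q + 2) * y * o1 + Z * b1 * o1 - 2 * o2) / (q + 1)| ≤ 100 * q ^ 2 * C ^ 4 ∧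
    |q / (q + 1) * (-Z * o1 ^ 2 - (q - 1) * y * Z ^ 2 * b1 - 2 * (q - 1) * (1 - Z)) / (q + 1)|
      ≤ 100 * q ^ 2 * C ^ 4 ∧
    |Z * ((q + 1) * y * o1 + Z * b1 * o1 / 2 - o2)| ≤ 100 * q ^ 2 * C ^ 4 ∧
    |2 * P - Z * o1 ^ 2| ≤ 100 * q ^ 2 * C ^ 4 ∧
    |q / (q + 1) * Z * (Z * b1 * o1 / 2 - o2)| ≤ 100 * q ^ 2 * C ^ 4 ∧
    |-Z * o1 ^ 2 - (q - 1) * (y * Z ^ 2 * b1 + 2 * (1 - Z))| ≤ 100 * q ^ 2 * C ^ 4 ∧
    |Z * (-2 * o2 + Z * b1 * o1)| ≤ 100 * q ^ 2 * C ^ 4 ∧
    |(2 * (q - 1) * (1 - Z) - 4 * (q + 1) * X * Z - q * Z * o1 ^ 2 + 2 * q * y * Z ^ 2 * b1) / (q + 1)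
        - Z * (4 * y ^ 2 - 2 * X) - 2 * (q - 1) * y ^ 2 * Z| ≤ 100 * q ^ 2 * C ^ 4 := by
  have hq1 : (1 : ℝ) ≤ q := by linarith
  have h1a : |(1 : ℝ)| ≤ 1 := by norm_num
  have h2a : |(2 : ℝ)| ≤ 2 := by norm_num
  have h4a : |(4 : ℝ)| ≤ 4 := by norm_num
  have hqa : |q| ≤ q := (abs_of_nonneg (by linarith)).le
  have hqm : |q - 1| ≤ q := by rw [abs_of_nonneg (by linarith)]; linarith
  have hqp : |q + 1| ≤ 2 * q := by rw [abs_of_nonneg (by linarith)]; linarith
  have hqq : |q / (q + 1)| ≤ 1 := by
    rw [abs_of_nonneg (by positivity), div_le_one (by linarith)]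
    linarith
  have hXa : |X| ≤ 1 := abs_le.2 ⟨by linarith, hX⟩
  have bDq : ∀ a A : ℝ, |a| ≤ A → |a / (q + 1)| ≤ A := by
    intro a A h
    rw [abs_div, abs_of_nonneg (by linarith : (0 : ℝ) ≤ q + 1)]
    exact (div_le_self (abs_nonneg a) (by linarith)).trans h
  have bD2 : ∀ a A : ℝ, |a| ≤ A → |a / 2| ≤ A := by
    intro a A h
    rw [abs_div, abs_of_nonneg (by norm_num : (0 : ℝ) ≤ 2)]
    exact (div_le_self (abs_nonneg a) (by norm_num)).trans h
  have m : ∀ a b : ℕ, a ≤ 2 → b ≤ 4 → q ^ a * C ^ b ≤ q ^ 2 * C ^ 4 := fun a b ha hb =>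
    mul_le_mul (pow_le_pow_right₀ hq1 ha) (pow_le_pow_right₀ hC hb) (by positivity) (by positivity)
  have m5 : ∀ a b : ℕ, a ≤ 2 → b ≤ 5 → q ^ a * C ^ b ≤ q ^ 2 * C ^ 5 := fun a b ha hb =>
    mul_le_mul (pow_le_pow_right₀ hq1 ha) (pow_le_pow_right₀ hC hb) (by positivity) (by positivity)
  have hpos : 0 ≤ q ^ 2 * C ^ 4 := by positivity
  have hpos5 : 0 ≤ q ^ 2 * C ^ 5 := by positivity
  refine ⟨?_, ?_, ?_, ?_, ?_, ?_, ?_, ?_, ?_, ?_, ?_, ?_, ?_⟩
  · apply le_trans
    · repeat' first
        | assumption
        | apply bDq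
        | apply bD2
        | apply coer_bd_pow
        | apply coer_bd_neg
        | apply coer_bd_add
        | apply coer_bd_sub
        | apply coer_bd_mul
    · linarith [m 0 0 (by norm_num) (by norm_num), m 0 1 (by norm_num) (by norm_num),
        m 0 2 (by norm_num) (by norm_num), m 0 3 (by norm_num) (by norm_num),
        m 0 4 (by norm_num) (by norm_num), m 1 0 (by norm_num) (by norm_num),
        m 1 1 (by norm_num) (by norm_num), m 1 2 (by norm_num) (by norm_num),
        m 1 3 (by norm_num) (by norm_num), m 1 4 (by norm_num) (by norm_num),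
        m 2 0 (by norm_num) (by norm_num), m 2 1 (by norm_num) (by norm_num),
        m 2 2 (by norm_num) (by norm_num), m 2 3 (by norm_num) (by norm_num), hpos]
  · apply le_trans
    · repeat' first
        | assumption
        | apply bDq
        | apply bD2
        | apply coer_bd_pow
        | apply coer_bd_neg
        | apply coer_bd_add
        | apply coer_bd_sub
        | apply coer_bd_mul
    · linarith [m5 0 0 (by norm_num) (by norm_num), m5 0 1 (by norm_num) (by norm_num),
        m5 0 2 (by norm_num) (by norm_num), m5 0 3 (by norm_num) (by norm_num),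
        m5 0 4 (by norm_num) (by norm_num), m5 0 5 (by norm_num) (by norm_num),
        m5 1 0 (by norm_num) (by norm_num),
        m5 1 1 (by norm_num) (by norm_num), m5 1 2 (by norm_num) (by norm_num),
        m5 1 3 (by norm_num) (by norm_num), m5 1 4 (by norm_num) (by norm_num),
        m5 1 5 (by norm_num) (by norm_num), hpos5]
  · apply le_trans
    · repeat' first
        | assumption
        | apply bDq
        | apply bD2
        | apply coer_bd_pow
        | apply coer_bd_neg
        | apply coer_bd_add
        | apply coer_bd_sub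
        | apply coer_bd_mul
    · linarith [m 0 0 (by norm_num) (by norm_num), m 0 1 (by norm_num) (by norm_num),
        m 0 2 (by norm_num) (by norm_num), m 0 3 (by norm_num) (by norm_num),
        m 0 4 (by norm_num) (by norm_num), m 1 0 (by norm_num) (by norm_num),
        m 1 1 (by norm_num) (by norm_num), m 1 2 (by norm_num) (by norm_num),
        m 1 3 (by norm_num) (by norm_num), m 1 4 (by norm_num) (by norm_num),
        m 2 0 (by norm_num) (by norm_num), m 2 1 (by norm_num) (by norm_num),
        m 2 2 (by norm_num) (by norm_num), m 2 3 (by norm_num) (by norm_num), hpos]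
  · apply le_trans
    · repeat' first
        | assumption
        | apply bDq
        | apply bD2
        | apply coer_bd_pow
        | apply coer_bd_neg
        | apply coer_bd_add
        | apply coer_bd_sub
        | apply coer_bd_mul
    · linarith [m5 0 0 (by norm_num) (by norm_num), m5 0 1 (by norm_num) (by norm_num),
        m5 0 2 (by norm_num) (by norm_num), m5 0 3 (by norm_num) (by norm_num),
        m5 0 4 (by norm_num) (by norm_num), m5 0 5 (by norm_num) (by norm_num),
        m5 1 0 (by norm_num) (by norm_num),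
        m5 1 1 (by norm_num) (by norm_num), m5 1 2 (by norm_num) (by norm_num),
        m5 1 3 (by norm_num) (by norm_num), m5 1 4 (by norm_num) (by norm_num),
        m5 1 5 (by norm_num) (by norm_num), hpos5]
  · apply le_trans
    · repeat' first
        | assumption
        | apply bDq
        | apply bD2
        | apply coer_bd_pow
        | apply coer_bd_neg
        | apply coer_bd_add
        | apply coer_bd_sub
        | apply coer_bd_mul
    · linarith [m 0 0 (by norm_num) (by norm_num), m 0 1 (by norm_num) (by norm_num),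
        m 0 2 (by norm_num) (by norm_num), m 0 3 (by norm_num) (by norm_num),
        m 0 4 (by norm_num) (by norm_num), m 1 0 (by norm_num) (by norm_num),
        m 1 1 (by norm_num) (by norm_num), m 1 2 (by norm_num) (by norm_num),
        m 1 3 (by norm_num) (by norm_num), m 1 4 (by norm_num) (by norm_num),
        m 2 0 (by norm_num) (by norm_num), m 2 1 (by norm_num) (by norm_num),
        m 2 2 (by norm_num) (by norm_num), m 2 3 (by norm_num) (by norm_num), hpos]
  · apply le_trans
    · repeat' first
        | assumption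
        | apply bDq
        | apply bD2
        | apply coer_bd_pow
        | apply coer_bd_neg
        | apply coer_bd_add
        | apply coer_bd_sub
        | apply coer_bd_mul
    · linarith [m 0 0 (by norm_num) (by norm_num), m 0 1 (by norm_num) (by norm_num),
        m 0 2 (by norm_num) (by norm_num), m 0 3 (by norm_num) (by norm_num),
        m 0 4 (by norm_num) (by norm_num), m 1 0 (by norm_num) (by norm_num),
        m 1 1 (by norm_num) (by norm_num), m 1 2 (by norm_num) (by norm_num),
        m 1 3 (by norm_num) (by norm_num), m 1 4 (by norm_num) (by norm_num),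
        m 2 0 (by norm_num) (by norm_num), m 2 1 (by norm_num) (by norm_num),
        m 2 2 (by norm_num) (by norm_num), m 2 3 (by norm_num) (by norm_num), hpos]
  · apply le_trans
    · repeat' first
        | assumption
        | apply bDq
        | apply bD2
        | apply coer_bd_pow
        | apply coer_bd_neg
        | apply coer_bd_add
        | apply coer_bd_sub
        | apply coer_bd_mul
    · linarith [m 0 0 (by norm_num) (by norm_num), m 0 1 (by norm_num) (by norm_num),
        m 0 2 (by norm_num) (by norm_num), m 0 3 (by norm_num) (by norm_num),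
        m 0 4 (by norm_num) (by norm_num), m 1 0 (by norm_num) (by norm_num),
        m 1 1 (by norm_num) (by norm_num), m 1 2 (by norm_num) (by norm_num),
        m 1 3 (by norm_num) (by norm_num), m 1 4 (by norm_num) (by norm_num),
        m 2 0 (by norm_num) (by norm_num), m 2 1 (by norm_num) (by norm_num),
        m 2 2 (by norm_num) (by norm_num), m 2 3 (by norm_num) (by norm_num), hpos]
  · apply le_trans
    · repeat' first
        | assumption
        | apply bDq
        | apply bD2
        | apply coer_bd_pow
        | apply coer_bd_neg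
        | apply coer_bd_add
        | apply coer_bd_sub
        | apply coer_bd_mul
    · linarith [m 0 0 (by norm_num) (by norm_num), m 0 1 (by norm_num) (by norm_num),
        m 0 2 (by norm_num) (by norm_num), m 0 3 (by norm_num) (by norm_num),
        m 0 4 (by norm_num) (by norm_num), m 1 0 (by norm_num) (by norm_num),
        m 1 1 (by norm_num) (by norm_num), m 1 2 (by norm_num) (by norm_num),
        m 1 3 (by norm_num) (by norm_num), m 1 4 (by norm_num) (by norm_num),
        m 2 0 (by norm_num) (by norm_num), m 2 1 (by norm_num) (by norm_num),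
        m 2 2 (by norm_num) (by norm_num), m 2 3 (by norm_num) (by norm_num), hpos]
  · apply le_trans
    · repeat' first
        | assumption
        | apply bDq
        | apply bD2
        | apply coer_bd_pow
        | apply coer_bd_neg
        | apply coer_bd_add
        | apply coer_bd_sub
        | apply coer_bd_mul
    · linarith [m 0 0 (by norm_num) (by norm_num), m 0 1 (by norm_num) (by norm_num),
        m 0 2 (by norm_num) (by norm_num), m 0 3 (by norm_num) (by norm_num),
        m 0 4 (by norm_num) (by norm_num), m 1 0 (by norm_num) (by norm_num),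
        m 1 1 (by norm_num) (by norm_num), m 1 2 (by norm_num) (by norm_num),
        m 1 3 (by norm_num) (by norm_num), m 1 4 (by norm_num) (by norm_num),
        m 2 0 (by norm_num) (by norm_num), m 2 1 (by norm_num) (by norm_num),
        m 2 2 (by norm_num) (by norm_num), m 2 3 (by norm_num) (by norm_num), hpos]
  · apply le_trans
    · repeat' first
        | assumption
        | apply bDq
        | apply bD2
        | apply coer_bd_pow
        | apply coer_bd_neg
        | apply coer_bd_add
        | apply coer_bd_sub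
        | apply coer_bd_mul
    · linarith [m 0 0 (by norm_num) (by norm_num), m 0 1 (by norm_num) (by norm_num),
        m 0 2 (by norm_num) (by norm_num), m 0 3 (by norm_num) (by norm_num),
        m 0 4 (by norm_num) (by norm_num), m 1 0 (by norm_num) (by norm_num),
        m 1 1 (by norm_num) (by norm_num), m 1 2 (by norm_num) (by norm_num),
        m 1 3 (by norm_num) (by norm_num), m 1 4 (by norm_num) (by norm_num),
        m 2 0 (by norm_num) (by norm_num), m 2 1 (by norm_num) (by norm_num),
        m 2 2 (by norm_num) (by norm_num), m 2 3 (by norm_num) (by norm_num), hpos]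
  · apply le_trans
    · repeat' first
        | assumption
        | apply bDq
        | apply bD2
        | apply coer_bd_pow
        | apply coer_bd_neg
        | apply coer_bd_add
        | apply coer_bd_sub
        | apply coer_bd_mul
    · linarith [m 0 0 (by norm_num) (by norm_num), m 0 1 (by norm_num) (by norm_num),
        m 0 2 (by norm_num) (by norm_num), m 0 3 (by norm_num) (by norm_num),
        m 0 4 (by norm_num) (by norm_num), m 1 0 (by norm_num) (by norm_num),
        m 1 1 (by norm_num) (by norm_num), m 1 2 (by norm_num) (by norm_num),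
        m 1 3 (by norm_num) (by norm_num), m 1 4 (by norm_num) (by norm_num),
        m 2 0 (by norm_num) (by norm_num), m 2 1 (by norm_num) (by norm_num),
        m 2 2 (by norm_num) (by norm_num), m 2 3 (by norm_num) (by norm_num), hpos]
  · apply le_trans
    · repeat' first
        | assumption
        | apply bDq
        | apply bD2
        | apply coer_bd_pow
        | apply coer_bd_neg
        | apply coer_bd_add
        | apply coer_bd_sub
        | apply coer_bd_mul
    · linarith [m 0 0 (by norm_num) (by norm_num), m 0 1 (by norm_num) (by norm_num),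
        m 0 2 (by norm_num) (by norm_num), m 0 3 (by norm_num) (by norm_num),
        m 0 4 (by norm_num) (by norm_num), m 1 0 (by norm_num) (by norm_num),
        m 1 1 (by norm_num) (by norm_num), m 1 2 (by norm_num) (by norm_num),
        m 1 3 (by norm_num) (by norm_num), m 1 4 (by norm_num) (by norm_num),
        m 2 0 (by norm_num) (by norm_num), m 2 1 (by norm_num) (by norm_num),
        m 2 2 (by norm_num) (by norm_num), m 2 3 (by norm_num) (by norm_num), hpos]
  · apply le_trans
    · repeat' first
        | assumption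
        | apply bDq
        | apply bD2
        | apply coer_bd_pow
        | apply coer_bd_neg
        | apply coer_bd_add
        | apply coer_bd_sub
        | apply coer_bd_mul
    · linarith [m 0 0 (by norm_num) (by norm_num), m 0 1 (by norm_num) (by norm_num),
        m 0 2 (by norm_num) (by norm_num), m 0 3 (by norm_num) (by norm_num),
        m 0 4 (by norm_num) (by norm_num), m 1 0 (by norm_num) (by norm_num),
        m 1 1 (by norm_num) (by norm_num), m 1 2 (by norm_num) (by norm_num),
        m 1 3 (by norm_num) (by norm_num), m 1 4 (by norm_num) (by norm_num),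
        m 2 0 (by norm_num) (by norm_num), m 2 1 (by norm_num) (by norm_num),
        m 2 2 (by norm_num) (by norm_num), m 2 3 (by norm_num) (by norm_num), hpos]

end Claimed.Agent.R324.Core
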