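/-
Row 324 (S0582), AP/A5 (pointwise coercivity), sub-architect helper232.   Blueprint origin/helper232:docs/R324_blueprint.md, section 7.2b.
Pure real inequality.
-/
import Claimed.Agent.R324.Core.AP.Coer.Defs

set_option autoImplicit false

namespace Claimed.Agent.R324.Core

open Set
open scoped ContDiff


/-- ALG4.  bounds of `tt Z`, `tt² Z`, `b̂`, `tt b̂` (formulas of `coer_ttZ`, ..., `coer_ttbh`).   `tb = tt (X 𝖽)`, `p0 = X W`, `p1 = X² W'`. -/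
theorem coer_alg_coef (q Z b1 tb o1 o2 p0 p1 X y : ℝ) (hq : 10 ^ 6 ≤ q) (hZ : |Z - 1| ≤ 3 / q)
    (hb1 : |b1| ≤ 14 / q) (htb : |tb| ≤ 60) (ho1 : -(201 / 100) ≤ o1) (ho1' : o1 ≤ 1 / 100)
    (ho2 : |o2| ≤ 13) (hp0 : |p0| ≤ 1 / 100) (hp1 : |p1| ≤ 1 / 100)
    (hX0 : 0 ≤ X) (hX : X ≤ 1 / q ^ 2) (hy : y ^ 2 = 1 - X) (hy0 : 0 ≤ y) :
    |Z ^ 2 * b1| ≤ 15 / q ∧ |2 * Z ^ 3 * b1 ^ 2 + Z ^ 2 * tb| ≤ 62 ∧
    q - 5 ≤ (q - 1) * y * Z - (-Z ^ 2 * b1 / 2 + Z * o1 + p0) ∧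
    |(q - 1) * (-X * Z + y * (Z ^ 2 * b1))
      - (-Z * (Z ^ 2 * b1) * b1 - Z ^ 2 * tb / 2 + Z ^ 2 * b1 * o1 + Z * (2 * y * o1 - o2)
        + 2 * y * p0 - p1)| ≤ 70 := by
  have hq0 : 0 < q := by linarith [show (0 : ℝ) < 10 ^ 6 by norm_num]
  have hq1 : 0 ≤ q - 1 := by linarith [show (1 : ℝ) ≤ 10 ^ 6 by norm_num]
  have h1q : 1 / q ≤ 1 / 10 ^ 6 := one_div_le_one_div_of_le (by norm_num) hq
  have h1q0 : 0 < 1 / q := by positivity
  have e3 : 3 / q = 3 * (1 / q) := by ring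
  have e14 : 14 / q = 14 * (1 / q) := by ring
  have e15 : 15 / q = 15 * (1 / q) := by ring
  obtain ⟨hZa, hZb⟩ := abs_le.1 hZ
  have hZ1 : 99 / 100 ≤ Z := by rw [e3] at hZa; linarith
  have hZ2 : Z ≤ 101 / 100 := by rw [e3] at hZb; linarith
  have hZ0 : 0 ≤ Z := by linarith
  have hZabs : |Z| ≤ 101 / 100 := by rw [abs_of_nonneg hZ0]; exact hZ2
  have hZsq : Z ^ 2 ≤ 10201 / 10000 := by
    have := pow_le_pow_left₀ hZ0 hZ2 2
    norm_num at this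
    linarith
  have hZsq0 : 0 ≤ Z ^ 2 := sq_nonneg Z
  have hb1' : |b1| ≤ 14 / 10 ^ 6 := by rw [e14] at hb1; linarith
  -- W = Z^2 b1
  have hW : |Z ^ 2 * b1| ≤ 15 / q := by
    rw [abs_mul, abs_of_nonneg hZsq0]
    calc Z ^ 2 * |b1| ≤ 10201 / 10000 * (14 / q) := mul_le_mul hZsq hb1 (abs_nonneg _) (by norm_num)
      _ ≤ 15 / q := by rw [e14, e15]; linarith
  have hW' : |Z ^ 2 * b1| ≤ 15 / 10 ^ 6 := by rw [e15] at hW; linarith
  -- y
  have hy1 : y ≤ 1 := (pow_le_one_iff_of_nonneg hy0 two_ne_zero).1 (by rw [hy]; linarith)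
  have hyX : 1 - X ≤ y := by
    rw [← hy]
    have := mul_nonneg hy0 (sub_nonneg.2 hy1)
    linarith [show y ^ 2 = y - y * (1 - y) by ring]
  have hyabs : |y| ≤ 1 := by rw [abs_of_nonneg hy0]; exact hy1
  have hqX : (q - 1) * X ≤ 1 / q := by
    calc (q - 1) * X ≤ q * (1 / q ^ 2) := mul_le_mul (by linarith) hX hX0 hq0.le
      _ = 1 / q := by field_simp
  have hqX0 : 0 ≤ (q - 1) * X := mul_nonneg hq1 hX0
  have ho1abs : |o1| ≤ 201 / 100 := abs_le.2 ⟨ho1, by linarith⟩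
  -- the small term Z W b1
  have t3 : |Z * (Z ^ 2 * b1) * b1| ≤ 1 / 1000 := by
    rw [abs_mul, abs_mul]
    calc |Z| * |Z ^ 2 * b1| * |b1| ≤ 101 / 100 * (15 / 10 ^ 6) * (14 / 10 ^ 6) :=
          mul_le_mul (mul_le_mul hZabs hW' (abs_nonneg _) (by norm_num)) hb1' (abs_nonneg _)
            (by norm_num)
      _ ≤ 1 / 1000 := by norm_num
  have t4 : |Z ^ 2 * tb| ≤ 61206 / 1000 := by
    rw [abs_mul, abs_of_nonneg hZsq0]
    calc Z ^ 2 * |tb| ≤ 10201 / 10000 * 60 := mul_le_mul hZsq htb (abs_nonneg _) (by norm_num)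
      _ = 61206 / 1000 := by norm_num
  refine ⟨hW, ?_, ?_, ?_⟩
  · obtain ⟨a1, a2⟩ := abs_le.1 t3
    obtain ⟨a3, a4⟩ := abs_le.1 t4
    have hE2 : 2 * Z ^ 3 * b1 ^ 2 + Z ^ 2 * tb = 2 * (Z * (Z ^ 2 * b1) * b1) + Z ^ 2 * tb := by ring
    rw [hE2, abs_le]
    constructor <;> linarith
  · -- third
    have hZl : 1 - 3 / q ≤ Z := by linarith
    have h31 : 0 ≤ 1 - 3 / q := by rw [e3]; linarith
    have hX1 : 0 ≤ 1 - X := by rw [← hy]; positivity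
    have h1 : (1 - X) * (1 - 3 / q) ≤ y * Z := mul_le_mul hyX hZl h31 hy0
    have h2 : (q - 1) * ((1 - X) * (1 - 3 / q)) ≤ (q - 1) * (y * Z) :=
      mul_le_mul_of_nonneg_left h1 hq1
    have h3 : (q - 1) * ((1 - X) * (1 - 3 / q))
        = (q - 1) - (q - 1) * X - 3 * ((q - 1) / q) + 3 * ((q - 1) * X) * (1 / q) := by
      field_simp
      ring
    have h4 : (q - 1) / q ≤ 1 := by rw [div_le_one hq0]; linarith
    have h5 : 0 ≤ 3 * ((q - 1) * X) * (1 / q) := by positivity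
    have h6 : Z * o1 ≤ 101 / 10000 := by
      have := mul_le_mul_of_nonneg_left ho1' hZ0
      linarith
    obtain ⟨a1, a2⟩ := abs_le.1 hW'
    obtain ⟨a3, a4⟩ := abs_le.1 hp0
    have h7 : (q - 1) * y * Z = (q - 1) * (y * Z) := by ring
    rw [h7]
    linarith
  · -- fourth
    have s1 : |((q - 1) * X) * Z| ≤ 1 / 1000 := by
      rw [abs_mul, abs_of_nonneg hqX0]
      calc (q - 1) * X * |Z| ≤ 1 / 10 ^ 6 * (101 / 100) :=
            mul_le_mul (hqX.trans h1q) hZabs (abs_nonneg _) (by norm_num)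
        _ ≤ 1 / 1000 := by norm_num
    have s2 : |(q - 1) * (y * (Z ^ 2 * b1))| ≤ 15 := by
      rw [abs_mul, abs_mul, abs_of_nonneg hq1]
      calc (q - 1) * (|y| * |Z ^ 2 * b1|) ≤ q * (1 * (15 / q)) :=
            mul_le_mul (by linarith) (mul_le_mul hyabs hW (abs_nonneg _) zero_le_one)
              (mul_nonneg (abs_nonneg _) (abs_nonneg _)) hq0.le
        _ = 15 := by field_simp
    have s5 : |Z ^ 2 * b1 * o1| ≤ 1 / 1000 := by
      rw [abs_mul]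
      calc |Z ^ 2 * b1| * |o1| ≤ 15 / 10 ^ 6 * (201 / 100) :=
            mul_le_mul hW' ho1abs (abs_nonneg _) (by norm_num)
        _ ≤ 1 / 1000 := by norm_num
    have s6a : |2 * y * o1 - o2| ≤ 1702 / 100 := by
      have : |2 * y * o1| ≤ 402 / 100 := by
        rw [abs_mul, abs_mul, abs_two]
        calc 2 * |y| * |o1| ≤ 2 * 1 * (201 / 100) :=
              mul_le_mul (mul_le_mul_of_nonneg_left hyabs (by norm_num)) ho1abs (abs_nonneg _)
                (by norm_num)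
          _ = 402 / 100 := by norm_num
      calc |2 * y * o1 - o2| ≤ |2 * y * o1| + |o2| := abs_sub _ _
        _ ≤ 1702 / 100 := by linarith
    have s6 : |Z * (2 * y * o1 - o2)| ≤ 172 / 10 := by
      rw [abs_mul]
      calc |Z| * |2 * y * o1 - o2| ≤ 101 / 100 * (1702 / 100) :=
            mul_le_mul hZabs s6a (abs_nonneg _) (by norm_num)
        _ ≤ 172 / 10 := by norm_num
    have s7 : |2 * y * p0| ≤ 2 / 100 := by
      rw [abs_mul, abs_mul, abs_two]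
      calc 2 * |y| * |p0| ≤ 2 * 1 * (1 / 100) :=
            mul_le_mul (mul_le_mul_of_nonneg_left hyabs (by norm_num)) hp0 (abs_nonneg _)
              (by norm_num)
        _ = 2 / 100 := by norm_num
    obtain ⟨a1, a2⟩ := abs_le.1 s1
    obtain ⟨a3, a4⟩ := abs_le.1 s2
    obtain ⟨a5, a6⟩ := abs_le.1 t3
    obtain ⟨a7, a8⟩ := abs_le.1 t4
    obtain ⟨a9, a10⟩ := abs_le.1 s5
    obtain ⟨a11, a12⟩ := abs_le.1 s6
    obtain ⟨a13, a14⟩ := abs_le.1 s7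
    obtain ⟨a15, a16⟩ := abs_le.1 hp1
    have hE : (q - 1) * (-X * Z + y * (Z ^ 2 * b1))
      - (-Z * (Z ^ 2 * b1) * b1 - Z ^ 2 * tb / 2 + Z ^ 2 * b1 * o1 + Z * (2 * y * o1 - o2)
        + 2 * y * p0 - p1)
      = -(((q - 1) * X) * Z) + (q - 1) * (y * (Z ^ 2 * b1)) + Z * (Z ^ 2 * b1) * b1
        + Z ^ 2 * tb / 2 - Z ^ 2 * b1 * o1 - Z * (2 * y * o1 - o2) - 2 * y * p0 + p1 := by ring
    rw [hE, abs_le]
    constructor <;> linarith

end Claimed.Agent.R324.Core
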