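/-
Row 324 (S0582), AP/A5 (pointwise coercivity), sub-architect helper232.   Blueprint origin/helper232:docs/R324_blueprint.md, section 7.2b.
Pure real inequality.
-/
import Claimed.Agent.R324.Core.AP.Coer.Defs

set_option autoImplicit false

namespace Claimed.Agent.R324.Core

open Set
open scoped ContDiff


theorem coer_alg_basic (q Z b1 o1 X y : ℝ) (hq : 10 ^ 6 ≤ q) (hZ : |Z - 1| ≤ 3 / q)
    (hb1 : |b1| ≤ 14 / q) (ho1 : -(201 / 100) ≤ o1) (ho1' : o1 ≤ 1 / 100)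
    (hX0 : 0 ≤ X) (hX : X ≤ 1 / q ^ 2) (hy : y ^ 2 = 1 - X) (hy0 : 0 ≤ y) :
    999 / 1000 ≤ Z ∧ Z ≤ 1001 / 1000 ∧ -3 ≤ q * (1 - Z) ∧ q * (1 - Z) ≤ 3 ∧ -14 ≤ q * b1 ∧ q * b1 ≤ 14 ∧
      o1 ^ 2 ≤ 405 / 100 ∧ y ≤ 1 ∧ q * X ≤ 1 / 10 ^ 6 ∧ -(1 / 1000) ≤ b1 ∧ b1 ≤ 1 / 1000 := by
  have hq0 : 0 < q := by linarith [show (0:ℝ) < 10 ^ 6 by norm_num]
  have h3q : 3 / q ≤ 3 / 10 ^ 6 := div_le_div_of_nonneg_left (by norm_num) (by norm_num) hq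
  have h14q : 14 / q ≤ 14 / 10 ^ 6 := div_le_div_of_nonneg_left (by norm_num) (by norm_num) hq
  obtain ⟨hZ1, hZ2⟩ := abs_le.mp hZ
  obtain ⟨hb1a, hb1b⟩ := abs_le.mp hb1
  have e3 : q * (3 / q) = 3 := by field_simp
  have e14 : q * (14 / q) = 14 := by field_simp
  have m1 : q * (Z - 1) ≤ q * (3 / q) := mul_le_mul_of_nonneg_left hZ2 hq0.le
  have m2 : q * (-(3 / q)) ≤ q * (Z - 1) := mul_le_mul_of_nonneg_left hZ1 hq0.le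
  have m3 : q * b1 ≤ q * (14 / q) := mul_le_mul_of_nonneg_left hb1b hq0.le
  have m4 : q * (-(14 / q)) ≤ q * b1 := mul_le_mul_of_nonneg_left hb1a hq0.le
  have hqX : q * X ≤ 1 / 10 ^ 6 := by
    have h1 : q * X ≤ q * (1 / q ^ 2) := mul_le_mul_of_nonneg_left hX hq0.le
    have h2 : q * (1 / q ^ 2) = 1 / q := by field_simp
    have h3 : 1 / q ≤ 1 / 10 ^ 6 := div_le_div_of_nonneg_left (by norm_num) (by norm_num) hq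
    linarith
  refine ⟨by norm_num at h3q ⊢; linarith, by norm_num at h3q ⊢; linarith, by nlinarith, by nlinarith, by nlinarith,
    by nlinarith, by nlinarith, by nlinarith, hqX, by norm_num at h14q ⊢; linarith, by norm_num at h14q ⊢; linarith⟩

theorem coer_alg_e1 (q Z b1 o1 X y : ℝ) (hq : 10 ^ 6 ≤ q) (hZl : 999 / 1000 ≤ Z) (hZu : Z ≤ 1001 / 1000)
    (hu2 : q * (1 - Z) ≤ 3) (hv1 : -14 ≤ q * b1) (hy0 : 0 ≤ y) (hy1 : y ≤ 1) (hX0 : 0 ≤ X)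
    (ht : q * X ≤ 1 / 10 ^ 6) :
    (-Z * o1 ^ 2 - 2 * q * y * Z ^ 2 * b1 + 2 * q * ((q - 1) * (1 - Z) + (q + 1) * X * Z)) / (q + 1) ≤ 8 := by
  have hq6 : (10:ℝ) ^ 6 = 1000000 := by norm_num
  rw [hq6] at hq ht
  have hq1 : 0 < q + 1 := by linarith
  rw [div_le_iff₀ hq1]
  obtain ⟨u, hu⟩ : ∃ u, u = q * (1 - Z) := ⟨_, rfl⟩
  obtain ⟨v, hv⟩ : ∃ v, v = q * b1 := ⟨_, rfl⟩
  obtain ⟨t, htd⟩ : ∃ t, t = q * X := ⟨_, rfl⟩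
  obtain ⟨w, hw⟩ : ∃ w, w = y * Z ^ 2 := ⟨_, rfl⟩
  have e : -Z * o1 ^ 2 - 2 * q * y * Z ^ 2 * b1 + 2 * q * ((q - 1) * (1 - Z) + (q + 1) * X * Z)
      = -(Z * o1 ^ 2) - 2 * (w * v) + 2 * ((q - 1) * u) + 2 * ((q + 1) * (Z * t)) := by
    rw [hu, hv, htd, hw]; ring
  rw [e]
  rw [← hu] at hu2
  rw [← hv] at hv1
  rw [← htd] at ht
  have ht0 : 0 ≤ t := by rw [htd]; exact mul_nonneg (by linarith) hX0
  have hZ2 : Z ^ 2 ≤ 101 / 100 := by nlinarith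
  have hw0 : 0 ≤ w := by rw [hw]; positivity
  have hw1 : w ≤ 101 / 100 := by
    rw [hw]
    calc y * Z ^ 2 ≤ 1 * Z ^ 2 := mul_le_mul_of_nonneg_right hy1 (by positivity)
      _ ≤ 101 / 100 := by linarith
  have a1 : 0 ≤ Z * o1 ^ 2 := mul_nonneg (by linarith) (sq_nonneg _)
  have a2 : -(1414 / 100) ≤ w * v := by nlinarith
  have a3 : (q - 1) * u ≤ (q - 1) * 3 := mul_le_mul_of_nonneg_left hu2 (by linarith)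
  have a4 : Z * t ≤ 1 / 1000 := by nlinarith
  have a5 : (q + 1) * (Z * t) ≤ (q + 1) * (1 / 1000) := mul_le_mul_of_nonneg_left a4 hq1.le
  linarith

theorem coer_alg_e3 (q Z b1 o1 X y : ℝ) (hq : 10 ^ 6 ≤ q) (hZl : 999 / 1000 ≤ Z) (hZu : Z ≤ 1001 / 1000)
    (hu2 : q * (1 - Z) ≤ 3) (hv2 : q * b1 ≤ 14) (hy0 : 0 ≤ y) (hy1 : y ≤ 1) (hX0 : 0 ≤ X)
    (ht : q * X ≤ 1 / 10 ^ 6) (hy : y ^ 2 = 1 - X) :
    (2 * (q - 1) * (1 - Z) - 4 * (q + 1) * X * Z - q * Z * o1 ^ 2 + 2 * q * y * Z ^ 2 * b1) / (q + 1)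
      - Z * (4 * y ^ 2 - 2 * X) - 2 * (q - 1) * y ^ 2 * Z ≤ -q := by
  have hq6 : (10:ℝ) ^ 6 = 1000000 := by norm_num
  rw [hq6] at hq ht
  have hq0 : 0 < q := by linarith
  have hq1 : 0 < q + 1 := by linarith
  obtain ⟨v, hv⟩ : ∃ v, v = q * b1 := ⟨_, rfl⟩
  obtain ⟨w, hw⟩ : ∃ w, w = y * Z ^ 2 := ⟨_, rfl⟩
  have hZ2 : Z ^ 2 ≤ 101 / 100 := by nlinarith
  have hw0 : 0 ≤ w := by rw [hw]; positivity
  have hw1 : w ≤ 101 / 100 := by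
    rw [hw]
    calc y * Z ^ 2 ≤ 1 * Z ^ 2 := mul_le_mul_of_nonneg_right hy1 (by positivity)
      _ ≤ 101 / 100 := by linarith
  rw [← hv] at hv2
  have hX1 : X ≤ 1 / 1000 := by nlinarith
  -- first term
  have f1 : (2 * (q - 1) * (1 - Z) - 4 * (q + 1) * X * Z - q * Z * o1 ^ 2 + 2 * q * y * Z ^ 2 * b1) / (q + 1) ≤ 1 := by
    rw [div_le_iff₀ hq1]
    have e : 2 * (q - 1) * (1 - Z) - 4 * (q + 1) * X * Z - q * Z * o1 ^ 2 + 2 * q * y * Z ^ 2 * b1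
        = 2 * (q * (1 - Z)) - 2 * (1 - Z) - 4 * ((q + 1) * (X * Z)) - q * (Z * o1 ^ 2) + 2 * (w * v) := by
      rw [hv, hw]; ring
    rw [e]
    have a1 : 0 ≤ (q + 1) * (X * Z) := mul_nonneg hq1.le (mul_nonneg hX0 (by linarith))
    have a2 : 0 ≤ q * (Z * o1 ^ 2) := mul_nonneg hq0.le (mul_nonneg (by linarith) (sq_nonneg _))
    have a3 : w * v ≤ 1414 / 100 := by nlinarith
    linarith
  -- second and third term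
  rw [hy]
  have f2 : 0 ≤ Z * (4 * (1 - X) - 2 * X) := mul_nonneg (by linarith) (by linarith)
  have f3 : 2 * q - 10 ≤ 2 * (q - 1) * (1 - X) * Z := by
    have e : 2 * (q - 1) * (1 - X) * Z = 2 * q - 2 * (q * (1 - Z)) - 2 * Z - 2 * ((q * X) * Z) + 2 * (X * Z) := by ring
    rw [e]
    have b1' : (q * X) * Z ≤ 1 / 1000 := by
      have : 0 ≤ q * X := mul_nonneg hq0.le hX0
      nlinarith
    have b2 : 0 ≤ X * Z := mul_nonneg hX0 (by linarith)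
    linarith
  linarith

theorem coer_alg_c (b1 o1 : ℝ) (hb1 : -(1 / 1000) ≤ b1) (hb2 : b1 ≤ 1 / 1000)
    (ho1 : -(201 / 100) ≤ o1) (ho1' : o1 ≤ 1 / 100) : |b1 * o1| ≤ 1 / 100 := by
  rw [abs_mul]
  have h1 : |b1| ≤ 1 / 1000 := abs_le.mpr ⟨hb1, hb2⟩
  have h2 : |o1| ≤ 201 / 100 := abs_le.mpr ⟨ho1, by linarith⟩
  calc |b1| * |o1| ≤ 1 / 1000 * (201 / 100) := mul_le_mul h1 h2 (abs_nonneg _) (by norm_num)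
    _ ≤ 1 / 100 := by norm_num

theorem coer_alg_e4 (q Z b1 o1 o2 y : ℝ) (hq : 10 ^ 6 ≤ q) (hZl : 999 / 1000 ≤ Z) (hZu : Z ≤ 1001 / 1000)
    (hb1 : -(1 / 1000) ≤ b1) (hb2 : b1 ≤ 1 / 1000)
    (ho1 : -(201 / 100) ≤ o1) (ho1' : o1 ≤ 1 / 100) (ho2 : |o2| ≤ 13) (hy0 : 0 ≤ y) (hy1 : y ≤ 1) :
    |(q + 1) * (Z * ((2 * q + 2) * y * o1 + Z * b1 * o1 - 2 * o2) / (q + 1))
      + 2 * (Z * ((q + 1) * y * o1 + Z * b1 * o1 / 2 - o2))| ≤ 81 / 10 * (q + 1) := by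
  have hq6 : (10:ℝ) ^ 6 = 1000000 := by norm_num
  rw [hq6] at hq
  have hq1 : 0 < q + 1 := by linarith
  obtain ⟨c, hc⟩ : ∃ c, c = b1 * o1 := ⟨_, rfl⟩
  obtain ⟨s, hs⟩ : ∃ s, s = y * o1 := ⟨_, rfl⟩
  have hcb := coer_alg_c b1 o1 hb1 hb2 ho1 ho1'
  rw [← hc] at hcb
  obtain ⟨hc1, hc2⟩ := abs_le.mp hcb
  obtain ⟨ho21, ho22⟩ := abs_le.mp ho2
  have hs1 : -(201 / 100) ≤ s := by rw [hs]; nlinarith
  have hs2 : s ≤ 201 / 100 := by rw [hs]; nlinarith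
  have e : (q + 1) * (Z * ((2 * q + 2) * y * o1 + Z * b1 * o1 - 2 * o2) / (q + 1))
      + 2 * (Z * ((q + 1) * y * o1 + Z * b1 * o1 / 2 - o2))
      = 2 * (Z * (2 * ((q + 1) * s) + Z * c - 2 * o2)) := by
    rw [hc, hs]; field_simp; ring
  rw [e]
  have hZc1 : -(2 / 100) ≤ Z * c := by nlinarith
  have hZc2 : Z * c ≤ 2 / 100 := by nlinarith
  have hqs1 : (q + 1) * (-(201 / 100)) ≤ (q + 1) * s := mul_le_mul_of_nonneg_left hs1 hq1.le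
  have hqs2 : (q + 1) * s ≤ (q + 1) * (201 / 100) := mul_le_mul_of_nonneg_left hs2 hq1.le
  obtain ⟨D, hD⟩ : ∃ D, D = 2 * ((q + 1) * s) + Z * c - 2 * o2 := ⟨_, rfl⟩
  rw [← hD]
  obtain ⟨B, hB⟩ : ∃ B, B = 402 / 100 * (q + 1) + 27 := ⟨_, rfl⟩
  have hD1 : -B ≤ D := by rw [hD, hB]; linarith
  have hD2 : D ≤ B := by rw [hD, hB]; linarith
  have hB0 : 0 ≤ B := by rw [hB]; linarith
  have hZD : |Z * D| ≤ 1001 / 1000 * B := by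
    rw [abs_mul, abs_of_pos (by linarith : (0:ℝ) < Z)]
    exact mul_le_mul hZu (abs_le.mpr ⟨hD1, hD2⟩) (abs_nonneg _) (by norm_num)
  rw [abs_mul, abs_of_pos (by norm_num : (0:ℝ) < 2)]
  rw [hB] at hZD
  linarith

theorem coer_alg_r (q : ℝ) (hq : 10 ^ 6 ≤ q) : 0 ≤ q / (q + 1) ∧ q / (q + 1) ≤ 1 := by
  have hq6 : (10:ℝ) ^ 6 = 1000000 := by norm_num
  rw [hq6] at hq
  have hq1 : 0 < q + 1 := by linarith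
  exact ⟨div_nonneg (by linarith) hq1.le, by rw [div_le_one hq1]; linarith⟩

theorem coer_alg_e5 (q Z b1 o1 y : ℝ) (hq : 10 ^ 6 ≤ q) (hZl : 999 / 1000 ≤ Z) (hZu : Z ≤ 1001 / 1000)
    (hu1 : -3 ≤ q * (1 - Z)) (hu2 : q * (1 - Z) ≤ 3) (hv1 : -14 ≤ q * b1) (hv2 : q * b1 ≤ 14)
    (hb1 : -(1 / 1000) ≤ b1) (hb2 : b1 ≤ 1 / 1000) (ho : o1 ^ 2 ≤ 405 / 100) (hy0 : 0 ≤ y) (hy1 : y ≤ 1) :
    |(q + 1) * (q / (q + 1) * (-Z * o1 ^ 2 - (q - 1) * y * Z ^ 2 * b1 - 2 * (q - 1) * (1 - Z)) / (q + 1))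
      + q / (q + 1) * (-Z * o1 ^ 2 - (q - 1) * (y * Z ^ 2 * b1 + 2 * (1 - Z)))| ≤ 50 := by
  obtain ⟨hr0, hr1⟩ := coer_alg_r q hq
  have hq6 : (10:ℝ) ^ 6 = 1000000 := by norm_num
  rw [hq6] at hq
  have hq1 : 0 < q + 1 := by linarith
  obtain ⟨r, hr⟩ : ∃ r, r = q / (q + 1) := ⟨_, rfl⟩
  rw [← hr] at hr0 hr1 ⊢
  obtain ⟨u, hu⟩ : ∃ u, u = q * (1 - Z) := ⟨_, rfl⟩
  obtain ⟨v, hv⟩ : ∃ v, v = q * b1 := ⟨_, rfl⟩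
  obtain ⟨w, hw⟩ : ∃ w, w = y * Z ^ 2 := ⟨_, rfl⟩
  have hZ2 : Z ^ 2 ≤ 101 / 100 := by nlinarith
  have hw0 : 0 ≤ w := by rw [hw]; positivity
  have hw1 : w ≤ 101 / 100 := by
    rw [hw]
    calc y * Z ^ 2 ≤ 1 * Z ^ 2 := mul_le_mul_of_nonneg_right hy1 (by positivity)
      _ ≤ 101 / 100 := by linarith
  have e : (q + 1) * (r * (-Z * o1 ^ 2 - (q - 1) * y * Z ^ 2 * b1 - 2 * (q - 1) * (1 - Z)) / (q + 1))
      + r * (-Z * o1 ^ 2 - (q - 1) * (y * Z ^ 2 * b1 + 2 * (1 - Z)))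
      = 2 * (r * (-(Z * o1 ^ 2) - w * v + w * b1 - 2 * u + 2 * (1 - Z))) := by
    rw [hu, hv, hw]; field_simp; ring
  rw [e]
  rw [← hu] at hu1 hu2
  rw [← hv] at hv1 hv2
  have a1 : 0 ≤ Z * o1 ^ 2 := mul_nonneg (by linarith) (sq_nonneg _)
  have a1' : Z * o1 ^ 2 ≤ 41 / 10 := by nlinarith [sq_nonneg o1]
  have a2 : -(1414 / 100) ≤ w * v := by nlinarith
  have a2' : w * v ≤ 1414 / 100 := by nlinarith
  have a3 : -(1 / 100) ≤ w * b1 := by nlinarith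
  have a3' : w * b1 ≤ 1 / 100 := by nlinarith
  obtain ⟨C, hC⟩ : ∃ C, C = -(Z * o1 ^ 2) - w * v + w * b1 - 2 * u + 2 * (1 - Z) := ⟨_, rfl⟩
  rw [← hC]
  have hC1 : |C| ≤ 25 := by rw [hC]; exact abs_le.mpr ⟨by linarith, by linarith⟩
  rw [abs_mul, abs_mul, abs_of_pos (by norm_num : (0:ℝ) < 2), abs_of_nonneg hr0]
  have : r * |C| ≤ 1 * 25 := mul_le_mul hr1 hC1 (abs_nonneg _) (by norm_num)
  linarith

theorem coer_alg_e6 (q Z b1 o1 o2 : ℝ) (hq : 10 ^ 6 ≤ q) (hZl : 999 / 1000 ≤ Z) (hZu : Z ≤ 1001 / 1000)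
    (hb1 : -(1 / 1000) ≤ b1) (hb2 : b1 ≤ 1 / 1000)
    (ho1 : -(201 / 100) ≤ o1) (ho1' : o1 ≤ 1 / 100) (ho2 : |o2| ≤ 13) :
    |2 * (q / (q + 1) * Z * (Z * b1 * o1 / 2 - o2)) + q / (q + 1) * (Z * (-2 * o2 + Z * b1 * o1))| ≤ 53 := by
  obtain ⟨hr0, hr1⟩ := coer_alg_r q hq
  obtain ⟨r, hr⟩ : ∃ r, r = q / (q + 1) := ⟨_, rfl⟩
  rw [← hr] at hr0 hr1 ⊢
  obtain ⟨c, hc⟩ : ∃ c, c = b1 * o1 := ⟨_, rfl⟩
  have hcb := coer_alg_c b1 o1 hb1 hb2 ho1 ho1'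
  rw [← hc] at hcb
  obtain ⟨hc1, hc2⟩ := abs_le.mp hcb
  obtain ⟨ho21, ho22⟩ := abs_le.mp ho2
  have e : 2 * (r * Z * (Z * b1 * o1 / 2 - o2)) + r * (Z * (-2 * o2 + Z * b1 * o1))
      = 2 * (r * (Z * (Z * c - 2 * o2))) := by
    rw [hc]; ring
  rw [e]
  have hZc1 : -(2 / 100) ≤ Z * c := by nlinarith
  have hZc2 : Z * c ≤ 2 / 100 := by nlinarith
  obtain ⟨D, hD⟩ : ∃ D, D = Z * c - 2 * o2 := ⟨_, rfl⟩
  rw [← hD]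
  have hD1 : |D| ≤ 2602 / 100 := by rw [hD]; exact abs_le.mpr ⟨by linarith, by linarith⟩
  rw [abs_mul, abs_mul, abs_mul, abs_of_pos (by norm_num : (0:ℝ) < 2), abs_of_nonneg hr0,
    abs_of_pos (by linarith : (0:ℝ) < Z)]
  have h1 : Z * |D| ≤ 1001 / 1000 * (2602 / 100) := mul_le_mul hZu hD1 (abs_nonneg _) (by norm_num)
  have h2 : r * (Z * |D|) ≤ 1 * (1001 / 1000 * (2602 / 100)) :=
    mul_le_mul hr1 h1 (mul_nonneg (by linarith) (abs_nonneg _)) (by norm_num)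
  linarith

/-- ALG3.  bounds of the entries (formulas of `coer_mF_formula`).   `Z` within `3/q` of `1`, `b1 = X 𝖽`, `o1 = X w'`, `o2 = X² w''`. -/
theorem coer_alg_entries (q Z b1 o1 o2 P X y : ℝ) (hq : 10 ^ 6 ≤ q) (hZ : |Z - 1| ≤ 3 / q)
    (hb1 : |b1| ≤ 14 / q) (ho1 : -(201 / 100) ≤ o1) (ho1' : o1 ≤ 1 / 100) (ho2 : |o2| ≤ 13)
    (hX0 : 0 ≤ X) (hX : X ≤ 1 / q ^ 2) (hy : y ^ 2 = 1 - X) (hy0 : 0 ≤ y) :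
    (-Z * o1 ^ 2 - 2 * q * y * Z ^ 2 * b1 + 2 * q * ((q - 1) * (1 - Z) + (q + 1) * X * Z)) / (q + 1) ≤ 8 ∧
    2 * P - Z * o1 ^ 2 ≤ 2 * P ∧
    (2 * (q - 1) * (1 - Z) - 4 * (q + 1) * X * Z - q * Z * o1 ^ 2 + 2 * q * y * Z ^ 2 * b1) / (q + 1)
      - Z * (4 * y ^ 2 - 2 * X) - 2 * (q - 1) * y ^ 2 * Z ≤ -q ∧
    |(q + 1) * (Z * ((2 * q + 2) * y * o1 + Z * b1 * o1 - 2 * o2) / (q + 1))
      + 2 * (Z * ((q + 1) * y * o1 + Z * b1 * o1 / 2 - o2))| ≤ 81 / 10 * (q + 1) ∧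
    |(q + 1) * (q / (q + 1) * (-Z * o1 ^ 2 - (q - 1) * y * Z ^ 2 * b1 - 2 * (q - 1) * (1 - Z)) / (q + 1))
      + q / (q + 1) * (-Z * o1 ^ 2 - (q - 1) * (y * Z ^ 2 * b1 + 2 * (1 - Z)))| ≤ 50 ∧
    |2 * (q / (q + 1) * Z * (Z * b1 * o1 / 2 - o2)) + q / (q + 1) * (Z * (-2 * o2 + Z * b1 * o1))| ≤ 53 := by
  obtain ⟨hZl, hZu, hu1, hu2, hv1, hv2, ho, hy1, ht, hb1a, hb1b⟩ :=
    coer_alg_basic q Z b1 o1 X y hq hZ hb1 ho1 ho1' hX0 hX hy hy0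
  refine ⟨coer_alg_e1 q Z b1 o1 X y hq hZl hZu hu2 hv1 hy0 hy1 hX0 ht, ?_,
    coer_alg_e3 q Z b1 o1 X y hq hZl hZu hu2 hv2 hy0 hy1 hX0 ht hy,
    coer_alg_e4 q Z b1 o1 o2 y hq hZl hZu hb1a hb1b ho1 ho1' ho2 hy0 hy1,
    coer_alg_e5 q Z b1 o1 y hq hZl hZu hu1 hu2 hv1 hv2 hb1a hb1b ho hy0 hy1,
    coer_alg_e6 q Z b1 o1 o2 hq hZl hZu hb1a hb1b ho1 ho1' ho2⟩
  have : 0 ≤ Z * o1 ^ 2 := mul_nonneg (by linarith) (sq_nonneg _)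
  linarith

end Claimed.Agent.R324.Core
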