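/-
Row 324 (S0582), AP/A5 (pointwise coercivity), sub-architect helper232.   Blueprint origin/helper232:docs/R324_blueprint.md, section 7.2b.
Pure real inequality.
-/
import Claimed.Agent.R324.Core.AP.Coer.Defs

set_option autoImplicit false

namespace Claimed.Agent.R324.Core

open Set
open scoped ContDiff


theorem coer_alg_gen_aux_mxy (m C x y : ℝ) (hm : |m| ≤ C) : m * x * y ≤ C * (x ^ 2 + y ^ 2) / 2 := by
  have hC : 0 ≤ C := (abs_nonneg m).trans hm
  obtain ⟨h1, h2⟩ := abs_le.mp hm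
  have h3 : m * (x * y) ≤ C * |x * y| := by
    rcases le_total 0 (x * y) with h | h
    · rw [abs_of_nonneg h]; exact mul_le_mul_of_nonneg_right h2 h
    · rw [abs_of_nonpos h]; nlinarith
  have h4 : |x * y| ≤ (x ^ 2 + y ^ 2) / 2 := by
    rw [abs_le]; constructor <;> nlinarith [sq_nonneg (x - y), sq_nonneg (x + y)]
  nlinarith [mul_le_mul_of_nonneg_left h4 hC]

/-- ALG7.  general bound of the quadratic form. -/
theorem coer_alg_quad_gen (q C : ℝ) (hq : 10 ^ 6 ≤ q) (m : Fin 3 → Fin 3 → ℝ) (hm : ∀ i k, |m i k| ≤ C)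
    (ξ : Fin 3 → ℝ) :
    ∑ i, ∑ j, kapJ q i * m i j * ξ i * ξ j ≤ C * (q + 6) * nk q ξ := by
  have hq0 : (0:ℝ) < q := lt_of_lt_of_le (by norm_num) hq
  have hC : 0 ≤ C := (abs_nonneg (m 0 0)).trans (hm 0 0)
  have hr1 : q / (q + 1) ≤ 1 := by rw [div_le_one (by linarith)]; linarith
  have hr0 : 9 / 10 ≤ q / (q + 1) := by
    rw [div_le_div_iff₀ (by norm_num) (by linarith)]; norm_num at hq; linarith
  have hk0 : kapJ q 0 = q + 1 := rfl
  have hk1 : kapJ q 1 = 2 := rfl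
  have hk2 : kapJ q 2 = q / (q + 1) := rfl
  unfold nk
  simp only [Fin.sum_univ_three, hk0, hk1, hk2]
  generalize q / (q + 1) = r at hr0 hr1
  have a := fun i j => coer_alg_gen_aux_mxy (m i j) C (ξ i) (ξ j) (hm i j)
  have X0 := mul_nonneg hC (sq_nonneg (ξ 0))
  have X1 := mul_nonneg hC (sq_nonneg (ξ 1))
  have X2 := mul_nonneg hC (sq_nonneg (ξ 2))
  have hq1 : 0 ≤ q + 1 := by linarith
  have hr : 0 ≤ r := by linarith
  have b00 := mul_le_mul_of_nonneg_left (a 0 0) hq1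
  have b01 := mul_le_mul_of_nonneg_left (a 0 1) hq1
  have b02 := mul_le_mul_of_nonneg_left (a 0 2) hq1
  have b20 := mul_le_mul_of_nonneg_left (a 2 0) hr
  have b21 := mul_le_mul_of_nonneg_left (a 2 1) hr
  have b22 := mul_le_mul_of_nonneg_left (a 2 2) hr
  have c0 : 2 * (q + 1) + 1 + r / 2 ≤ (q + 6) * (q + 1) := by nlinarith
  have c1 : (q + 1) / 2 + 4 + r / 2 ≤ 2 * (q + 6) := by linarith
  have c2 : (q + 1) / 2 + 1 + 2 * r ≤ r * (q + 6) := by nlinarith
  have d0 := mul_le_mul_of_nonneg_right c0 X0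
  have d1 := mul_le_mul_of_nonneg_right c1 X1
  have d2 := mul_le_mul_of_nonneg_right c2 X2
  have a10 := a 1 0
  have a11 := a 1 1
  have a12 := a 1 2
  nlinarith

theorem coer_nk_nonneg (q : ℝ) (hq : 0 ≤ q) (ξ : Fin 3 → ℝ) : 0 ≤ nk q ξ := by
  have hk0 : kapJ q 0 = q + 1 := rfl
  have hk1 : kapJ q 1 = 2 := rfl
  have hk2 : kapJ q 2 = q / (q + 1) := rfl
  unfold nk
  simp only [Fin.sum_univ_three, hk0, hk1, hk2]
  positivity

end Claimed.Agent.R324.Core
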