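/-
Row 324 (S0582), AP/A5 (pointwise coercivity), sub-architect helper232.   Blueprint origin/helper232:docs/R324_blueprint.md, section 7.2b.
Pure real inequality.
-/
import Claimed.Agent.R324.Core.AP.Coer.Defs

set_option autoImplicit false

namespace Claimed.Agent.R324.Core

open Set
open scoped ContDiff


/-- ALG5.  the potential near the tip. -/
theorem coer_alg_pot (q Z Z1 Z2 b bt n1 n2 X y : ℝ) (hq : 10 ^ 6 ≤ q) (hZ : |Z - 1| ≤ 3 / q)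
    (hZ1 : |Z1| ≤ 15 / q) (hZ2 : |Z2| ≤ 62) (hb : q - 5 ≤ b) (hbt : |bt| ≤ 70)
    (hn1 : -(1 / 100) ≤ n1) (hn1' : n1 ≤ 9) (hn2 : |n2| ≤ 40) (hX0 : 0 ≤ X)
    (hy0 : 1 / 2 ≤ y) (hy1 : y ≤ 1) :
    Z * ((n2 + n1 ^ 2) + 2 * y * n1 + (y ^ 2 - X)) + 2 * (n1 + y) * Z1 + Z2 - (n1 + y) * b - bt
      ≤ 274 - (n1 + y) * (q - 5) := by
  have hq0 : (0:ℝ) < q := lt_of_lt_of_le (by norm_num) hq
  have h3q : 3 / q ≤ 3 / 10 ^ 6 := div_le_div_of_nonneg_left (by norm_num) (by norm_num) hq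
  have h15q : 15 / q ≤ 15 / 10 ^ 6 := div_le_div_of_nonneg_left (by norm_num) (by norm_num) hq
  obtain ⟨hZa, hZb⟩ := abs_le.mp hZ
  obtain ⟨hZ1a, hZ1b⟩ := abs_le.mp hZ1
  obtain ⟨hZ2a, hZ2b⟩ := abs_le.mp hZ2
  obtain ⟨hbta, hbtb⟩ := abs_le.mp hbt
  obtain ⟨hn2a, hn2b⟩ := abs_le.mp hn2
  have hE : (n2 + n1 ^ 2) + 2 * y * n1 + (y ^ 2 - X) ≤ 140 := by
    have e1 : n1 ^ 2 ≤ 81 := by nlinarith
    have e2 : 2 * y * n1 ≤ 18 := by
      rcases le_total 0 n1 with h | h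
      · nlinarith
      · nlinarith
    have e3 : y ^ 2 ≤ 1 := by nlinarith
    linarith
  have hZ0 : 0 ≤ Z := by norm_num at h3q; linarith
  have h1 := mul_le_mul_of_nonneg_left hE hZ0
  have hs0 : 0 ≤ n1 + y := by linarith
  have hs1 : n1 + y ≤ 10 := by linarith
  have hZ1c : Z1 ≤ 15 / 10 ^ 6 := by linarith
  have h2 : (n1 + y) * Z1 ≤ 10 * (15 / 10 ^ 6) := by
    calc (n1 + y) * Z1 ≤ (n1 + y) * (15 / 10 ^ 6) := mul_le_mul_of_nonneg_left hZ1c hs0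
      _ ≤ 10 * (15 / 10 ^ 6) := mul_le_mul_of_nonneg_right hs1 (by norm_num)
  have h3 := mul_le_mul_of_nonneg_left hb hs0
  norm_num at h3q h2
  nlinarith

end Claimed.Agent.R324.Core
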