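/-
Row 324 (S0582), AP/A5 (pointwise coercivity), sub-architect helper232.   Blueprint origin/helper232:docs/R324_blueprint.md, section 7.2b.
Pure real inequality.
-/
import Claimed.Agent.R324.Core.AP.Coer.Defs

set_option autoImplicit false

namespace Claimed.Agent.R324.Core

open Set
open scoped ContDiff


theorem coer_aq_cross (A B t T : ℝ) (hA : |A| ≤ B) (ht : |t| ≤ T) : A * t ≤ B * T :=
  (le_abs_self _).trans (by rw [abs_mul]; exact mul_le_mul hA ht (abs_nonneg _) ((abs_nonneg _).trans hA))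

theorem coer_aq_real (q P κ x0 x1 x2 m00 m11 m22 A01 A02 A12 : ℝ) (hq : 10 ^ 6 ≤ q) (hP : 0 ≤ P)
    (hκ : κ = q / (q + 1))
    (h00 : m00 ≤ 8) (h11 : m11 ≤ 2 * P) (h22 : m22 ≤ -q)
    (h01 : |A01| ≤ 81 / 10 * (q + 1)) (h02 : |A02| ≤ 50) (h12 : |A12| ≤ 53) :
    (q + 1) * x0 ^ 2 * m00 + 2 * x1 ^ 2 * m11 + κ * x2 ^ 2 * m22 + A01 * (x0 * x1) + A02 * (x0 * x2) + A12 * (x1 * x2)
      ≤ (2 * P + q / 100 + 14) * ((q + 1) * x0 ^ 2 + 2 * x1 ^ 2 + κ * x2 ^ 2) := by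
  have hq1 : 0 < q + 1 := by linarith
  have hκ2 : 1 / 2 ≤ κ := by rw [hκ, le_div_iff₀ hq1]; linarith
  have t00 : (q + 1) * x0 ^ 2 * m00 ≤ (q + 1) * x0 ^ 2 * 8 := mul_le_mul_of_nonneg_left h00 (by positivity)
  have t11 : 2 * x1 ^ 2 * m11 ≤ 2 * x1 ^ 2 * (2 * P) := mul_le_mul_of_nonneg_left h11 (by positivity)
  have t22 : κ * x2 ^ 2 * m22 ≤ κ * x2 ^ 2 * (-q) :=
    mul_le_mul_of_nonneg_left h22 (mul_nonneg (by linarith) (sq_nonneg _))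
  have a01 : |x0 * x1| ≤ (300 * x0 ^ 2 + x1 ^ 2 / 300) / 2 := by
    rw [abs_le]; constructor <;> nlinarith [sq_nonneg (300 * x0 - x1), sq_nonneg (300 * x0 + x1)]
  have a02 : |x0 * x2| ≤ (x0 ^ 2 + x2 ^ 2) / 2 := by
    rw [abs_le]; constructor <;> nlinarith [sq_nonneg (x0 - x2), sq_nonneg (x0 + x2)]
  have a12 : |x1 * x2| ≤ (x1 ^ 2 + x2 ^ 2) / 2 := by
    rw [abs_le]; constructor <;> nlinarith [sq_nonneg (x1 - x2), sq_nonneg (x1 + x2)]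
  have c01 := coer_aq_cross _ _ _ _ h01 a01
  have c02 := coer_aq_cross _ _ _ _ h02 a02
  have c12 := coer_aq_cross _ _ _ _ h12 a12
  have k0 : 1223 * (q + 1) + 25 ≤ (2 * P + q / 100 + 14) * (q + 1) := by nlinarith
  have k1 : 4 * P + 27 / 2000 * (q + 1) + 53 / 2 ≤ (2 * P + q / 100 + 14) * 2 := by linarith
  have k2 : -q * κ + 103 / 2 ≤ (2 * P + q / 100 + 14) * κ := by nlinarith
  have e0 := mul_le_mul_of_nonneg_right k0 (sq_nonneg x0)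
  have e1 := mul_le_mul_of_nonneg_right k1 (sq_nonneg x1)
  have e2 := mul_le_mul_of_nonneg_right k2 (sq_nonneg x2)
  nlinarith [t00, t11, t22, c01, c02, c12, e0, e1, e2]

/-- ALG2.  quadratic form from bounds of the entries.   `A |ξ₀ ξ₁| ≤ (A/2)(300 ξ₀² + ξ₁²/300)`; the other cross terms with weight 1. -/
theorem coer_alg_quad (q P : ℝ) (hq : 10 ^ 6 ≤ q) (hP : 0 ≤ P) (m : Fin 3 → Fin 3 → ℝ)
    (h00 : m 0 0 ≤ 8) (h11 : m 1 1 ≤ 2 * P) (h22 : m 2 2 ≤ -q)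
    (h01 : |(q + 1) * m 0 1 + 2 * m 1 0| ≤ 81 / 10 * (q + 1))
    (h02 : |(q + 1) * m 0 2 + q / (q + 1) * m 2 0| ≤ 50)
    (h12 : |2 * m 1 2 + q / (q + 1) * m 2 1| ≤ 53) (ξ : Fin 3 → ℝ) :
    ∑ i, ∑ j, kapJ q i * m i j * ξ i * ξ j ≤ (2 * P + q / 100 + 14) * nk q ξ := by
  have h := coer_aq_real q P (q / (q + 1)) (ξ 0) (ξ 1) (ξ 2) _ _ _ _ _ _ hq hP rfl h00 h11 h22 h01 h02 h12
  have e1 : ∑ i, ∑ j, kapJ q i * m i j * ξ i * ξ j = (q + 1) * ξ 0 ^ 2 * m 0 0 + 2 * ξ 1 ^ 2 * m 1 1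
      + q / (q + 1) * ξ 2 ^ 2 * m 2 2 + ((q + 1) * m 0 1 + 2 * m 1 0) * (ξ 0 * ξ 1)
      + ((q + 1) * m 0 2 + q / (q + 1) * m 2 0) * (ξ 0 * ξ 2) + (2 * m 1 2 + q / (q + 1) * m 2 1) * (ξ 1 * ξ 2) := by
    simp only [Fin.sum_univ_three, kapJ, Matrix.cons_val_zero, Matrix.cons_val_one, Matrix.cons_val]
    ring
  have e2 : nk q ξ = (q + 1) * ξ 0 ^ 2 + 2 * ξ 1 ^ 2 + q / (q + 1) * ξ 2 ^ 2 := by
    simp only [nk, Fin.sum_univ_three, kapJ, Matrix.cons_val_zero, Matrix.cons_val_one, Matrix.cons_val]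
  rw [e1, e2]
  exact h

end Claimed.Agent.R324.Core
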