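/-
Row 324 (S0582), AP/A5 (pointwise coercivity), sub-architect helper232.   Blueprint origin/helper232:docs/R324_blueprint.md, section 7.2b.
Pure real inequality.
-/
import Claimed.Agent.R324.Core.AP.Coer.Defs

set_option autoImplicit false

namespace Claimed.Agent.R324.Core

open Set
open scoped ContDiff


/-- ALG1.  `s = X/r̂²`, `P ≤ 1.001 (q-1) min(1, s/(100(1-s)))`.
Case `s ≥ 99/100`: `4P ≤ 4.004 (q-1) ≤ 4.009 (q-5)`.   Case `s < 99/100`: `100(1-s) ≥ 1`, so `P ≤ 1.001 (q-1) s`. -/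
theorem coer_alg_s (q a s P : ℝ) (hq : 10 ^ 6 ≤ q) (ha : 2 ≤ a) (hs0 : 0 ≤ s) (hs1 : s ≤ 1)
    (hP1 : P ≤ 1001 / 1000 * (q - 1)) (hP2 : 100 * (1 - s) * P ≤ 1001 / 1000 * (q - 1) * s) :
    4 * P ≤ (2 * a * s + 49 / 1000) * (q - 5) := by
  have hq5 : 0 ≤ q - 5 := by linarith
  have h1 : (2 * 2 * s + 49 / 1000) * (q - 5) ≤ (2 * a * s + 49 / 1000) * (q - 5) := by
    apply mul_le_mul_of_nonneg_right _ hq5
    nlinarith
  refine le_trans ?_ h1
  rcases le_total (99 / 100) s with hs | hs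
  · have h2 : (2 * 2 * (99 / 100) + 49 / 1000) * (q - 5) ≤ (2 * 2 * s + 49 / 1000) * (q - 5) := by
      apply mul_le_mul_of_nonneg_right _ hq5
      linarith
    linarith
  · rcases le_total 0 P with hP | hP
    · have h3 : P ≤ 100 * (1 - s) * P := by nlinarith
      have h4 : P ≤ 1001 / 1000 * (q - 1) * s := le_trans h3 hP2
      nlinarith
    · have : 0 ≤ (2 * 2 * s + 49 / 1000) * (q - 5) := by positivity
      linarith

end Claimed.Agent.R324.Core
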