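/-
Row 324 (S0582), AP/A5 (pointwise coercivity), sub-architect helper232.   Blueprint origin/helper232:docs/R324_blueprint.md, section 7.2b.
Pure real inequality.
-/
import Claimed.Agent.R324.Core.AP.Coer.Defs
import Claimed.Agent.R324.Core.AP.Coer.AlgS

set_option autoImplicit false

namespace Claimed.Agent.R324.Core

open Set
open scoped ContDiff


/-- ALG6.  the final inequality near the tip:  `τ ≤ 1` collects `X ∂_t V/V` and the `c`-term. -/
theorem coer_alg_tip (q a s P n1 y X τ : ℝ) (hq : 10 ^ 6 ≤ q) (ha : 2 ≤ a) (ha4 : a ≤ 4) (hs0 : 0 ≤ s)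
    (hs1 : s ≤ 1) (hP1 : P ≤ 1001 / 1000 * (q - 1))
    (hP2 : 100 * (1 - s) * P ≤ 1001 / 1000 * (q - 1) * s) (hX0 : 0 ≤ X) (hX : X ≤ 1 / q ^ 2)
    (hy : y ^ 2 = 1 - X) (hy0 : 0 ≤ y) (hn1 : 2 * y * (a * s) - 1 / 100 ≤ n1) (hτ : τ ≤ 1) :
    τ + (274 - (n1 + y) * (q - 5)) + 2 * (2 * P + q / 100 + 14) ≤ -(q / 4) := by
  have hq5 : 0 ≤ q - 5 := by linarith
  have hP := coer_alg_s q a s P hq ha hs0 hs1 hP1 hP2
  have hX1 : X ≤ 1 / 1000 := by
    refine le_trans hX ?_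
    rw [div_le_div_iff₀ (by positivity) (by norm_num)]
    nlinarith
  have hy1 : y ≤ 1 := by nlinarith
  have hyX : 1 - y ≤ X := by nlinarith
  have has : 0 ≤ a * s := by positivity
  have has4 : a * s ≤ 4 := by nlinarith
  have h1 : 2 * (a * s) * (1 - y) ≤ 8 / 1000 := by nlinarith
  have h2 : (2 * y * (a * s) - 1 / 100 + y) * (q - 5) ≤ (n1 + y) * (q - 5) := by
    apply mul_le_mul_of_nonneg_right _ hq5
    linarith
  have h3 : (93 / 100 : ℝ) * (q - 5) ≤
      ((2 * y * (a * s) - 1 / 100 + y) - (2 * a * s + 49 / 1000)) * (q - 5) := by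
    apply mul_le_mul_of_nonneg_right _ hq5
    nlinarith
  nlinarith

end Claimed.Agent.R324.Core
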