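/-
Row 324 (S0582), AP/A5 (pointwise coercivity), sub-architect helper232.   Blueprint origin/helper232:docs/R324_blueprint.md, section 7.2b.
The normalised coefficients are bounded (from the symbol bounds BgSym).
-/
import Claimed.Agent.R324.Core.AP.Coer.Defs

set_option autoImplicit false

namespace Claimed.Agent.R324.Core

open Set
open scoped ContDiff

theorem coer_norm_abs_mul {a b A B : ℝ} (ha : |a| ≤ A) (hb : |b| ≤ B) : |a * b| ≤ A * B := by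
  rw [abs_mul]
  exact mul_le_mul ha hb (abs_nonneg _) ((abs_nonneg _).trans ha)

/-- `|v| ≤ C Θ⁻¹ r^{-j}`, `0 ≤ X ≤ (4/3) r`, `X ≤ (4/3) Θ`  ⟹  `|X^{j+1} v| ≤ (4/3)^{j+1} |C|`. -/
theorem coer_norm_scale {C r Θ X v : ℝ} (hr : 0 < r) (hΘ : 0 < Θ) (hX0 : 0 ≤ X) (hX : X ≤ 4 / 3 * r)
    (hXΘ : X ≤ 4 / 3 * Θ) (j : ℕ) (h : |v| ≤ C * (1 / Θ) / r ^ j) :
    |X ^ (j + 1) * v| ≤ (4 / 3) ^ (j + 1) * |C| := by
  have h1 : X ^ (j + 1) ≤ (4 / 3 * r) ^ j * (4 / 3 * Θ) := by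
    rw [pow_succ]
    exact mul_le_mul (pow_le_pow_left₀ hX0 hX j) hXΘ hX0 (by positivity)
  have h2 : 0 ≤ (4 / 3 * r) ^ j * (4 / 3 * Θ) := by positivity
  rw [abs_mul, abs_of_nonneg (pow_nonneg hX0 _)]
  calc X ^ (j + 1) * |v| ≤ (4 / 3 * r) ^ j * (4 / 3 * Θ) * |v| :=
        mul_le_mul_of_nonneg_right h1 (abs_nonneg _)
    _ ≤ (4 / 3 * r) ^ j * (4 / 3 * Θ) * (C * (1 / Θ) / r ^ j) := mul_le_mul_of_nonneg_left h h2
    _ = (4 / 3) ^ (j + 1) * C := by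
        rw [mul_pow, pow_succ]
        field_simp
    _ ≤ (4 / 3) ^ (j + 1) * |C| := mul_le_mul_of_nonneg_left (le_abs_self _) (by positivity)

/-- `𝖽 = -2 y B + X B'`. -/
theorem coer_norm_dd (g : Bg) (hg : BgSm g) {t : ℝ} (ht : t < 0) (y : ℝ) :
    g.dd (t, y) = -2 * y * g.B (t, y) + Xf y * dY g.B (t, y) :=
  ((hasDerivAt_Xf y).mul (hg.smB.hasDerivAt_y ht y)).deriv

/-- `𝖽' = -2 B - 4 y B' + X B''`. -/
theorem coer_norm_dd' (g : Bg) (hg : BgSm g) {t : ℝ} (ht : t < 0) (y : ℝ) :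
    dY g.dd (t, y) = -2 * g.B (t, y) - 4 * y * dY g.B (t, y) + Xf y * dY (dY g.B) (t, y) := by
  have e : dY g.dd (t, y) = dY (fun p => -2 * p.2 * g.B p + Xf p.2 * dY g.B p) (t, y) :=
    dY_congr (fun z => coer_norm_dd g hg ht z) y
  rw [e]
  have h1 : HasDerivAt (fun z : ℝ => -2 * z) (-2) y := by
    have := (hasDerivAt_id' y).const_mul (-2 : ℝ)
    exact this.congr_deriv (by ring)
  have h2 := (h1.mul (hg.smB.hasDerivAt_y ht y)).add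
    ((hasDerivAt_Xf y).mul (hg.smB.dY.hasDerivAt_y ht y))
  have h3 : dY (fun p => -2 * p.2 * g.B p + Xf p.2 * dY g.B p) (t, y) = _ := h2.deriv
  rw [h3]
  ring

/-- `tt (X 𝖽) = 2 y (X 𝖽) + 2 X (X B) + 4 y (X² B') - X³ B''`. -/
theorem coer_norm_tt (g : Bg) (hg : BgSm g) {t : ℝ} (ht : t < 0) (y : ℝ) :
    tt (fun z => Xf z * g.dd (t, z)) y = 2 * (y * (Xf y * g.dd (t, y))) + 2 * (Xf y * (Xf y ^ 1 * g.B (t, y)))
      + 4 * (y * (Xf y ^ 2 * dY g.B (t, y))) - Xf y ^ 3 * dY (dY g.B) (t, y) := by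
  have h1 := ((hasDerivAt_Xf y).mul (hg.smdd.hasDerivAt_y ht y)).deriv
  have h2 : deriv (fun z => Xf z * g.dd (t, z)) y = -2 * y * g.dd (t, y) + Xf y * dY g.dd (t, y) := h1
  unfold tt
  rw [h2, coer_norm_dd' g hg ht y]
  unfold Xf
  ring

/-- all normalised quantities are bounded.   `SymC` with `j = 0, 1, 2` (`iteratedDeriv_sl`: `iteratedDeriv j (sl f t) y = dY^[j] f (t,y)`):
`|B| ≤ C/r̂²`, `|B'| ≤ C/r̂⁴`, `|B''| ≤ C/r̂⁶`, `|w'| ≤ C/r̂²`, `|w''| ≤ C/r̂⁴`, `e^{-w} ≤ C/r̂²`, `|W| ≤ C/Θ`, `|W'| ≤ C/(Θ r̂²)`;  `0 ≤ X ≤ (4/3) r̂²`, `X ≤ (4/3) Θ` (`w0_Xf_le_rh2`, `w0_Xf_le_Th`), `|y| ≤ 1`.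
`𝖽 = -2 y B + X B'`,  `𝖽' = -2 B - 4 y B' + X B''`,  `tt (X 𝖽) = -X (-2 y 𝖽 + X 𝖽')`;   `0 < Z ≤ C` from `1/C ≤ 1 + X B`. -/
theorem coer_norm_bd (q : ℝ) (hq : 10 ^ 6 ≤ q) (g : Bg) (hg : BgSm g) (hs : BgSym q g) :
    ∃ C Λ₀ : ℝ, 0 ≤ C ∧ 0 < Λ₀ ∧ ∀ t ∈ Ico (-Λ₀) 0, ∀ y ∈ Icc (-1 : ℝ) 1,
      |g.Z (t, y)| ≤ C ∧ |Xf y * g.dd (t, y)| ≤ C ∧ |tt (fun z => Xf z * g.dd (t, z)) y| ≤ C ∧
      |Xf y * g.wp (t, y)| ≤ C ∧ |Xf y ^ 2 * g.wpp (t, y)| ≤ C ∧ |Xf y * Real.exp (-g.w (t, y))| ≤ C ∧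
      |Xf y * g.W (t, y)| ≤ C ∧ |Xf y ^ 2 * dY g.W (t, y)| ≤ C := by
  have hq1 : (1 : ℝ) < q := by linarith
  obtain ⟨Λ₀, C, hΛ, hB, hw, he, hW, hlow⟩ := hs
  refine ⟨22 * |C| + 1, Λ₀, by positivity, hΛ, ?_⟩
  intro t ht y hy
  have ht0 : t < 0 := ht.2
  have hr := w0_rh2_pos hq1 ht0 hy
  have hΘ := w0_Th_pos ht0 hy
  have hXr := w0_Xf_le_rh2 hq1 ht0 hy
  have hXΘ := w0_Xf_le_Th ht0 hy
  have hX0 : 0 ≤ Xf y := by
    unfold Xf
    nlinarith [hy.1, hy.2]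
  have hX1 : Xf y ≤ 1 := by
    unfold Xf
    nlinarith [sq_nonneg y]
  have hXa : |Xf y| ≤ 1 := by rw [abs_of_nonneg hX0]; exact hX1
  have hya : |y| ≤ 1 := abs_le.2 hy
  have hc := abs_nonneg C
  -- the raw bounds
  have B0 : |g.B (t, y)| ≤ C * (1 / rh2 q t y) / rh2 q t y ^ 0 := by
    have h := hB t ht y hy 0 (by norm_num)
    rw [iteratedDeriv_sl] at h
    exact h
  have B1 : |dY g.B (t, y)| ≤ C * (1 / rh2 q t y) / rh2 q t y ^ 1 := by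
    have h := hB t ht y hy 1 (by norm_num)
    rw [iteratedDeriv_sl] at h
    exact h
  have B2 : |dY (dY g.B) (t, y)| ≤ C * (1 / rh2 q t y) / rh2 q t y ^ 2 := by
    have h := hB t ht y hy 2 (by norm_num)
    rw [iteratedDeriv_sl] at h
    exact h
  have w1 : |g.wp (t, y)| ≤ C * (1 / rh2 q t y) / rh2 q t y ^ 0 := by
    have h := hw t ht y hy 0 (by norm_num)
    rw [iteratedDeriv_sl] at h
    exact h
  have w2 : |g.wpp (t, y)| ≤ C * (1 / rh2 q t y) / rh2 q t y ^ 1 := by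
    have h := hw t ht y hy 1 (by norm_num)
    rw [iteratedDeriv_sl] at h
    exact h
  have e0 : |Real.exp (-g.w (t, y))| ≤ C * (1 / rh2 q t y) / rh2 q t y ^ 0 := by
    have h := he t ht y hy 0 (by norm_num)
    rw [iteratedDeriv_sl] at h
    exact h
  have W0 : |g.W (t, y)| ≤ C * (1 / Th t y) / rh2 q t y ^ 0 := by
    have h := hW t ht y hy 0 (by norm_num)
    rw [iteratedDeriv_sl] at h
    exact h
  have W1 : |dY g.W (t, y)| ≤ C * (1 / Th t y) / rh2 q t y ^ 1 := by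
    have h := hW t ht y hy 1 (by norm_num)
    rw [iteratedDeriv_sl] at h
    exact h
  -- the scaled bounds
  have p1 : ((4 : ℝ) / 3) ^ (0 + 1) = 4 / 3 := by norm_num
  have p2 : ((4 : ℝ) / 3) ^ (1 + 1) = 16 / 9 := by norm_num
  have p3 : ((4 : ℝ) / 3) ^ (2 + 1) = 64 / 27 := by norm_num
  have x1 : Xf y ^ (0 + 1) = Xf y := by rw [zero_add, pow_one]
  have sB0 : |Xf y * g.B (t, y)| ≤ 4 / 3 * |C| := by
    have h := coer_norm_scale hr hr hX0 hXr hXr 0 B0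
    rwa [p1, x1] at h
  have sB1 : |Xf y ^ 2 * dY g.B (t, y)| ≤ 16 / 9 * |C| := by
    have h := coer_norm_scale hr hr hX0 hXr hXr 1 B1
    rwa [p2] at h
  have sB2 : |Xf y ^ 3 * dY (dY g.B) (t, y)| ≤ 64 / 27 * |C| := by
    have h := coer_norm_scale hr hr hX0 hXr hXr 2 B2
    rwa [p3] at h
  have sw1 : |Xf y * g.wp (t, y)| ≤ 4 / 3 * |C| := by
    have h := coer_norm_scale hr hr hX0 hXr hXr 0 w1
    rwa [p1, x1] at h
  have sw2 : |Xf y ^ 2 * g.wpp (t, y)| ≤ 16 / 9 * |C| := by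
    have h := coer_norm_scale hr hr hX0 hXr hXr 1 w2
    rwa [p2] at h
  have se0 : |Xf y * Real.exp (-g.w (t, y))| ≤ 4 / 3 * |C| := by
    have h := coer_norm_scale hr hr hX0 hXr hXr 0 e0
    rwa [p1, x1] at h
  have sW0 : |Xf y * g.W (t, y)| ≤ 4 / 3 * |C| := by
    have h := coer_norm_scale hr hΘ hX0 hXr hXΘ 0 W0
    rwa [p1, x1] at h
  have sW1 : |Xf y ^ 2 * dY g.W (t, y)| ≤ 16 / 9 * |C| := by
    have h := coer_norm_scale hr hΘ hX0 hXr hXΘ 1 W1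
    rwa [p2] at h
  -- `Z`
  have hpos := hg.pos t ht0 y
  have hC : 0 ≤ C := by
    have h5 : 0 ≤ C * (1 / rh2 q t y) / rh2 q t y ^ 0 := (abs_nonneg _).trans B0
    rw [pow_zero, div_one] at h5
    by_contra hneg
    push Not at hneg
    have : C * (1 / rh2 q t y) < 0 := mul_neg_of_neg_of_pos hneg (by positivity)
    linarith
  have hZ0 : 0 ≤ g.Z (t, y) := (hg.Z_pos ht0 y).le
  have hZ1 : g.Z (t, y) ≤ |C| + 1 := by
    rw [abs_of_nonneg hC]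
    show 1 / (1 + Xf y * g.B (t, y)) ≤ C + 1
    rcases hC.eq_or_lt with h | h
    · have hB0 : g.B (t, y) = 0 := by
        rw [← h] at B0
        simpa using B0
      rw [hB0, ← h]; simp
    · have h5 := hlow t ht y hy
      have h6 : 1 / (1 + Xf y * g.B (t, y)) ≤ C := by
        rw [div_le_iff₀ hpos]
        rw [div_le_iff₀ h] at h5
        linarith
      linarith
  -- `X 𝖽`
  have edd : Xf y * g.dd (t, y) = -2 * (y * (Xf y * g.B (t, y))) + Xf y ^ 2 * dY g.B (t, y) := by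
    rw [coer_norm_dd g hg ht0 y]
    ring
  have yB0 := abs_le.1 (coer_norm_abs_mul hya sB0)
  have yB1 := abs_le.1 (coer_norm_abs_mul hya sB1)
  have XB0 := abs_le.1 (coer_norm_abs_mul hXa sB0)
  have aB1 := abs_le.1 sB1
  have aB2 := abs_le.1 sB2
  have sdd : |Xf y * g.dd (t, y)| ≤ 40 / 9 * |C| := by
    rw [edd, abs_le]
    constructor <;> linarith [yB0.1, yB0.2, aB1.1, aB1.2]
  have ydd := abs_le.1 (coer_norm_abs_mul hya sdd)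
  have stt : |tt (fun z => Xf z * g.dd (t, z)) y| ≤ 568 / 27 * |C| := by
    rw [coer_norm_tt g hg ht0 y, pow_one, abs_le]
    constructor <;> linarith [ydd.1, ydd.2, XB0.1, XB0.2, yB1.1, yB1.2, aB2.1, aB2.2]
  refine ⟨?_, ?_, ?_, ?_, ?_, ?_, ?_, ?_⟩
  · rw [abs_of_nonneg hZ0]; linarith
  · linarith
  · linarith
  · linarith
  · linarith
  · linarith
  · linarith
  · linarith

end Claimed.Agent.R324.Core
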