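/-
Row 324 (S0582), AP/A5 (pointwise coercivity), sub-architect helper232.   Blueprint origin/helper232:docs/R324_blueprint.md, section 7.2b.
The time derivative of Z.
-/
import Claimed.Agent.R324.Core.AP.Coer.Defs

set_option autoImplicit false

namespace Claimed.Agent.R324.Core

open Set
open scoped ContDiff

/-- `∂_t Z = -Z² X ∂_t B`. -/
theorem coer_dtZ_formula {g : Bg} (hg : BgSm g) {t : ℝ} (ht : t < 0) (y : ℝ) :
    dT g.Z (t, y) = -(g.Z (t, y)) ^ 2 * (Xf y * dT g.B (t, y)) := by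
  have h1 : HasDerivAt (fun s => 1 + Xf y * g.B (s, y)) (Xf y * dT g.B (t, y)) t :=
    ((hg.smB.hasDerivAt_t ht y).const_mul (Xf y)).const_add 1
  have h0 := hg.den_ne t ht y
  have h2 : HasDerivAt (fun s => g.Z (s, y))
      (-(Xf y * dT g.B (t, y)) / (1 + Xf y * g.B (t, y)) ^ 2) t := by
    have h3 := h1.fun_inv h0
    refine h3.congr_of_eventuallyEq (Filter.Eventually.of_forall fun s => ?_)
    simp [Bg.Z]
  rw [dT_of_hasDerivAt h2]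
  simp only [Bg.Z]
  field_simp

/-- `∂_t Z = -Z² X ∂_t B`  (`Sm.hasDerivAt_t`, `HasDerivAt.inv`/`.div`),  `|∂_t B| ≤ C/(r̂² Θ)` (`BgSymT`, `i = 1`, `j = 0`),  `0 < Z ≤ C` (`BgSym`),  `X ≤ (4/3) r̂²`. -/
theorem coer_dtZ_bd (q : ℝ) (hq : 10 ^ 6 ≤ q) (g : Bg) (hg : BgSm g) (hs : BgSym q g) (hT : BgSymT q g) :
    ∃ C Λ₀ : ℝ, 0 ≤ C ∧ 0 < Λ₀ ∧ ∀ t ∈ Ico (-Λ₀) 0, ∀ y ∈ Icc (-1 : ℝ) 1,
      Th t y * |dT g.Z (t, y)| ≤ C := by
  obtain ⟨Λ₁, C₁, hΛ₁, hB, -, -, -, hlow⟩ := hs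
  obtain ⟨Λ₂, C₂, hΛ₂, hT'⟩ := hT
  obtain ⟨hTB, -, -⟩ := hT' 1 le_rfl (by norm_num)
  have hq1 : (1 : ℝ) < q := lt_of_lt_of_le (by norm_num) hq
  refine ⟨4 / 3 * |C₂| * (max C₁ 1) ^ 2, min Λ₁ Λ₂, by positivity, lt_min hΛ₁ hΛ₂, ?_⟩
  intro t ht y hy
  have ht0 : t < 0 := ht.2
  have ht1 : t ∈ Ico (-Λ₁) 0 := ⟨by have := min_le_left Λ₁ Λ₂; linarith [ht.1], ht0⟩
  have ht2 : t ∈ Ico (-Λ₂) 0 := ⟨by have := min_le_right Λ₁ Λ₂; linarith [ht.1], ht0⟩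
  have hr := w0_rh2_pos hq1 ht0 hy
  have hTh := w0_Th_pos ht0 hy
  have hX0 := w0_Xf_nonneg hy
  have hXr := w0_Xf_le_rh2 hq1 ht0 hy
  have hm : 0 < max C₁ 1 := lt_max_of_lt_right one_pos
  have hden : 1 / max C₁ 1 ≤ 1 + Xf y * g.B (t, y) := by
    have h1 := hlow t ht1 y hy
    rcases le_or_gt C₁ 0 with hC | hC
    · have h2 := hB t ht1 y hy 0 (by norm_num)
      simp only [iteratedDeriv_zero, pow_zero, div_one] at h2
      have h3 : C₁ * (1 / rh2 q t y) ≤ 0 := mul_nonpos_of_nonpos_of_nonneg hC (by positivity)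
      have h4 : g.B (t, y) = 0 := abs_nonpos_iff.1 (h2.trans h3)
      rw [h4, mul_zero, add_zero, max_eq_right (by linarith)]
      norm_num
    · exact le_trans (one_div_le_one_div_of_le hC (le_max_left _ _)) h1
  have hZpos := hg.Z_pos ht0 y
  have hZle : g.Z (t, y) ≤ max C₁ 1 := by
    simp only [Bg.Z]
    rw [div_le_iff₀ (hg.pos t ht0 y)]
    have h5 := mul_le_mul_of_nonneg_left hden hm.le
    rwa [mul_one_div_cancel hm.ne'] at h5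
  have hdB : |dT g.B (t, y)| ≤ |C₂| / (rh2 q t y * Th t y) := by
    have h2 := hTB t ht2 y hy 0 (by norm_num)
    simp only [iteratedDeriv_zero, pow_zero, div_one, pow_one, Function.iterate_one] at h2
    calc |dT g.B (t, y)| ≤ C₂ * (1 / (rh2 q t y * Th t y)) := h2
      _ ≤ |C₂| * (1 / (rh2 q t y * Th t y)) := by gcongr; exact le_abs_self _
      _ = |C₂| / (rh2 q t y * Th t y) := by ring
  rw [coer_dtZ_formula hg ht0 y, abs_mul, abs_mul, abs_neg, abs_of_nonneg hX0,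
    abs_of_nonneg (sq_nonneg _)]
  calc Th t y * (g.Z (t, y) ^ 2 * (Xf y * |dT g.B (t, y)|))
      ≤ Th t y * ((max C₁ 1) ^ 2 * (4 / 3 * rh2 q t y * (|C₂| / (rh2 q t y * Th t y)))) := by
        gcongr
    _ = 4 / 3 * |C₂| * (max C₁ 1) ^ 2 := by field_simp

end Claimed.Agent.R324.Core
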