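/-
Row 324 (S0582), AP/A5 (pointwise coercivity), sub-architect helper232.   Blueprint origin/helper232:docs/R324_blueprint.md, section 7.2b.
`CoefBd` from the symbol bounds.
-/
import Claimed.Agent.R324.Core.AP.Coer.Form
import Claimed.Agent.R324.Core.AP.Coer.NormBd
import Claimed.Agent.R324.Core.AP.Coer.NormDt
import Claimed.Agent.R324.Core.AP.Coer.AlgBd

set_option autoImplicit false

namespace Claimed.Agent.R324.Core

open Set
open scoped ContDiff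

/-- `CoefBd` for ANY smooth background with the symbol bounds (A3), (A4).
`coer_norm_bd` (constant `C₁`; take `C = max 1 C₁`), `coer_dtZ_bd`, the formulas `coer_ttZ`, `coer_tt2Z`, `coer_bh`, `coer_ttbh`, `coer_mF_formula` and `coer_alg_bd`;  final constant `max (100 q² C⁵) C₂`, `Λ₀ = min`. -/
theorem coefBd_of (q : ℝ) (hq : 10 ^ 6 ≤ q) (g : Bg) (hg : BgSm g) (hs : BgSym q g) (hT : BgSymT q g) :
    CoefBd q g := by
  obtain ⟨C₁, Λ₁, hC₁, hΛ₁, h1⟩ := coer_norm_bd q hq g hg hs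
  obtain ⟨C₂, Λ₂, hC₂, hΛ₂, h2⟩ := coer_dtZ_bd q hq g hg hs hT
  obtain ⟨C, hCdef⟩ : ∃ C : ℝ, C = max 1 C₁ := ⟨_, rfl⟩
  have hC1 : 1 ≤ C := hCdef ▸ le_max_left _ _
  have hCC : C₁ ≤ C := hCdef ▸ le_max_right _ _
  have hq0 : (0 : ℝ) < q := lt_of_lt_of_le (by norm_num) hq
  have hq1 : (1 : ℝ) ≤ q := le_trans (by norm_num) hq
  obtain ⟨K, hK⟩ : ∃ K : ℝ, K = max (100 * q ^ 2 * C ^ 5) C₂ := ⟨_, rfl⟩
  have hK5 : 100 * q ^ 2 * C ^ 5 ≤ K := hK ▸ le_max_left _ _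
  have hK2 : C₂ ≤ K := hK ▸ le_max_right _ _
  have h45 : 100 * q ^ 2 * C ^ 4 ≤ 100 * q ^ 2 * C ^ 5 := by
    have : C ^ 4 ≤ C ^ 5 := pow_le_pow_right₀ hC1 (by norm_num)
    gcongr
  have hK4 : 100 * q ^ 2 * C ^ 4 ≤ K := h45.trans hK5
  have hKC : C ≤ K := by
    refine le_trans ?_ hK5
    have e1 : C ≤ C ^ 5 := by
      calc C = C ^ 1 := (pow_one C).symm
        _ ≤ C ^ 5 := pow_le_pow_right₀ hC1 (by norm_num)
    have e2 : (1 : ℝ) ≤ 100 * q ^ 2 := by nlinarith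
    have e3 : 0 ≤ C ^ 5 := by positivity
    nlinarith
  refine ⟨K, min Λ₁ Λ₂, lt_min hΛ₁ hΛ₂, ?_⟩
  intro t ht y hy
  have ht0 : t < 0 := ht.2
  have ht1 : t ∈ Ico (-Λ₁) 0 := ⟨by have := min_le_left Λ₁ Λ₂; linarith [ht.1], ht0⟩
  have ht2 : t ∈ Ico (-Λ₂) 0 := ⟨by have := min_le_right Λ₁ Λ₂; linarith [ht.1], ht0⟩
  obtain ⟨a1, a2, a3, a4, a5, a6, a7, a8⟩ := h1 t ht1 y hy
  obtain ⟨b1, b2, b3, b4, m00, m01, m02, m10, m11, m12, m20, m21, m22⟩ :=
    coer_alg_bd q C (g.Z (t, y)) (Xf y * g.dd (t, y)) (tt (fun z => Xf z * g.dd (t, z)) y)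
      (Xf y * g.wp (t, y)) (Xf y ^ 2 * g.wpp (t, y)) (Xf y * Real.exp (-g.w (t, y)))
      (Xf y * g.W (t, y)) (Xf y ^ 2 * dY g.W (t, y)) (Xf y) y hq hC1 (a1.trans hCC) (a2.trans hCC)
      (a3.trans hCC) (a4.trans hCC) (a5.trans hCC) (a6.trans hCC) (a7.trans hCC) (a8.trans hCC)
      (w0_Xf_nonneg hy) (w0_Xf_le_one y) (abs_le.2 hy)
  refine ⟨(a1.trans hCC).trans hKC, ?_, ?_, ?_, ?_, ?_, (h2 t ht2 y hy).trans hK2⟩
  · rw [coer_ttZ hg ht0]
    exact b1.trans hK4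
  · rw [coer_tt2Z hg ht0]
    exact b2.trans hK5
  · rw [coer_bh]
    exact b3.trans hK4
  · rw [coer_ttbh q hg ht0]
    exact b4.trans hK5
  · obtain ⟨f00, f01, f02, f10, f11, f12, f20, f21, f22⟩ := coer_mF_formula q hq0 hg ht0 y
    intro i k
    fin_cases i <;> fin_cases k
    · exact (congrArg abs f00).le.trans (m00.trans hK4)
    · exact (congrArg abs f01).le.trans (m01.trans hK4)
    · exact (congrArg abs f02).le.trans (m02.trans hK4)
    · exact (congrArg abs f10).le.trans (m10.trans hK4)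
    · exact (congrArg abs f11).le.trans (m11.trans hK4)
    · exact (congrArg abs f12).le.trans (m12.trans hK4)
    · exact (congrArg abs f20).le.trans (m20.trans hK4)
    · exact (congrArg abs f21).le.trans (m21.trans hK4)
    · exact (congrArg abs f22).le.trans (m22.trans hK4)

end Claimed.Agent.R324.Core
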