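/-
Row 324 (S0582), AP/A5 (pointwise coercivity), sub-architect helper232.   Blueprint origin/helper232:docs/R324_blueprint.md, section 7.2b.
Formulas for the coefficients of the tt-form in the normalised quantities Z, b1 = X dd, tb = tt (X dd), o1 = X w', o2 = X^2 w'', P = X e^{-w}, p0 = X W, p1 = X^2 W'.
Calculus toolkit: Core/PR/Sm.lean, SmBg.lean  (tt f y = -(1-y^2) f'(y)).
-/
import Claimed.Agent.R324.Core.AP.Coer.Defs
import Claimed.Agent.R324.Core.AP.Coer.FormZ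

set_option autoImplicit false

namespace Claimed.Agent.R324.Core

open Set
open scoped ContDiff

variable {g : Bg} {t : ℝ}

/-- `tt (X w') = 2 y X w' - X² w''`, `tt (X W) = 2 y X W - X² W'`, `tt y = -X`. -/
theorem coer_ttbh (q : ℝ) (hg : BgSm g) (ht : t < 0) (y : ℝ) :
    tt (sl (g.bh q) t) y
      = (q - 1) * (-Xf y * g.Z (t, y) + y * (g.Z (t, y) ^ 2 * (Xf y * g.dd (t, y))))
        - (-g.Z (t, y) * (g.Z (t, y) ^ 2 * (Xf y * g.dd (t, y))) * (Xf y * g.dd (t, y))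
          - g.Z (t, y) ^ 2 * tt (fun z => Xf z * g.dd (t, z)) y / 2
          + g.Z (t, y) ^ 2 * (Xf y * g.dd (t, y)) * (Xf y * g.wp (t, y))
          + g.Z (t, y) * (2 * y * (Xf y * g.wp (t, y)) - Xf y ^ 2 * g.wpp (t, y))
          + 2 * y * (Xf y * g.W (t, y)) - Xf y ^ 2 * dY g.W (t, y)) := by
  have hZ : HasDerivAt (fun z => g.Z (t, z)) (-(g.Z (t, y)) ^ 2 * g.dd (t, y)) y := by
    have := hg.smZ.hasDerivAt_y ht y
    rwa [hg.dY_Z ht y] at this
  have hb : HasDerivAt (fun z => Xf z * g.dd (t, z)) (deriv (fun z => Xf z * g.dd (t, z)) y) y :=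
    ((sm_Xf.mul hg.smdd).hasDerivAt_y ht y).differentiableAt.hasDerivAt
  have ho : HasDerivAt (fun z => Xf z * g.wp (t, z)) (-2 * y * g.wp (t, y) + Xf y * g.wpp (t, y)) y :=
    (hasDerivAt_Xf y).mul (hg.smwp.hasDerivAt_y ht y)
  have hW : HasDerivAt (fun z => Xf z * g.W (t, z)) (-2 * y * g.W (t, y) + Xf y * dY g.W (t, y)) y :=
    (hasDerivAt_Xf y).mul (hg.smW.hasDerivAt_y ht y)
  have e : sl (g.bh q) t = fun z => (q - 1) * z * g.Z (t, z)
      - (-g.Z (t, z) ^ 2 * (Xf z * g.dd (t, z)) / 2 + g.Z (t, z) * (Xf z * g.wp (t, z)) + Xf z * g.W (t, z)) := by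
    funext z
    exact coer_bh q g t z
  have hd := ((((hasDerivAt_id y).const_mul (q - 1)).mul hZ)).sub
    (((((hZ.pow 2).neg.mul hb).div_const 2).add (hZ.mul ho)).add hW)
  have e2 : tt (sl (g.bh q) t) y = -(1 - y ^ 2) * deriv (fun z => (q - 1) * z * g.Z (t, z)
      - (-g.Z (t, z) ^ 2 * (Xf z * g.dd (t, z)) / 2 + g.Z (t, z) * (Xf z * g.wp (t, z)) + Xf z * g.W (t, z))) y := by
    rw [e]
    rfl
  have e3 : tt (fun z => Xf z * g.dd (t, z)) y = -(1 - y ^ 2) * deriv (fun z => Xf z * g.dd (t, z)) y := rfl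
  have e4 : deriv (fun z => (q - 1) * z * g.Z (t, z)
      - (-g.Z (t, z) ^ 2 * (Xf z * g.dd (t, z)) / 2 + g.Z (t, z) * (Xf z * g.wp (t, z)) + Xf z * g.W (t, z))) y = _ :=
    hd.deriv
  rw [e2, e3, e4]
  simp only [Pi.pow_apply, Pi.neg_apply, id]
  generalize deriv (fun z => Xf z * g.dd (t, z)) y = D
  have hX : Xf y = 1 - y ^ 2 := rfl
  rw [hX]
  push_cast
  ring

end Claimed.Agent.R324.Core
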