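/-
Row 324 (S0582), AP/A5 (pointwise coercivity), sub-architect helper232.   Blueprint origin/helper232:docs/R324_blueprint.md, section 7.2b.
Formulas for the coefficients of the tt-form in the normalised quantities Z, b1 = X dd, tb = tt (X dd), o1 = X w', o2 = X^2 w'', P = X e^{-w}, p0 = X W, p1 = X^2 W'.
Calculus toolkit: Core/PR/Sm.lean, SmBg.lean  (tt f y = -(1-y^2) f'(y)).
-/
import Claimed.Agent.R324.Core.AP.Coer.Defs

set_option autoImplicit false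

namespace Claimed.Agent.R324.Core

open Set
open scoped ContDiff

variable {g : Bg} {t : ℝ}

/-- aux: `𝖽 = -2 y B + X B'`. -/
theorem coer_formM_dd (hg : BgSm g) (ht : t < 0) (y : ℝ) :
    g.dd (t, y) = -2 * y * g.B (t, y) + Xf y * g.Bp (t, y) := by
  have h := (hasDerivAt_Xf y).mul (Sm.hasDerivAt_y hg.smB ht y)
  exact h.deriv

/-- aux: the purely algebraic content of `coer_mF_formula`. -/
theorem coer_formM_alg (q : ℝ) (hq : 0 < q) (y X Z d B Bp o op E W : ℝ) (hX : X = 1 - y ^ 2)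
    (hZ : Z * (1 + X * B) = 1) (hd : d = -2 * y * B + X * Bp) :
    X * ((-Z * X * o ^ 2 - 2 * q * y * Z ^ 2 * d + 2 * q * Z * ((q - 1) * B + q + 1)) / (q + 1))
      = (-Z * (X * o) ^ 2 - 2 * q * y * Z ^ 2 * (X * d) + 2 * q * ((q - 1) * (1 - Z) + (q + 1) * X * Z)) / (q + 1) ∧
    X * (Z * ((2 * q + 2) * y * o + X * Z * d * o - 2 * X * op) / (q + 1))
      = Z * ((2 * q + 2) * y * (X * o) + Z * (X * d) * (X * o) - 2 * (X ^ 2 * op)) / (q + 1) ∧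
    X * (q / (q + 1) * Z * (-X * o ^ 2 - (q - 1) * y * Z * d - 2 * (q - 1) * B) / (q + 1))
      = q / (q + 1) * (-Z * (X * o) ^ 2 - (q - 1) * y * Z ^ 2 * (X * d) - 2 * (q - 1) * (1 - Z)) / (q + 1) ∧
    X * (Z * ((q + 1) * y * o + X * Z * d * o / 2 - X * op))
      = Z * ((q + 1) * y * (X * o) + Z * (X * d) * (X * o) / 2 - X ^ 2 * op) ∧
    X * (2 * E - Z * X * o ^ 2) = 2 * (X * E) - Z * (X * o) ^ 2 ∧
    X * (q / (q + 1) * X * Z * (Z * d * o / 2 - op))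
      = q / (q + 1) * Z * (Z * (X * d) * (X * o) / 2 - X ^ 2 * op) ∧
    X ^ 2 * (-Z * o ^ 2 - (q - 1) * Z ^ 2 * (y * Bp + 2 * B * (B + 1)))
      = -Z * (X * o) ^ 2 - (q - 1) * (y * Z ^ 2 * (X * d) + 2 * (1 - Z)) ∧
    X ^ 2 * (Z * (-2 * op + Z * d * o)) = Z * (-2 * (X ^ 2 * op) + Z * (X * d) * (X * o)) ∧
    X * ((Z * (2 * (q - 1) * B - 4 * (q + 1)) - q * Z * X * o ^ 2 + 2 * q * y * Z ^ 2 * d) / (q + 1)
        - 2 * y * W) - Z * (4 * y ^ 2 - 2 * X) - 2 * y * ((q - 1) * y * Z - X * W)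
      = (2 * (q - 1) * (1 - Z) - 4 * (q + 1) * X * Z - q * Z * (X * o) ^ 2 + 2 * q * y * Z ^ 2 * (X * d)) / (q + 1)
        - Z * (4 * y ^ 2 - 2 * X) - 2 * (q - 1) * y ^ 2 * Z := by
  have hq1 : q + 1 ≠ 0 := by linarith
  have hZB : Z * X * B = 1 - Z := by linear_combination hZ
  refine ⟨?_, ?_, ?_, ?_, ?_, ?_, ?_, ?_, ?_⟩
  · field_simp
    linear_combination (2 * q * (q - 1)) * hZB
  · field_simp
  · field_simp
    linear_combination (-2 * (q - 1)) * hZB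
  · ring
  · ring
  · ring
  · subst hd
    linear_combination (q - 1) * (-2 * Z ^ 2 * X * B) * hX + (q - 1) * (-2 * Z * X * B) * hZ
      + (q - 1) * (-2) * hZB
  · ring
  · field_simp
    linear_combination (2 * (q - 1)) * hZB

/-- the nine entries of `mF`.   Uses `Z (X B) = 1 - Z`, `X² B' = X 𝖽 + 2 y X B`, `y² + X = 1`, `Z² (2β + 2β²) = 2 (1 - Z)` for `β = X B`. -/
theorem coer_mF_formula (q : ℝ) (hq : 0 < q) (hg : BgSm g) (ht : t < 0) (y : ℝ) :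
    let Z := g.Z (t, y)
    let b1 := Xf y * g.dd (t, y)
    let o1 := Xf y * g.wp (t, y)
    let o2 := Xf y ^ 2 * g.wpp (t, y)
    let P := Xf y * Real.exp (-g.w (t, y))
    let X := Xf y
    mF q g 0 0 (t, y)
      = (-Z * o1 ^ 2 - 2 * q * y * Z ^ 2 * b1 + 2 * q * ((q - 1) * (1 - Z) + (q + 1) * X * Z)) / (q + 1) ∧
    mF q g 0 1 (t, y) = Z * ((2 * q + 2) * y * o1 + Z * b1 * o1 - 2 * o2) / (q + 1) ∧
    mF q g 0 2 (t, y)
      = q / (q + 1) * (-Z * o1 ^ 2 - (q - 1) * y * Z ^ 2 * b1 - 2 * (q - 1) * (1 - Z)) / (q + 1) ∧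
    mF q g 1 0 (t, y) = Z * ((q + 1) * y * o1 + Z * b1 * o1 / 2 - o2) ∧
    mF q g 1 1 (t, y) = 2 * P - Z * o1 ^ 2 ∧
    mF q g 1 2 (t, y) = q / (q + 1) * Z * (Z * b1 * o1 / 2 - o2) ∧
    mF q g 2 0 (t, y) = -Z * o1 ^ 2 - (q - 1) * (y * Z ^ 2 * b1 + 2 * (1 - Z)) ∧
    mF q g 2 1 (t, y) = Z * (-2 * o2 + Z * b1 * o1) ∧
    mF q g 2 2 (t, y)
      = (2 * (q - 1) * (1 - Z) - 4 * (q + 1) * X * Z - q * Z * o1 ^ 2 + 2 * q * y * Z ^ 2 * b1) / (q + 1)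
        - Z * (4 * y ^ 2 - 2 * X) - 2 * (q - 1) * y ^ 2 * Z := by
  intro Z b1 o1 o2 P X
  have h := coer_formM_alg q hq y (Xf y) (g.Z (t, y)) (g.dd (t, y)) (g.B (t, y)) (g.Bp (t, y))
    (g.wp (t, y)) (g.wpp (t, y)) (Real.exp (-g.w (t, y))) (g.w1 (t, y)) rfl (hg.Z_mul ht y)
    (coer_formM_dd hg ht y)
  exact h

end Claimed.Agent.R324.Core
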