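/-
Row 324 (S0582), AP/A5 (pointwise coercivity), sub-architect helper232.   Blueprint origin/helper232:docs/R324_blueprint.md, section 7.2b.
Formulas for the coefficients of the tt-form in the normalised quantities Z, b1 = X dd, tb = tt (X dd), o1 = X w', o2 = X^2 w'', P = X e^{-w}, p0 = X W, p1 = X^2 W'.
Calculus toolkit: Core/PR/Sm.lean, SmBg.lean  (tt f y = -(1-y^2) f'(y)).
-/
import Claimed.Agent.R324.Core.AP.Coer.Defs
import Claimed.Agent.R324.Core.AP.Coer.FormZ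
import Claimed.Agent.R324.Core.AP.Coer.FormM

set_option autoImplicit false

namespace Claimed.Agent.R324.Core

open Set
open scoped ContDiff

variable {g : Bg} {t : ℝ}

/-- south side: the round background.   For `y < 3/4` everything is constant near `y`. -/
theorem coer_south (q : ℝ) (hq : 0 < q) (hg : BgSm g) (ho : OutS g) (ht : t < 0) (y : ℝ) (hy : y < 3 / 4) :
    g.Z (t, y) = 1 ∧ tt (sl g.Z t) y = 0 ∧ tt (tt (sl g.Z t)) y = 0 ∧ g.bh q (t, y) = (q - 1) * y ∧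
    tt (sl (g.bh q) t) y = -(q - 1) * Xf y ∧ dT g.Z (t, y) = 0 ∧
    ∀ ξ : Fin 3 → ℝ, quadM q g (t, y) ξ
      = (q + 1) * (2 * q * Xf y) * ξ 0 ^ 2 + 2 * (2 * Xf y) * ξ 1 ^ 2
        + q / (q + 1) * (-2 * Xf y - (2 * q + 2) * y ^ 2) * ξ 2 ^ 2 := by
  have hB : ∀ s < 0, ∀ z ≤ (3 / 4 : ℝ), g.B (s, z) = 0 := fun s hs z hz => (ho s hs z hz).1
  have hw : ∀ s < 0, ∀ z ≤ (3 / 4 : ℝ), g.w (s, z) = 0 := fun s hs z hz => (ho s hs z hz).2.1
  have hW : ∀ s < 0, ∀ z ≤ (3 / 4 : ℝ), g.W (s, z) = 0 := fun s hs z hz => (ho s hs z hz).2.2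
  have hZ : ∀ s < 0, ∀ z ≤ (3 / 4 : ℝ), g.Z (s, z) = 1 := by
    intro s hs z hz
    unfold Bg.Z
    simp [hB s hs z hz]
  have hnear : ∀ z < (3 / 4 : ℝ), ∀ᶠ z' in nhds z, z' < (3 / 4 : ℝ) := fun z hz => Iio_mem_nhds hz
  have hzero : ∀ (F : ℝ → ℝ), (∀ z < (3 / 4 : ℝ), F z = 0) → ∀ z < (3 / 4 : ℝ), deriv F z = 0 := by
    intro F hF z hz
    have e : F =ᶠ[nhds z] fun _ => (0 : ℝ) := by
      filter_upwards [hnear z hz] with z' hz' using hF z' hz'
    rw [e.deriv_eq]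
    simp
  have hdd : ∀ z < (3 / 4 : ℝ), g.dd (t, z) = 0 := by
    intro z hz
    show deriv (fun z' => Xf z' * g.B (t, z')) z = 0
    exact hzero _ (fun z' hz' => by rw [hB t ht z' hz'.le, mul_zero]) z hz
  have hBp : ∀ z < (3 / 4 : ℝ), g.Bp (t, z) = 0 := by
    intro z hz
    show deriv (fun z' => g.B (t, z')) z = 0
    exact hzero _ (fun z' hz' => hB t ht z' hz'.le) z hz
  have hwp : ∀ z < (3 / 4 : ℝ), g.wp (t, z) = 0 := by
    intro z hz
    show deriv (fun z' => g.w (t, z')) z = 0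
    exact hzero _ (fun z' hz' => hw t ht z' hz'.le) z hz
  have hwpp : ∀ z < (3 / 4 : ℝ), g.wpp (t, z) = 0 := by
    intro z hz
    show deriv (fun z' => dY g.w (t, z')) z = 0
    exact hzero _ (fun z' hz' => hwp z' hz') z hz
  have hw1 : ∀ z < (3 / 4 : ℝ), g.w1 (t, z) = 0 := by
    intro z hz
    unfold Bg.w1
    simp [hdd z hz, hwp z hz, hW t ht z hz.le]
  have hbh : ∀ z < (3 / 4 : ℝ), g.bh q (t, z) = (q - 1) * z := by
    intro z hz
    unfold Bg.bh
    simp [hw1 z hz, hZ t ht z hz.le]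
  have hone : ∀ z < (3 / 4 : ℝ), deriv (sl g.Z t) z = 0 := by
    intro z hz
    have e : sl g.Z t =ᶠ[nhds z] fun _ => (1 : ℝ) := by
      filter_upwards [hnear z hz] with z' hz' using hZ t ht z' hz'.le
    rw [e.deriv_eq]
    simp
  have httZ : ∀ z < (3 / 4 : ℝ), tt (sl g.Z t) z = 0 := by
    intro z hz
    unfold tt
    rw [hone z hz, mul_zero]
  refine ⟨hZ t ht y hy.le, httZ y hy, ?_, hbh y hy, ?_, ?_, ?_⟩
  · unfold tt
    have := hzero (tt (sl g.Z t)) httZ y hy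
    unfold tt at this
    rw [this, mul_zero]
  · have e : sl (g.bh q) t =ᶠ[nhds y] fun z => (q - 1) * z := by
      filter_upwards [hnear y hy] with z' hz' using hbh z' hz'
    unfold tt
    rw [e.deriv_eq]
    have : deriv (fun z : ℝ => (q - 1) * z) y = q - 1 := by
      simp
    rw [this]
    unfold Xf
    ring
  · show deriv (fun s => g.Z (s, y)) t = 0
    have e : (fun s => g.Z (s, y)) =ᶠ[nhds t] fun _ => (1 : ℝ) := by
      filter_upwards [Iio_mem_nhds ht] with s hs using hZ s hs y hy.le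
    rw [e.deriv_eq]
    simp
  · intro ξ
    have hq1 : q + 1 ≠ 0 := by linarith
    have c00 : g.cf q 0 0 (t, y) = 2 * q := by
      simp [Bg.cf, hZ t ht y hy.le, hdd y hy, hB t ht y hy.le, hwp y hy]
      field_simp
    have c01 : g.cf q 0 1 (t, y) = 0 := by
      simp [Bg.cf, hdd y hy, hwp y hy, hwpp y hy]
    have c02 : g.cf q 0 2 (t, y) = 0 := by
      simp [Bg.cf, hdd y hy, hB t ht y hy.le, hwp y hy]
    have c10 : g.cf q 1 0 (t, y) = 0 := by
      simp [Bg.cf, hdd y hy, hwp y hy, hwpp y hy]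
    have c11 : g.cf q 1 1 (t, y) = 2 := by
      simp [Bg.cf, hw t ht y hy.le, hwp y hy]
    have c12 : g.cf q 1 2 (t, y) = 0 := by
      simp [Bg.cf, hdd y hy, hwp y hy, hwpp y hy]
    have c20 : g.cf q 2 0 (t, y) = 0 := by
      simp [Bg.cf, hB t ht y hy.le, hwp y hy, hBp y hy]
    have c21 : g.cf q 2 1 (t, y) = 0 := by
      simp [Bg.cf, hdd y hy, hwp y hy, hwpp y hy]
    have c22 : g.cf q 2 2 (t, y) = -4 := by
      simp [Bg.cf, hZ t ht y hy.le, hdd y hy, hB t ht y hy.le, hwp y hy, hw1 y hy]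
      field_simp
    unfold quadM
    simp only [Fin.sum_univ_three]
    simp [mF, kapJ, c00, c01, c02, c10, c11, c12, c20, c21, c22, hZ t ht y hy.le, hbh y hy]
    ring

end Claimed.Agent.R324.Core
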