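/-
Row 324 (S0582), AP/A5 (pointwise coercivity), sub-architect helper232.   Blueprint origin/helper232:docs/R324_blueprint.md, section 7.2b.
Formulas for the coefficients of the tt-form in the normalised quantities Z, b1 = X dd, tb = tt (X dd), o1 = X w', o2 = X^2 w'', P = X e^{-w}, p0 = X W, p1 = X^2 W'.
Calculus toolkit: Core/PR/Sm.lean, SmBg.lean  (tt f y = -(1-y^2) f'(y)).
-/
import Claimed.Agent.R324.Core.AP.Coer.Defs
import Claimed.Agent.R324.Core.PR.Jet1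

set_option autoImplicit false

namespace Claimed.Agent.R324.Core

open Set
open scoped ContDiff

variable {g : Bg} {t : ℝ}

/-- `Z' = -Z² 𝖽`. -/
theorem coer_ttZ (hg : BgSm g) (ht : t < 0) (y : ℝ) :
    tt (sl g.Z t) y = g.Z (t, y) ^ 2 * (Xf y * g.dd (t, y)) := by
  have h1 : tt (sl g.Z t) y = -(Xf y) * dY g.Z (t, y) := rfl
  rw [h1, hg.dY_Z ht y]
  ring

theorem coer_tt2Z (hg : BgSm g) (ht : t < 0) (y : ℝ) :
    tt (tt (sl g.Z t)) y = 2 * g.Z (t, y) ^ 3 * (Xf y * g.dd (t, y)) ^ 2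
      + g.Z (t, y) ^ 2 * tt (fun z => Xf z * g.dd (t, z)) y := by
  have hZ : HasDerivAt (fun z => g.Z (t, z)) (-(g.Z (t, y)) ^ 2 * g.dd (t, y)) y := by
    have := hg.smZ.hasDerivAt_y ht y
    rwa [hg.dY_Z ht y] at this
  have hb : HasDerivAt (fun z => Xf z * g.dd (t, z)) (deriv (fun z => Xf z * g.dd (t, z)) y) y :=
    ((sm_Xf.mul hg.smdd).hasDerivAt_y ht y).differentiableAt.hasDerivAt
  have e : tt (sl g.Z t) = fun z => g.Z (t, z) ^ 2 * (Xf z * g.dd (t, z)) := by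
    funext z
    exact coer_ttZ hg ht z
  have hd := (hZ.pow 2).mul hb
  have e2 : tt (tt (sl g.Z t)) y = -(1 - y ^ 2) * deriv (fun z => g.Z (t, z) ^ 2 * (Xf z * g.dd (t, z))) y := by
    rw [e]
    rfl
  have e3 : tt (fun z => Xf z * g.dd (t, z)) y = -(1 - y ^ 2) * deriv (fun z => Xf z * g.dd (t, z)) y := rfl
  have e4 : deriv (fun z => g.Z (t, z) ^ 2 * (Xf z * g.dd (t, z))) y = _ := hd.deriv
  rw [e2, e3, e4]
  simp only [Pi.pow_apply]
  generalize deriv (fun z => Xf z * g.dd (t, z)) y = D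
  have hX : Xf y = 1 - y ^ 2 := rfl
  rw [hX]
  push_cast
  ring

theorem coer_bh (q : ℝ) (g : Bg) (t y : ℝ) :
    g.bh q (t, y) = (q - 1) * y * g.Z (t, y)
      - (-g.Z (t, y) ^ 2 * (Xf y * g.dd (t, y)) / 2 + g.Z (t, y) * (Xf y * g.wp (t, y)) + Xf y * g.W (t, y)) := by
  unfold Bg.bh Bg.w1
  ring

end Claimed.Agent.R324.Core
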