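/-
Row 324 (S0582), AP/A5 (pointwise coercivity), sub-architect helper232.   Blueprint origin/helper232:docs/R324_blueprint.md, section 7.2b.
Formulas for the coefficients of the tt-form in the normalised quantities Z, b1 = X dd, tb = tt (X dd), o1 = X w', o2 = X^2 w'', P = X e^{-w}, p0 = X W, p1 = X^2 W'.
Calculus toolkit: Core/PR/Sm.lean, SmBg.lean  (tt f y = -(1-y^2) f'(y)).
-/
import Claimed.Agent.R324.Core.AP.Coer.Defs

set_option autoImplicit false

namespace Claimed.Agent.R324.Core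

open Set
open scoped ContDiff

variable {g : Bg} {t : ℝ}

theorem coer_zz_cda_deriv {f : ℝ → ℝ} {y : ℝ} (hf : ContDiffAt ℝ ∞ f y) : ContDiffAt ℝ ∞ (deriv f) y := by
  have h : ContDiffAt ℝ ∞ (fderiv ℝ f) y := hf.fderiv_right (m := ∞) (by simp)
  have h2 : deriv f = fun z => fderiv ℝ f z 1 := by
    funext z
    exact fderiv_apply_one_eq_deriv.symm
  rw [h2]
  exact h.clm_apply contDiffAt_const

theorem coer_zz_cda_tt {f : ℝ → ℝ} {y : ℝ} (hf : ContDiffAt ℝ ∞ f y) : ContDiffAt ℝ ∞ (tt f) y := by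
  have h : tt f = fun y => -(1 - y ^ 2) * deriv f y := rfl
  rw [h]
  exact (((contDiffAt_const).sub (contDiffAt_id.pow 2)).neg).mul (coer_zz_cda_deriv hf)

theorem coer_zz_cda_diff {f : ℝ → ℝ} {y : ℝ} (hf : ContDiffAt ℝ ∞ f y) : DifferentiableAt ℝ f y :=
  hf.differentiableAt (by simp)

theorem coer_zz_cda_ev {f : ℝ → ℝ} {y : ℝ} (hf : ContDiffAt ℝ ∞ f y) :
    ∀ᶠ z in nhds y, DifferentiableAt ℝ f z := by
  have h1 : ContDiffAt ℝ 1 f y := hf.of_le (by simp)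
  filter_upwards [h1.eventually (by simp)] with z hz
  exact hz.differentiableAt (by simp)

theorem coer_zz_tt_tt_mul {f h : ℝ → ℝ} {y : ℝ} (hf : ContDiffAt ℝ ∞ f y) (hh : ContDiffAt ℝ ∞ h y) :
    tt (tt (fun z => f z * h z)) y = tt (tt f) y * h y + 2 * tt f y * tt h y + f y * tt (tt h) y := by
  have hev : tt (fun z => f z * h z) =ᶠ[nhds y] fun z => tt f z * h z + f z * tt h z := by
    filter_upwards [coer_zz_cda_ev hf, coer_zz_cda_ev hh] with z h1 h2 using tt_mul h1 h2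
  rw [tt_congr hev,
    tt_add (coer_zz_cda_diff ((coer_zz_cda_tt hf).mul hh)) (coer_zz_cda_diff (hf.mul (coer_zz_cda_tt hh))),
    tt_mul (coer_zz_cda_diff (coer_zz_cda_tt hf)) (coer_zz_cda_diff hh),
    tt_mul (coer_zz_cda_diff hf) (coer_zz_cda_diff (coer_zz_cda_tt hh))]
  ring

theorem coer_zz_ttp_ttp {F : ℝ → ℝ} {y : ℝ} (hF : ContDiffAt ℝ ∞ F y) :
    ttp (ttp F) y = tt (tt F) y + 2 * y * tt F y + (y ^ 2 - Xf y) * F y := by
  have h1 : ttp (ttp F) y = tt (fun z => tt F z + z * F z) y + y * (tt F y + y * F y) := rfl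
  have hid : DifferentiableAt ℝ (fun z : ℝ => z) y := differentiableAt_id
  have hm : DifferentiableAt ℝ (fun z : ℝ => z * F z) y := hid.fun_mul (coer_zz_cda_diff hF)
  rw [h1, tt_add (coer_zz_cda_diff (coer_zz_cda_tt hF)) hm,
    tt_mul hid (coer_zz_cda_diff hF), tt_id]
  ring

/-- `2 𝔷_v` in expanded form:   `ttp (ttp (v Z)) = tt²(vZ) + 2 y tt (vZ) + (y² - X) v Z`,  `ttp (v b̂) = tt (v b̂) + y v b̂`, Leibniz for `tt`. -/
theorem coer_zz_expand (q : ℝ) (hg : BgSm g) (ht : t < 0) (v : ℝ → ℝ) (y : ℝ) (hv : ContDiffAt ℝ ∞ v y) :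
    2 * zzF q g v t y = zzE q g t y (v y) (tt v y) (tt (tt v) y) := by
  have hZ : ContDiffAt ℝ ∞ (sl g.Z t) y := (hg.smZ.sl ht).contDiffAt
  have hb : ContDiffAt ℝ ∞ (sl (g.bh q) t) y := ((hg.smbh q).sl ht).contDiffAt
  have h0 : zzF q g v t y = 1 / 2 * ttp (ttp (fun z => v z * sl g.Z t z)) y
      - 1 / 2 * (tt (fun z => v z * sl (g.bh q) t z) y + y * (v y * sl (g.bh q) t y)) := rfl
  have h1 : zzE q g t y (v y) (tt v y) (tt (tt v) y) =
      sl g.Z t y * (tt (tt v) y + 2 * y * tt v y + (y ^ 2 - Xf y) * v y)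
        + 2 * (tt v y + y * v y) * tt (sl g.Z t) y
        + v y * tt (tt (sl g.Z t)) y - (tt v y + y * v y) * sl (g.bh q) t y
        - v y * tt (sl (g.bh q) t) y := rfl
  rw [h0, h1, coer_zz_ttp_ttp (hv.mul hZ), coer_zz_tt_tt_mul hv hZ,
    tt_mul (coer_zz_cda_diff hv) (coer_zz_cda_diff hZ),
    tt_mul (coer_zz_cda_diff hv) (coer_zz_cda_diff hb)]
  ring

end Claimed.Agent.R324.Core
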