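/-
Row 324 (S0582), AP/A5 (pointwise coercivity), sub-architect helper232.   Blueprint origin/helper232:docs/R324_blueprint.md, section 7.2b.
g = the reference background bgR q g0.
-/
import Claimed.Agent.R324.Core.AP.Coer.Zone

set_option autoImplicit false

namespace Claimed.Agent.R324.Core

open Set
open scoped ContDiff


/-- elementary facts on `X`, `Θ` on `[-1,1]`. -/
theorem coerH_XTh (t y : ℝ) (ht : t < 0) (hy : y ∈ Icc (-1 : ℝ) 1) :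
    0 ≤ Xf y ∧ -t ≤ Th t y ∧ 0 < Th t y ∧ Xf y / Th t y ≤ 4 / 3 ∧ 0 ≤ Xf y / Th t y := by
  obtain ⟨-, -, -, h4, -⟩ := coer_Xt_facts
  obtain ⟨h0, -, h2⟩ := h4 y hy
  have hX : 0 ≤ Xf y := by
    unfold Xf
    nlinarith [hy.1, hy.2]
  have hT : -t ≤ Th t y := by
    unfold Th
    linarith
  have hT0 : 0 < Th t y := by linarith
  refine ⟨hX, hT, hT0, ?_, div_nonneg hX hT0.le⟩
  rw [div_le_iff₀ hT0]
  unfold Th
  linarith

/-- the time derivative of the heavy weight. -/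
theorem coerH_dt (a M : ℕ) (q t y : ℝ) (hq : 10 ^ 6 ≤ q) (ht : t < 0) (hy : y ∈ Icc (-1 : ℝ) 1) :
    Xf y * deriv (fun s => wG a 0 M q 0 s y) t ≤ wG a 0 M q 0 t y * (M * (Xf y / Th t y)) := by
  have h := wG_dt_le a 0 M q 0 t y hq le_rfl ht hy
  refine h.trans (le_of_eq ?_)
  push_cast
  ring

/-- zone (a), the remainder:  `X ≤ δ Λ`, `M δ ≤ 1`. -/
theorem coerH_tip (a M : ℕ) (q ν δ t y : ℝ) (hq : 10 ^ 6 ≤ q) (hν : 30 + 1 / 2 ≤ ν) (ht : t < 0)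
    (hy : y ∈ Icc (-1 : ℝ) 1) (hδ : M * δ ≤ 1) (hX : Xf y ≤ δ * (-t)) :
    Xf y * deriv (fun s => wG a 0 M q 0 s y) t - (ν - 30) * (Xf y / (-t)) * wG a 0 M q 0 t y
      ≤ wG a 0 M q 0 t y := by
  obtain ⟨hX0, hT, hT0, -, hXT0⟩ := coerH_XTh t y ht hy
  have hV : 0 < wG a 0 M q 0 t y := wG_pos a 0 M q 0 t y hq le_rfl ht hy
  have h1 := coerH_dt a M q t y hq ht hy
  have hΛ : 0 < -t := by linarith
  have h2 : Xf y / Th t y ≤ δ := by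
    rw [div_le_iff₀ hT0]
    have hδ0 : 0 ≤ δ := by
      by_contra hneg
      push Not at hneg
      nlinarith
    nlinarith
  have hM : (0 : ℝ) ≤ M := Nat.cast_nonneg M
  have h3 : (M : ℝ) * (Xf y / Th t y) ≤ 1 := (mul_le_mul_of_nonneg_left h2 hM).trans hδ
  have h4 : 0 ≤ (ν - 30) * (Xf y / (-t)) * wG a 0 M q 0 t y :=
    mul_nonneg (mul_nonneg (by linarith) (div_nonneg hX0 hΛ.le)) hV.le
  have h5 : wG a 0 M q 0 t y * (M * (Xf y / Th t y)) ≤ wG a 0 M q 0 t y * 1 :=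
    mul_le_mul_of_nonneg_left h3 hV.le
  linarith

/-- zones (b), (c): `X/Λ` large beats everything. -/
theorem coerH_big (q : ℝ) (hq : 10 ^ 6 ≤ q) (g : Bg) (a M : ℕ) (ν C₂ t y : ℝ) (hν : 30 + 1 / 2 ≤ ν) (ht : t < 0)
    (hy : y ∈ Icc (-1 : ℝ) 1) (hbig : 2 * (C₂ + 2 * M + q) ≤ Xf y / (-t)) (ξ : Fin 3 → ℝ)
    (hgen : 2 * zzF q g (wG a 0 M q 0 t) t y * nk q ξ + 2 * wG a 0 M q 0 t y * quadM q g (t, y) ξ
      ≤ C₂ * wG a 0 M q 0 t y * nk q ξ) :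
    (Xf y * deriv (fun s => wG a 0 M q 0 s y) t - (ν - 30) * (Xf y / (-t)) * wG a 0 M q 0 t y
        + 2 * zzF q g (wG a 0 M q 0 t) t y) * nk q ξ + 2 * wG a 0 M q 0 t y * quadM q g (t, y) ξ
      ≤ -(q / 4) * wG a 0 M q 0 t y * nk q ξ := by
  obtain ⟨hX0, hT, hT0, hXT, hXT0⟩ := coerH_XTh t y ht hy
  have hV : 0 < wG a 0 M q 0 t y := wG_pos a 0 M q 0 t y hq le_rfl ht hy
  have hn : 0 ≤ nk q ξ := coer_nk_nonneg q (by linarith) ξ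
  have h1 := coerH_dt a M q t y hq ht hy
  have hΛ : 0 < -t := by linarith
  have hM : (0 : ℝ) ≤ M := Nat.cast_nonneg M
  have h3 : (M : ℝ) * (Xf y / Th t y) ≤ M * (4 / 3) := mul_le_mul_of_nonneg_left hXT hM
  have h5 : wG a 0 M q 0 t y * (M * (Xf y / Th t y)) ≤ wG a 0 M q 0 t y * (M * (4 / 3)) :=
    mul_le_mul_of_nonneg_left h3 hV.le
  have hXΛ : 0 ≤ Xf y / (-t) := div_nonneg hX0 hΛ.le
  have h6 : C₂ + 2 * M + q ≤ (ν - 30) * (Xf y / (-t)) := by nlinarith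
  have h7 : (C₂ + 2 * M + q) * wG a 0 M q 0 t y ≤ (ν - 30) * (Xf y / (-t)) * wG a 0 M q 0 t y :=
    mul_le_mul_of_nonneg_right h6 hV.le
  have h8 : Xf y * deriv (fun s => wG a 0 M q 0 s y) t - (ν - 30) * (Xf y / (-t)) * wG a 0 M q 0 t y
      ≤ -(C₂ + q / 4) * wG a 0 M q 0 t y := by nlinarith
  have h9 := mul_le_mul_of_nonneg_right h8 hn
  nlinarith

/-- zone (b):  `X > K Λ`. -/
theorem coerH_far (q : ℝ) (hq : 10 ^ 6 ≤ q) (g : Bg) (a M : ℕ) (ν C₂ t y : ℝ) (hν : 30 + 1 / 2 ≤ ν) (ht : t < 0)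
    (hy : y ∈ Icc (-1 : ℝ) 1) (hX : (2 * (C₂ + 2 * M + q) + 2) * (-t) < Xf y) (ξ : Fin 3 → ℝ)
    (hgen : 2 * zzF q g (wG a 0 M q 0 t) t y * nk q ξ + 2 * wG a 0 M q 0 t y * quadM q g (t, y) ξ
      ≤ C₂ * wG a 0 M q 0 t y * nk q ξ) :
    (Xf y * deriv (fun s => wG a 0 M q 0 s y) t - (ν - 30) * (Xf y / (-t)) * wG a 0 M q 0 t y
        + 2 * zzF q g (wG a 0 M q 0 t) t y) * nk q ξ + 2 * wG a 0 M q 0 t y * quadM q g (t, y) ξ
      ≤ -(q / 4) * wG a 0 M q 0 t y * nk q ξ := by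
  refine coerH_big q hq g a M ν C₂ t y hν ht hy ?_ ξ hgen
  have hΛ : 0 < -t := by linarith
  rw [le_div_iff₀ hΛ]
  nlinarith

/-- zone (c):  `X ≥ 1/16`, `Λ` small. -/
theorem coerH_mid (q : ℝ) (hq : 10 ^ 6 ≤ q) (g : Bg) (a M : ℕ) (ν C₂ t y : ℝ) (hν : 30 + 1 / 2 ≤ ν) (ht : t < 0)
    (hy : y ∈ Icc (-1 : ℝ) 1) (hC : 0 ≤ C₂) (hX : 1 / 16 ≤ Xf y) (hΛ₀ : -t ≤ 1 / (32 * (C₂ + 2 * M + q)))
    (ξ : Fin 3 → ℝ)
    (hgen : 2 * zzF q g (wG a 0 M q 0 t) t y * nk q ξ + 2 * wG a 0 M q 0 t y * quadM q g (t, y) ξ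
      ≤ C₂ * wG a 0 M q 0 t y * nk q ξ) :
    (Xf y * deriv (fun s => wG a 0 M q 0 s y) t - (ν - 30) * (Xf y / (-t)) * wG a 0 M q 0 t y
        + 2 * zzF q g (wG a 0 M q 0 t) t y) * nk q ξ + 2 * wG a 0 M q 0 t y * quadM q g (t, y) ξ
      ≤ -(q / 4) * wG a 0 M q 0 t y * nk q ξ := by
  refine coerH_big q hq g a M ν C₂ t y hν ht hy ?_ ξ hgen
  have hΛ : 0 < -t := by linarith
  have hM : (0 : ℝ) ≤ M := Nat.cast_nonneg M
  have hD : 0 < 32 * (C₂ + 2 * M + q) := by linarith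
  rw [le_div_iff₀ hD] at hΛ₀
  rw [le_div_iff₀ hΛ]
  nlinarith

/-- zone (d), the remainder:  `y ≤ 0`, `X ≤ 1/16`. -/
theorem coerH_south (a M : ℕ) (hM : M ≤ 52) (q ν t y : ℝ) (hq : 10 ^ 6 ≤ q) (hν : 30 + 1 / 2 ≤ ν) (ht : t < 0)
    (hy : y ∈ Icc (-1 : ℝ) 1) (hy0 : y ≤ 0) (hX : Xf y ≤ 1 / 16) :
    Xf y * deriv (fun s => wG a 0 M q 0 s y) t - (ν - 30) * (Xf y / (-t)) * wG a 0 M q 0 t y
      ≤ 5 * wG a 0 M q 0 t y := by
  obtain ⟨hX0, hT, hT0, -, hXT0⟩ := coerH_XTh t y ht hy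
  obtain ⟨-, hS, -, -, -⟩ := coer_Xt_facts
  have hV : 0 < wG a 0 M q 0 t y := wG_pos a 0 M q 0 t y hq le_rfl ht hy
  have h1 := coerH_dt a M q t y hq ht hy
  have hΛ : 0 < -t := by linarith
  have h2 : Xf y / Th t y ≤ 1 / 15 := by
    rw [div_le_iff₀ hT0]
    unfold Th
    rw [hS y hy0]
    linarith
  have hM0 : (0 : ℝ) ≤ M := Nat.cast_nonneg M
  have hM' : (M : ℝ) ≤ 52 := by exact_mod_cast hM
  have h3 : (M : ℝ) * (Xf y / Th t y) ≤ 5 := by nlinarith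
  have h4 : 0 ≤ (ν - 30) * (Xf y / (-t)) * wG a 0 M q 0 t y :=
    mul_nonneg (mul_nonneg (by linarith) (div_nonneg hX0 hΛ.le)) hV.le
  have h5 : wG a 0 M q 0 t y * (M * (Xf y / Th t y)) ≤ wG a 0 M q 0 t y * 5 :=
    mul_le_mul_of_nonneg_left h3 hV.le
  linarith

/-- heavy weights outside the core.   `δ` from `coer_tip` (and `M δ ≤ 1/2`);  `K = 2 (C₂ + 2M + q) /(ν - 30)`-type:  far zone `X ≥ K Λ` (`y > 1/2`) and `y ≤ 1/2`, `X ≥ 1/16`: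
`-(ν-30) X/Λ` beats everything;  south cap. -/
theorem coerH_outside (q : ℝ) (hq : 10 ^ 6 ≤ q) (g : Bg) (hg : BgSm g) (hbox : TipBox q g) (hbd : CoefBd q g)
    (ho : OutS g) (a M : ℕ) (ha : 2 ≤ a) (ha4 : a ≤ 4) (hM : M ≤ 52) (ν : ℝ) (hν : 30 + 1 / 2 ≤ ν) :
    ∃ δ K Λ₀ : ℝ, 0 < δ ∧ δ < 1 ∧ 1 < K ∧ 0 < Λ₀ ∧
      ∀ t ∈ Ico (-Λ₀) 0, ∀ y ∈ Icc (-1 : ℝ) 1, ¬ (0 < y ∧ δ * (-t) ≤ Xf y ∧ Xf y ≤ K * (-t)) →
        ∀ ξ : Fin 3 → ℝ,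
        (Xf y * deriv (fun s => wH a M q s y) t - (ν - 30) * (Xf y / (-t)) * wH a M q t y
            + 2 * zzF q g (wH a M q t) t y) * nk q ξ + 2 * wH a M q t y * quadM q g (t, y) ξ
        ≤ -(q / 4) * wH a M q t y * nk q ξ := by
  obtain ⟨δ₁, Λ₁, hδ₁, hδ₁', hΛ₁, htip⟩ := coer_tip q hq g hg hbox a 0 M ha ha4 (by norm_num)
  obtain ⟨C₂, Λ₂, hC₂, hΛ₂, hgen⟩ := coer_gen q hq g hg hbd a 0 M
  have hM0 : (0 : ℝ) ≤ M := Nat.cast_nonneg M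
  have hM' : (M : ℝ) ≤ 52 := by exact_mod_cast hM
  have hD : 0 < 32 * (C₂ + 2 * M + q) := by linarith
  refine ⟨min δ₁ (1 / 53), 2 * (C₂ + 2 * M + q) + 2, min (min Λ₁ Λ₂) (1 / (32 * (C₂ + 2 * M + q))),
    lt_min hδ₁ (by norm_num), (min_le_left _ _).trans_lt hδ₁', by linarith,
    lt_min (lt_min hΛ₁ hΛ₂) (by positivity), ?_⟩
  intro t ht y hy hzone ξ
  have ht0 : t < 0 := ht.2
  have hΛ : 0 < -t := by linarith
  have ht1 : t ∈ Ico (-Λ₁) 0 := by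
    refine ⟨?_, ht.2⟩
    have h1 := ht.1
    have h2 : min (min Λ₁ Λ₂) (1 / (32 * (C₂ + 2 * M + q))) ≤ Λ₁ := (min_le_left _ _).trans (min_le_left _ _)
    linarith
  have ht2 : t ∈ Ico (-Λ₂) 0 := by
    refine ⟨?_, ht.2⟩
    have h1 := ht.1
    have h2 : min (min Λ₁ Λ₂) (1 / (32 * (C₂ + 2 * M + q))) ≤ Λ₂ := (min_le_left _ _).trans (min_le_right _ _)
    linarith
  have ht3 : -t ≤ 1 / (32 * (C₂ + 2 * M + q)) := by
    have h1 := ht.1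
    have h2 : min (min Λ₁ Λ₂) (1 / (32 * (C₂ + 2 * M + q))) ≤ 1 / (32 * (C₂ + 2 * M + q)) := min_le_right _ _
    linarith
  have hw1 : (fun s => wH a M q s y) = fun s => wG a 0 M q 0 s y := funext fun s => wH_eq_wG a M q 0 s y
  have hw2 : wH a M q t = wG a 0 M q 0 t := funext fun z => wH_eq_wG a M q 0 t z
  rw [hw1, hw2]
  have hg2 := hgen 0 le_rfl t ht2 y hy ξ
  by_cases hy0 : 0 < y
  · by_cases hXδ : Xf y < min δ₁ (1 / 53) * (-t)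
    · -- zone (a)
      have hXδ₁ : Xf y ≤ δ₁ * (-t) :=
        hXδ.le.trans (mul_le_mul_of_nonneg_right (min_le_left _ _) hΛ.le)
      have hXδ₂ : Xf y ≤ 1 / 53 * (-t) :=
        hXδ.le.trans (mul_le_mul_of_nonneg_right (min_le_right _ _) hΛ.le)
      have hr := coerH_tip a M q ν (1 / 53) t y hq hν ht0 hy (by linarith) hXδ₂
      exact htip 0 le_rfl t ht1 y ⟨hy0.le, hy.2⟩ hXδ₁ _ hr ξ
    · -- zone (b)
      push Not at hXδ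
      have hXK : (2 * (C₂ + 2 * M + q) + 2) * (-t) < Xf y := by
        by_contra hneg
        push Not at hneg
        exact hzone ⟨hy0, hXδ, hneg⟩
      exact coerH_far q hq g a M ν C₂ t y hν ht0 hy hXK ξ hg2
  · push Not at hy0
    by_cases hX16 : 1 / 16 ≤ Xf y
    · -- zone (c)
      exact coerH_mid q hq g a M ν C₂ t y hν ht0 hy hC₂ hX16 ht3 ξ hg2
    · -- zone (d)
      push Not at hX16
      have hyneg : y < 0 := by
        rcases hy0.lt_or_eq with h | h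
        · exact h
        · exfalso
          rw [h] at hX16
          unfold Xf at hX16
          norm_num at hX16
      have hr := coerH_south a M hM q ν t y hq hν ht0 hy hy0 hX16.le
      exact coer_southcap q hq g hg ho a 0 M 0 t y le_rfl ht0 ⟨hy.1, hyneg⟩ hX16.le _ hr ξ

end Claimed.Agent.R324.Core
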