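/-
Row 324 (S0582), AP/A5 (pointwise coercivity), sub-architect helper232.   Blueprint origin/helper232:docs/R324_blueprint.md, section 7.2b.
g = the reference background bgR q g0.
-/
import Claimed.Agent.R324.Core.AP.Coer.Zone

set_option autoImplicit false

namespace Claimed.Agent.R324.Core

open Set
open scoped ContDiff


/-- light weights, core zone `δ Λ ≤ X ≤ Γ Λ`:  everything is `≤ C' V`, and `V ≤ K₀ Λ^e X wH_B` (`wL_core`). -/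
theorem coerL_core (q : ℝ) (hq : 10 ^ 6 ≤ q) (g : Bg) (hg : BgSm g) (hbd : CoefBd q g)
    (a M e : ℕ) (he : e + M = a + 48) (c δ Γ : ℝ) (hδ : 0 < δ) (hΓ : 1 ≤ Γ) :
    ∃ Kc Λ₀ : ℝ, 0 ≤ Kc ∧ 0 < Λ₀ ∧
      ∀ t ∈ Ico (-Λ₀) 0, ∀ y ∈ Icc (-1 : ℝ) 1, (1 / 2 < y ∧ δ * (-t) ≤ Xf y ∧ Xf y ≤ Γ * (-t)) →
        ∀ ξ : Fin 3 → ℝ,
        (Xf y * deriv (fun s => wL a M q Γ s y) t + 2 * zzF q g (wL a M q Γ t) t y
            + c * Xf y * |dT g.Z (t, y)| * wL a M q Γ t y) * nk q ξ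
          + 2 * wL a M q Γ t y * quadM q g (t, y) ξ
        ≤ -(q / 4) * wL a M q Γ t y * nk q ξ + Kc * (-t) ^ e * Xf y * wH 3 52 q t y * nk q ξ := by
  obtain ⟨C, Λ1, hΛ1, hC⟩ := hbd
  obtain ⟨C₂, Λ2, hC₂, hΛ2, hgen⟩ := coer_gen q hq g hg ⟨C, Λ1, hΛ1, hC⟩ a 1 (M + 1)
  obtain ⟨Λ3, hΛ3, hell⟩ := coer_ell2_le q hq
  have hΓ0 : (0 : ℝ) ≤ Γ := by linarith
  obtain ⟨K₀, hK₀, hcore⟩ := wL_core a M e he q δ Γ Γ hq hδ hΓ hΓ0
  have hq0 : (0 : ℝ) ≤ q := by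
    have : (0 : ℝ) ≤ 10 ^ 6 := by norm_num
    linarith
  have hM0 : (0 : ℝ) ≤ (M : ℝ) := Nat.cast_nonneg M
  have hCnn : ∀ t ∈ Ico (-Λ1) 0, 0 ≤ C := by
    intro t ht
    have h := (hC t ht 0 ⟨by norm_num, by norm_num⟩).1
    exact le_trans (abs_nonneg _) h
  refine ⟨(4 / 3 * M + |c| * (4 / 3 * |C|) + C₂ + q / 4) * K₀, min Λ1 (min Λ2 Λ3), ?_, ?_, ?_⟩
  · have : 0 ≤ |c| * (4 / 3 * |C|) := by positivity
    have h2 : 0 ≤ 4 / 3 * (M : ℝ) + |c| * (4 / 3 * |C|) + C₂ + q / 4 := by linarith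
    exact mul_nonneg h2 hK₀
  · exact lt_min hΛ1 (lt_min hΛ2 hΛ3)
  intro t ht y hy hz ξ
  obtain ⟨hy2, hX1, hX2⟩ := hz
  have ht0 : t < 0 := ht.2
  have ht1 : t ∈ Ico (-Λ1) 0 := ⟨by have := ht.1; have := min_le_left Λ1 (min Λ2 Λ3); linarith, ht0⟩
  have ht2 : t ∈ Ico (-Λ2) 0 :=
    ⟨by have := ht.1; have := (min_le_right Λ1 (min Λ2 Λ3)).trans (min_le_left Λ2 Λ3); linarith, ht0⟩
  have ht3 : t ∈ Ico (-Λ3) 0 :=
    ⟨by have := ht.1; have := (min_le_right Λ1 (min Λ2 Λ3)).trans (min_le_right Λ2 Λ3); linarith, ht0⟩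
  have e1 : wL a M q Γ t = wG a 1 (M + 1) q Γ t := funext (fun z => wL_eq_wG a M q Γ t z)
  have e2 : (fun s => wL a M q Γ s y) = fun s => wG a 1 (M + 1) q Γ s y :=
    funext (fun s => wL_eq_wG a M q Γ s y)
  have hcr := hcore t y ht0 (hell t ht3) ⟨hy2, hy.2⟩ hX1 hX2
  rw [e1] at hcr ⊢
  rw [e2]
  set V := wG a 1 (M + 1) q Γ t y with hV
  have hVpos : 0 < V := wG_pos a 1 (M + 1) q Γ t y hq hΓ0 ht0 hy
  have hnk : 0 ≤ nk q ξ := coer_nk_nonneg q hq0 ξ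
  have hXnn : 0 ≤ Xf y := w0_Xf_nonneg hy
  have hTh : 0 < Th t y := w0_Th_pos ht0 hy
  have hXTh : Xf y ≤ 4 / 3 * Th t y := w0_Xf_le_Th ht0 hy
  have hXt : 0 ≤ Xt y := (Xt_nonneg hy.1 hy.2).1
  have hdt := wL_dt_any a M q Γ t y hq hΓ0 ht0 hy
  have hg := hgen Γ hΓ0 t ht2 y hy ξ
  have hZt := (hC t ht1 y hy).2.2.2.2.2.2
  have h1 : Xf y / Th t y ≤ 4 / 3 := by
    rw [div_le_iff₀ hTh]; exact hXTh
  have h2 : 0 ≤ Γ * (Xf y * Xt y / (((1 + Γ) * (-t) + Xt y) * Th t y)) := by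
    have hL : 0 < (1 + Γ) * (-t) + Xt y := by
      have : 0 < (1 + Γ) * (-t) := mul_pos (by linarith) (by linarith)
      linarith
    positivity
  have h3 : Xf y * deriv (fun s => wG a 1 (M + 1) q Γ s y) t ≤ 4 / 3 * M * V := by
    refine hdt.trans ?_
    have : (M : ℝ) * (Xf y / Th t y) - Γ * (Xf y * Xt y / (((1 + Γ) * (-t) + Xt y) * Th t y)) ≤ 4 / 3 * M := by
      have := mul_le_mul_of_nonneg_left h1 hM0
      linarith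
    calc V * ((M : ℝ) * (Xf y / Th t y) - Γ * (Xf y * Xt y / (((1 + Γ) * (-t) + Xt y) * Th t y)))
        ≤ V * (4 / 3 * M) := mul_le_mul_of_nonneg_left this hVpos.le
      _ = 4 / 3 * M * V := by ring
  have h4 : Xf y * |dT g.Z (t, y)| ≤ 4 / 3 * |C| := by
    have ha : 0 ≤ |dT g.Z (t, y)| := abs_nonneg _
    calc Xf y * |dT g.Z (t, y)| ≤ 4 / 3 * Th t y * |dT g.Z (t, y)| := mul_le_mul_of_nonneg_right hXTh ha
      _ = 4 / 3 * (Th t y * |dT g.Z (t, y)|) := by ring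
      _ ≤ 4 / 3 * |C| := by
        have := hZt.trans (le_abs_self C)
        linarith
  have h5 : c * Xf y * |dT g.Z (t, y)| * V ≤ |c| * (4 / 3 * |C|) * V := by
    have hb : 0 ≤ Xf y * |dT g.Z (t, y)| := mul_nonneg hXnn (abs_nonneg _)
    have : c * (Xf y * |dT g.Z (t, y)|) ≤ |c| * (4 / 3 * |C|) :=
      (mul_le_mul_of_nonneg_right (le_abs_self c) hb).trans (mul_le_mul_of_nonneg_left h4 (abs_nonneg c))
    calc c * Xf y * |dT g.Z (t, y)| * V = c * (Xf y * |dT g.Z (t, y)|) * V := by ring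
      _ ≤ |c| * (4 / 3 * |C|) * V := mul_le_mul_of_nonneg_right this hVpos.le
  have h6 : (Xf y * deriv (fun s => wG a 1 (M + 1) q Γ s y) t + c * Xf y * |dT g.Z (t, y)| * V) * nk q ξ
      ≤ (4 / 3 * M * V + |c| * (4 / 3 * |C|) * V) * nk q ξ :=
    mul_le_mul_of_nonneg_right (add_le_add h3 h5) hnk
  have hD : 0 ≤ 4 / 3 * (M : ℝ) + |c| * (4 / 3 * |C|) + C₂ + q / 4 := by
    have : 0 ≤ |c| * (4 / 3 * |C|) := by positivity
    linarith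
  have h7 : (4 / 3 * (M : ℝ) + |c| * (4 / 3 * |C|) + C₂ + q / 4) * V * nk q ξ
      ≤ (4 / 3 * (M : ℝ) + |c| * (4 / 3 * |C|) + C₂ + q / 4) * (K₀ * (-t) ^ e * Xf y * wH 3 52 q t y) * nk q ξ :=
    mul_le_mul_of_nonneg_right (mul_le_mul_of_nonneg_left hcr hD) hnk
  nlinarith [h6, h7, hg]

end Claimed.Agent.R324.Core
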