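/-
Row 324 (S0582), AP/A5 (pointwise coercivity), sub-architect helper232.   Blueprint origin/helper232:docs/R324_blueprint.md, section 7.2b.
g = the reference background bgR q g0.
-/
import Claimed.Agent.R324.Core.AP.Coer.Zone

set_option autoImplicit false

namespace Claimed.Agent.R324.Core

open Set
open scoped ContDiff

/-- abstract assembly of the zone estimates. -/
theorem coerL_asm (D E ZZ V N Q C₂ α β q : ℝ) (hV : 0 < V) (hN : 0 ≤ N) (hD : D ≤ V * α) (hE : E ≤ V * β)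
    (hgen : 2 * ZZ * N + 2 * V * Q ≤ C₂ * V * N) (hsum : α + β + C₂ ≤ -(q / 4)) :
    (D + 2 * ZZ + E) * N + 2 * V * Q ≤ -(q / 4) * V * N := by
  have h1 : (D + E) * N ≤ (V * α + V * β) * N := mul_le_mul_of_nonneg_right (by linarith) hN
  have h2 : (α + β + C₂) * (V * N) ≤ -(q / 4) * (V * N) :=
    mul_le_mul_of_nonneg_right hsum (mul_nonneg hV.le hN)
  nlinarith [h1, h2, hgen]

/-- the `∂_t Z` term. -/
theorem coerL_E (c X T d C V : ℝ) (hX : 0 ≤ X) (hT : 0 < T) (hd : T * |d| ≤ C) (hV : 0 < V) :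
    c * X * |d| * V ≤ V * (|c| * |C| * (X / T)) := by
  have h1 : |d| ≤ |C| / T := by
    rw [le_div_iff₀ hT]
    calc |d| * T = T * |d| := by ring
      _ ≤ C := hd
      _ ≤ |C| := le_abs_self C
  have h2 : c * X * |d| ≤ |c| * X * |d| :=
    mul_le_mul_of_nonneg_right (mul_le_mul_of_nonneg_right (le_abs_self c) hX) (abs_nonneg d)
  have h3 : |c| * X * |d| ≤ |c| * X * (|C| / T) :=
    mul_le_mul_of_nonneg_left h1 (mul_nonneg (abs_nonneg c) hX)
  have h4 : |c| * X * (|C| / T) = |c| * |C| * (X / T) := by ring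
  calc c * X * |d| * V ≤ (|c| * |C| * (X / T)) * V :=
        mul_le_mul_of_nonneg_right (by linarith) hV.le
    _ = V * (|c| * |C| * (X / T)) := by ring

/-- light weights, the part of `[-1,1]` where no core term is needed.    Given `c`:  `C` from `CoefBd`, `C₂` from `coer_gen`, `δ₁` from `coer_tip`;
`δ = min δ₁ (1/(2(|c| C + M + 1)))`:  tip zone `X ≤ δ Λ` (`r = X ∂_t V + c X |∂_t Z| V ≤ V`: `wL_dt_any`, `X/T ≤ δ`);
`Γ₀ = max 1 (256 (C₂ + 2|c| C + 2M + q))`:  far zone `X ≥ Γ Λ`, `y > 1/2` (`wL_dt_far`), middle zone `y ≤ 1/2`, `X ≥ 1/16` (`wL_dt_mid`);   south cap (`coer_southcap`, `∂_t Z = 0`, `X ∂_t V ≤ (4/3)(M/16)·V`). -/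
theorem coerL_outside (q : ℝ) (hq : 10 ^ 6 ≤ q) (g : Bg) (hg : BgSm g) (hbox : TipBox q g) (hbd : CoefBd q g)
    (ho : OutS g) (a M : ℕ) (ha : 2 ≤ a) (ha4 : a ≤ 4) (hM : M ≤ 30) (c : ℝ) :
    ∃ δ Γ₀ : ℝ, 0 < δ ∧ 1 ≤ Γ₀ ∧ ∀ Γ : ℝ, Γ₀ ≤ Γ → ∃ Λ₀ : ℝ, 0 < Λ₀ ∧
      ∀ t ∈ Ico (-Λ₀) 0, ∀ y ∈ Icc (-1 : ℝ) 1, ¬ (1 / 2 < y ∧ δ * (-t) ≤ Xf y ∧ Xf y ≤ Γ * (-t)) →
        ∀ ξ : Fin 3 → ℝ,
        (Xf y * deriv (fun s => wL a M q Γ s y) t + 2 * zzF q g (wL a M q Γ t) t y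
            + c * Xf y * |dT g.Z (t, y)| * wL a M q Γ t y) * nk q ξ
          + 2 * wL a M q Γ t y * quadM q g (t, y) ξ
        ≤ -(q / 4) * wL a M q Γ t y * nk q ξ := by
  have hq0 : (0 : ℝ) < q := by linarith [show (0 : ℝ) < 10 ^ 6 by norm_num]
  obtain ⟨C₂, Λb, hC₂, hΛb, hgen⟩ := coer_gen q hq g hg hbd a 1 (M + 1)
  obtain ⟨δ₁, Λc, hδ₁, _, hΛc, htip⟩ := coer_tip q hq g hg hbox a 1 (M + 1) ha ha4 le_rfl
  obtain ⟨C, Λa, hΛa, hC⟩ := hbd
  obtain ⟨hXt1, hXt2, hXt3, hXt4, _⟩ := coer_Xt_facts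
  set K : ℝ := |c| * |C| with hK
  have hK0 : 0 ≤ K := mul_nonneg (abs_nonneg _) (abs_nonneg _)
  have hM0 : (0 : ℝ) ≤ (M : ℝ) := Nat.cast_nonneg M
  have hM30 : (M : ℝ) ≤ 30 := by exact_mod_cast hM
  have hden : (0 : ℝ) < 2 * (K + M + 1) := by linarith
  refine ⟨min δ₁ (1 / (2 * (K + M + 1))), max 1 (256 * (C₂ + 2 * K + 2 * M + q)),
    lt_min hδ₁ (by positivity), le_max_left _ _, ?_⟩
  intro Γ hΓΓ
  have hΓ1 : 1 ≤ Γ := le_trans (le_max_left _ _) hΓΓ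
  have hΓ0 : 0 ≤ Γ := by linarith
  have hΓbig : 256 * (C₂ + 2 * K + 2 * M + q) ≤ Γ := le_trans (le_max_right _ _) hΓΓ
  refine ⟨min (min Λa Λb) (min Λc (1 / (1 + Γ))),
    lt_min (lt_min hΛa hΛb) (lt_min hΛc (by positivity)), ?_⟩
  intro t ht y hy hzone ξ
  have ht0 : t < 0 := ht.2
  have hta : t ∈ Ico (-Λa) 0 :=
    ⟨by linarith [ht.1, min_le_left (min Λa Λb) (min Λc (1 / (1 + Γ))), min_le_left Λa Λb], ht0⟩
  have htb : t ∈ Ico (-Λb) 0 :=
    ⟨by linarith [ht.1, min_le_left (min Λa Λb) (min Λc (1 / (1 + Γ))), min_le_right Λa Λb], ht0⟩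
  have htc : t ∈ Ico (-Λc) 0 :=
    ⟨by linarith [ht.1, min_le_right (min Λa Λb) (min Λc (1 / (1 + Γ))),
      min_le_left Λc (1 / (1 + Γ))], ht0⟩
  have htd : (1 + Γ) * (-t) ≤ 1 := by
    have h1 : -t ≤ 1 / (1 + Γ) := by
      linarith [ht.1, min_le_right (min Λa Λb) (min Λc (1 / (1 + Γ))),
        min_le_right Λc (1 / (1 + Γ))]
    have h2 : (0 : ℝ) < 1 + Γ := by linarith
    calc (1 + Γ) * (-t) ≤ (1 + Γ) * (1 / (1 + Γ)) := mul_le_mul_of_nonneg_left h1 h2.le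
      _ = 1 := by field_simp
  have hfun : (fun s => wL a M q Γ s y) = fun s => wG a 1 (M + 1) q Γ s y := by
    funext s; exact wL_eq_wG a M q Γ s y
  have hfun2 : wL a M q Γ t = wG a 1 (M + 1) q Γ t := by
    funext z; exact wL_eq_wG a M q Γ t z
  rw [hfun, hfun2]
  have hV : 0 < wG a 1 (M + 1) q Γ t y := wG_pos a 1 (M + 1) q Γ t y hq hΓ0 ht0 hy
  have hN : 0 ≤ nk q ξ := coer_nk_nonneg q hq0.le ξ
  have hX0 : 0 ≤ Xf y := w0_Xf_nonneg hy
  have hT : 0 < Th t y := w0_Th_pos ht0 hy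
  have hTeq : Th t y = -t + Xt y := rfl
  have hXty := hXt4 y hy
  have hdZ : Th t y * |dT g.Z (t, y)| ≤ C := (hC t hta y hy).2.2.2.2.2.2
  have hE := coerL_E c (Xf y) (Th t y) (dT g.Z (t, y)) C _ hX0 hT hdZ hV
  have hG := hgen Γ hΓ0 t htb y hy ξ
  have hany := wL_dt_any a M q Γ t y hq hΓ0 ht0 hy
  have hXT0 : 0 ≤ Xf y / Th t y := div_nonneg hX0 hT.le
  have hanyM : Xf y * deriv (fun s => wG a 1 (M + 1) q Γ s y) t
      ≤ wG a 1 (M + 1) q Γ t y * (M * (Xf y / Th t y)) := by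
    refine le_trans hany (mul_le_mul_of_nonneg_left ?_ hV.le)
    have hL : 0 ≤ ((1 + Γ) * (-t) + Xt y) * Th t y := by
      apply mul_nonneg _ hT.le
      have : 0 ≤ (1 + Γ) * (-t) := mul_nonneg (by linarith) (by linarith)
      linarith [hXty.1]
    have : 0 ≤ Γ * (Xf y * Xt y / (((1 + Γ) * (-t) + Xt y) * Th t y)) :=
      mul_nonneg hΓ0 (div_nonneg (mul_nonneg hX0 hXty.1) hL)
    linarith
  by_cases hy2 : 1 / 2 < y
  · by_cases hlow : min δ₁ (1 / (2 * (K + M + 1))) * (-t) ≤ Xf y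
    · -- far zone
      have hfarX : Γ * (-t) ≤ Xf y := by
        by_contra hcon
        exact hzone ⟨hy2, hlow, (not_le.mp hcon).le⟩
      have hD := wL_dt_far a M q Γ t y hq hΓ1 ht0 ⟨hy2, hy.2⟩ hfarX
      have hXT : Xf y / Th t y ≤ 4 / 3 := by
        rw [div_le_iff₀ hT]; exact w0_Xf_le_Th ht0 hy
      have hE' : c * Xf y * |dT g.Z (t, y)| * wG a 1 (M + 1) q Γ t y
          ≤ wG a 1 (M + 1) q Γ t y * (K * (4 / 3)) :=
        le_trans hE (mul_le_mul_of_nonneg_left (mul_le_mul_of_nonneg_left hXT hK0) hV.le)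
      exact coerL_asm _ _ _ _ _ _ C₂ _ _ q hV hN hD hE' hG (by linarith)
    · -- tip zone
      have hlow' : Xf y < min δ₁ (1 / (2 * (K + M + 1))) * (-t) := not_le.mp hlow
      have hnt : 0 < -t := by linarith
      have hXδ1 : Xf y ≤ δ₁ * (-t) :=
        le_trans hlow'.le (mul_le_mul_of_nonneg_right (min_le_left _ _) hnt.le)
      have hXδ2 : Xf y ≤ 1 / (2 * (K + M + 1)) * (-t) :=
        le_trans hlow'.le (mul_le_mul_of_nonneg_right (min_le_right _ _) hnt.le)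
      have hTge : -t ≤ Th t y := by rw [hTeq]; linarith [hXty.1]
      have hXT : Xf y / Th t y ≤ 1 / (2 * (K + M + 1)) := by
        rw [div_le_iff₀ hT]
        exact le_trans hXδ2 (mul_le_mul_of_nonneg_left hTge (by positivity))
      have hr : Xf y * deriv (fun s => wG a 1 (M + 1) q Γ s y) t
          + c * Xf y * |dT g.Z (t, y)| * wG a 1 (M + 1) q Γ t y ≤ wG a 1 (M + 1) q Γ t y := by
        have h1 : (M + K) * (Xf y / Th t y) ≤ 1 := by
          calc (M + K) * (Xf y / Th t y) ≤ (M + K) * (1 / (2 * (K + M + 1))) :=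
                mul_le_mul_of_nonneg_left hXT (by linarith)
            _ = (M + K) / (2 * (K + M + 1)) := by ring
            _ ≤ 1 := by rw [div_le_one hden]; linarith
        have h2 : wG a 1 (M + 1) q Γ t y * ((M + K) * (Xf y / Th t y))
            ≤ wG a 1 (M + 1) q Γ t y * 1 := mul_le_mul_of_nonneg_left h1 hV.le
        have h3 : wG a 1 (M + 1) q Γ t y * ((M + K) * (Xf y / Th t y))
            = wG a 1 (M + 1) q Γ t y * (M * (Xf y / Th t y))
              + wG a 1 (M + 1) q Γ t y * (K * (Xf y / Th t y)) := by ring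
        linarith
      have := htip Γ hΓ0 t htc y ⟨by linarith, hy.2⟩ hXδ1 _ hr ξ
      calc _ = (Xf y * deriv (fun s => wG a 1 (M + 1) q Γ s y) t
          + c * Xf y * |dT g.Z (t, y)| * wG a 1 (M + 1) q Γ t y
          + 2 * zzF q g (wG a 1 (M + 1) q Γ t) t y) * nk q ξ
          + 2 * wG a 1 (M + 1) q Γ t y * quadM q g (t, y) ξ := by ring
        _ ≤ _ := this
  · have hy2' : y ≤ 1 / 2 := not_lt.mp hy2
    have hdZ0 : dT g.Z (t, y) = 0 := (coer_south q hq0 hg ho ht0 y (by linarith)).2.2.2.2.2.1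
    have hE0 : c * Xf y * |dT g.Z (t, y)| * wG a 1 (M + 1) q Γ t y = 0 := by
      rw [hdZ0]; simp
    by_cases hX16 : 1 / 16 ≤ Xf y
    · -- middle zone
      have hD := wL_dt_mid a M q Γ t y hq hΓ0 ht0 htd ⟨hy.1, hy2'⟩ hX16
      have hE' : c * Xf y * |dT g.Z (t, y)| * wG a 1 (M + 1) q Γ t y
          ≤ wG a 1 (M + 1) q Γ t y * 0 := by rw [hE0]; simp
      exact coerL_asm _ _ _ _ _ _ C₂ _ _ q hV hN hD hE' hG (by linarith)
    · -- south cap
      have hX16' : Xf y < 1 / 16 := not_le.mp hX16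
      have hyneg : y < 0 := by
        by_contra hcon
        have hy0 : 0 ≤ y := not_lt.mp hcon
        have : Xf y = 1 - y ^ 2 := rfl
        nlinarith
      have hXt34 := (hXt3 y hy2').1
      have hTge : 3 / 4 ≤ Th t y := by rw [hTeq]; linarith
      have hXT : Xf y / Th t y ≤ 1 / 12 := by
        rw [div_le_iff₀ hT]; linarith
      have hr : Xf y * deriv (fun s => wG a 1 (M + 1) q Γ s y) t
          + c * Xf y * |dT g.Z (t, y)| * wG a 1 (M + 1) q Γ t y ≤ 5 * wG a 1 (M + 1) q Γ t y := by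
        rw [hE0]
        have h1 : (M : ℝ) * (Xf y / Th t y) ≤ 5 := by
          calc (M : ℝ) * (Xf y / Th t y) ≤ 30 * (1 / 12) :=
                mul_le_mul hM30 hXT hXT0 (by norm_num)
            _ ≤ 5 := by norm_num
        have h2 := mul_le_mul_of_nonneg_left h1 hV.le
        linarith
      have := coer_southcap q hq g hg ho a 1 (M + 1) Γ t y hΓ0 ht0 ⟨hy.1, hyneg⟩ hX16'.le _ hr ξ
      calc _ = (Xf y * deriv (fun s => wG a 1 (M + 1) q Γ s y) t
          + c * Xf y * |dT g.Z (t, y)| * wG a 1 (M + 1) q Γ t y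
          + 2 * zzF q g (wG a 1 (M + 1) q Γ t) t y) * nk q ξ
          + 2 * wG a 1 (M + 1) q Γ t y * quadM q g (t, y) ξ := by ring
        _ ≤ _ := this

end Claimed.Agent.R324.Core
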