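/-
Row 324 (S0582), AP/A5 (pointwise coercivity), sub-architect helper232.   Blueprint origin/helper232:docs/R324_blueprint.md, section 7.2b.
The coercivity fields of BgGood.   g = the reference background bgR q g0.
-/
import Claimed.Agent.R324.Core.AP.Coer.LOut
import Claimed.Agent.R324.Core.AP.Coer.LCore
import Claimed.Agent.R324.Core.AP.Coer.HOut

set_option autoImplicit false

namespace Claimed.Agent.R324.Core

open Set
open scoped ContDiff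


theorem coerL_of (q : ℝ) (hq : 10 ^ 6 ≤ q) (g : Bg) (hg : BgSm g) (hbox : TipBox q g) (hbd : CoefBd q g)
    (ho : OutS g) (a M e : ℕ) (ha : 2 ≤ a) (ha4 : a ≤ 4) (hM : M ≤ 30) (he : e + M = a + 48) :
    CoerL q g a M e := by
  intro c
  obtain ⟨δ, Γ₀, hδ, hΓ₀, hout⟩ := coerL_outside q hq g hg hbox hbd ho a M ha ha4 hM c
  refine ⟨Γ₀, by linarith, ?_⟩
  intro Γ hΓ
  obtain ⟨Λ1, hΛ1, h1⟩ := hout Γ hΓ
  obtain ⟨Kc, Λ2, hKc, hΛ2, h2⟩ := coerL_core q hq g hg hbd a M e he c δ Γ hδ (hΓ₀.trans hΓ)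
  have hq0 : (0 : ℝ) ≤ q := by
    have : (0 : ℝ) ≤ 10 ^ 6 := by norm_num
    linarith
  refine ⟨Kc, min Λ1 Λ2, lt_min hΛ1 hΛ2, ?_⟩
  intro t ht y hy ξ
  have ht0 : t < 0 := ht.2
  have ht1 : t ∈ Ico (-Λ1) 0 := ⟨by have := ht.1; have := min_le_left Λ1 Λ2; linarith, ht0⟩
  have ht2 : t ∈ Ico (-Λ2) 0 := ⟨by have := ht.1; have := min_le_right Λ1 Λ2; linarith, ht0⟩
  by_cases hz : 1 / 2 < y ∧ δ * (-t) ≤ Xf y ∧ Xf y ≤ Γ * (-t)
  · exact h2 t ht2 y hy hz ξ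
  · refine (h1 t ht1 y hy hz ξ).trans ?_
    have hnk : 0 ≤ nk q ξ := coer_nk_nonneg q hq0 ξ
    have hXnn : 0 ≤ Xf y := w0_Xf_nonneg hy
    have hW : 0 < wH 3 52 q t y := by
      rw [wH_eq_wG 3 52 q 0 t y]
      exact wG_pos 3 0 52 q 0 t y hq le_rfl ht0 hy
    have htp : 0 ≤ (-t) ^ e := pow_nonneg (by linarith) e
    have : 0 ≤ Kc * (-t) ^ e * Xf y * wH 3 52 q t y * nk q ξ := by positivity
    linarith

theorem coerH_of (q : ℝ) (hq : 10 ^ 6 ≤ q) (g : Bg) (hg : BgSm g) (hbox : TipBox q g) (hbd : CoefBd q g)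
    (ho : OutS g) (a M : ℕ) (ha : 2 ≤ a) (ha4 : a ≤ 4) (hM : M ≤ 52) (ν : ℝ) (hν : 30 + 1 / 2 ≤ ν) :
    CoerH q g a M ν := by
  obtain ⟨δ, K, Λ1, hδ, hδ1, hK, hΛ1, hout⟩ := coerH_outside q hq g hg hbox hbd ho a M ha ha4 hM ν hν
  obtain ⟨C₂, Λ2, hC₂, hΛ2, hgen⟩ := coer_gen q hq g hg hbd a 0 M
  have hq0 : (0 : ℝ) ≤ q := by
    have : (0 : ℝ) ≤ 10 ^ 6 := by norm_num
    linarith
  have hM0 : (0 : ℝ) ≤ (M : ℝ) := Nat.cast_nonneg M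
  refine ⟨δ, K, (4 / 3 * M + C₂ + q / 4) / δ, min Λ1 Λ2, hδ, hδ1, hK, lt_min hΛ1 hΛ2, ?_⟩
  intro t ht y hy ξ
  have ht0 : t < 0 := ht.2
  have ht1 : t ∈ Ico (-Λ1) 0 := ⟨by have := ht.1; have := min_le_left Λ1 Λ2; linarith, ht0⟩
  have ht2 : t ∈ Ico (-Λ2) 0 := ⟨by have := ht.1; have := min_le_right Λ1 Λ2; linarith, ht0⟩
  by_cases hz : 0 < y ∧ δ * (-t) ≤ Xf y ∧ Xf y ≤ K * (-t)
  · rw [if_pos hz]
    obtain ⟨hy0, hX1, hX2⟩ := hz
    have e1 : wH a M q t = wG a 0 M q 0 t := funext (fun z => wH_eq_wG a M q 0 t z)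
    have e2 : (fun s => wH a M q s y) = fun s => wG a 0 M q 0 s y :=
      funext (fun s => wH_eq_wG a M q 0 s y)
    rw [e1, e2]
    set V := wG a 0 M q 0 t y with hV
    have hVpos : 0 < V := wG_pos a 0 M q 0 t y hq le_rfl ht0 hy
    have hnk : 0 ≤ nk q ξ := coer_nk_nonneg q hq0 ξ
    have hXnn : 0 ≤ Xf y := w0_Xf_nonneg hy
    have hTh : 0 < Th t y := w0_Th_pos ht0 hy
    have hXTh : Xf y ≤ 4 / 3 * Th t y := w0_Xf_le_Th ht0 hy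
    have hdt := wG_dt_le a 0 M q 0 t y hq le_rfl ht0 hy
    have hg' := hgen 0 le_rfl t ht2 y hy ξ
    have hnt : 0 < -t := by linarith
    have h1 : Xf y * ((M : ℝ) / Th t y) ≤ 4 / 3 * M := by
      have : Xf y * ((M : ℝ) / Th t y) = M * (Xf y / Th t y) := by ring
      rw [this]
      have h' : Xf y / Th t y ≤ 4 / 3 := by
        rw [div_le_iff₀ hTh]; exact hXTh
      have := mul_le_mul_of_nonneg_left h' hM0
      linarith
    have h3 : Xf y * deriv (fun s => wG a 0 M q 0 s y) t ≤ 4 / 3 * M * V := by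
      refine hdt.trans ?_
      have : Xf y * ((M : ℝ) / Th t y - ((0 : ℕ) : ℝ) * (1 + 0) / ((1 + 0) * (-t) + Xt y)) ≤ 4 / 3 * M := by
        have e0 : ((0 : ℕ) : ℝ) * (1 + 0) / ((1 + 0) * (-t) + Xt y) = 0 := by simp
        rw [e0, sub_zero]; exact h1
      calc V * (Xf y * ((M : ℝ) / Th t y - ((0 : ℕ) : ℝ) * (1 + 0) / ((1 + 0) * (-t) + Xt y)))
          ≤ V * (4 / 3 * M) := mul_le_mul_of_nonneg_left this hVpos.le
        _ = 4 / 3 * M * V := by ring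
    have h4 : δ ≤ Xf y / (-t) := by
      rw [le_div_iff₀ hnt]; exact hX1
    have hD : 0 ≤ 4 / 3 * (M : ℝ) + C₂ + q / 4 := by linarith
    have h5 : 4 / 3 * (M : ℝ) + C₂ + q / 4 ≤ (4 / 3 * M + C₂ + q / 4) / δ * (Xf y / (-t)) := by
      have : (4 / 3 * (M : ℝ) + C₂ + q / 4) / δ * δ = 4 / 3 * M + C₂ + q / 4 := by
        field_simp
      calc 4 / 3 * (M : ℝ) + C₂ + q / 4 = (4 / 3 * (M : ℝ) + C₂ + q / 4) / δ * δ := this.symm
        _ ≤ (4 / 3 * M + C₂ + q / 4) / δ * (Xf y / (-t)) :=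
          mul_le_mul_of_nonneg_left h4 (div_nonneg hD hδ.le)
    have hVn : 0 ≤ V * nk q ξ := mul_nonneg hVpos.le hnk
    have h6 : (4 / 3 * (M : ℝ) + C₂ + q / 4) * (V * nk q ξ)
        ≤ (4 / 3 * M + C₂ + q / 4) / δ * (Xf y / (-t)) * (V * nk q ξ) :=
      mul_le_mul_of_nonneg_right h5 hVn
    have h7 : Xf y * deriv (fun s => wG a 0 M q 0 s y) t * nk q ξ ≤ 4 / 3 * M * V * nk q ξ :=
      mul_le_mul_of_nonneg_right h3 hnk
    have h8 : 0 ≤ (ν - 30) * (Xf y / (-t)) * V * nk q ξ := by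
      have : 0 ≤ ν - 30 := by linarith
      have : 0 ≤ Xf y / (-t) := div_nonneg hXnn hnt.le
      positivity
    nlinarith [h6, h7, h8, hg']
  · rw [if_neg hz, add_zero]
    exact hout t ht1 y hy hz ξ

theorem coerS_of (q : ℝ) (hq : 10 ^ 6 ≤ q) (g : Bg) (hg : BgSm g) (hbox : TipBox q g) : CoerS q g := by
  obtain ⟨δ, Λ₀, hδ, _, hΛ₀, h⟩ := coer_tip q hq g hg hbox 2 0 0 le_rfl (by norm_num) (by norm_num)
  refine ⟨δ, Λ₀, hδ, hΛ₀, ?_⟩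
  intro t ht y hy hX ξ
  have hy' : y ∈ Icc (-1 : ℝ) 1 := ⟨by linarith [hy.1], hy.2⟩
  have e1 : (fun z => (rh2 q t z) ^ 2) = wG 2 0 0 q 0 t := funext (fun z => rh2sq_eq_wG q 0 t z)
  have hpos := wG_pos 2 0 0 q 0 t y hq le_rfl ht.2 hy'
  have := h 0 le_rfl t ht y hy hX 0 hpos.le ξ
  rw [e1, rh2sq_eq_wG q 0 t y]
  rw [zero_add] at this
  exact this

end Claimed.Agent.R324.Core
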