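/-
Row 324 (S0582), AP/A5 (pointwise coercivity), sub-architect helper232.   Blueprint origin/helper232:docs/R324_blueprint.md, section 7.2b.
Weights wG a e M = R^a L^e / T^M  (R = rh2 = ell2 + Xt, L = (1+Gam) Lam + Xt, T = Th = Lam + Xt);  wL a M = wG a 1 (M+1), wH a M = wG a 0 M, rh2^2 = wG 2 0 0.
NOTE: as functions of y in R the weights are smooth only near [-1,1] (T may vanish for |y|>1): use ContDiffAt.
Xt = X for y >= 1/2, Xt = 15/16 for y <= 0, Xt in [3/4,1] for y <= 1/2.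
-/
import Claimed.Agent.R324.Core.AP.Coer.Defs
import Claimed.Agent.R324.Bohm.Alpha

set_option autoImplicit false

namespace Claimed.Agent.R324.Core

open Set
open scoped ContDiff


theorem wL_eq_wG (a M : ℕ) (q Γ t y : ℝ) : wL a M q Γ t y = wG a 1 (M + 1) q Γ t y := by
  unfold wL wG
  rw [pow_one]

theorem wH_eq_wG (a M : ℕ) (q Γ t y : ℝ) : wH a M q t y = wG a 0 M q Γ t y := by
  unfold wH wG
  rw [pow_zero, mul_one]

theorem rh2sq_eq_wG (q Γ t y : ℝ) : (rh2 q t y) ^ 2 = wG 2 0 0 q Γ t y := by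
  unfold wG
  rw [pow_zero, pow_zero, mul_one, div_one]

/-- `X̃`: elementary facts  (`Xt_eq`, `w0_Xt_S`, `Xt_mem`, `Xt_nonneg`, `w0_Xf_le_Xt`, `w0_contDiff_Xt`; for `y < -1` in the third item argue directly with `w0_Xt_S`). -/
theorem coer_Xt_facts : (∀ y : ℝ, 1 / 2 ≤ y → Xt y = Xf y) ∧ (∀ y : ℝ, y ≤ 0 → Xt y = 15 / 16) ∧
    (∀ y : ℝ, y ≤ 1 / 2 → 3 / 4 ≤ Xt y ∧ Xt y ≤ 1) ∧ (∀ y ∈ Icc (-1 : ℝ) 1, 0 ≤ Xt y ∧ Xt y ≤ 1 ∧ Xf y ≤ 4 / 3 * Xt y) ∧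
    ContDiff ℝ ∞ Xt := by
  refine ⟨fun y hy => Xt_eq hy, fun y hy => w0_Xt_S hy, fun y hy => ?_, fun y hy =>
    ⟨(Xt_nonneg hy.1 hy.2).1, (Xt_nonneg hy.1 hy.2).2, w0_Xf_le_Xt hy⟩, w0_contDiff_Xt⟩
  rcases le_or_gt (-1) y with h | h
  · exact Xt_mem hy h
  · rw [w0_Xt_S (by linarith)]
    norm_num

theorem coer_ell2_pos (q t : ℝ) (hq : 10 ^ 6 ≤ q) (ht : t < 0) : 0 < ell2 q t := by
  exact w0_ell2_pos (by linarith) ht

theorem wG_pos (a e M : ℕ) (q Γ t y : ℝ) (hq : 10 ^ 6 ≤ q) (hΓ : 0 ≤ Γ) (ht : t < 0) (hy : y ∈ Icc (-1 : ℝ) 1) :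
    0 < wG a e M q Γ t y := by
  have h1 : 0 < rh2 q t y := w0_rh2_pos (by linarith) ht hy
  have h2 : 0 < (1 + Γ) * (-t) + Xt y := by
    have a1 : 0 < (1 + Γ) * (-t) := mul_pos (by linarith) (by linarith)
    have a2 := (Xt_nonneg hy.1 hy.2).1
    linarith
  have h3 : 0 < Th t y := w0_Th_pos ht hy
  unfold wG
  exact div_pos (mul_pos (pow_pos h1 a) (pow_pos h2 e)) (pow_pos h3 M)

/-- `wG a e M q Γ t ∈ TB C` with `C = C(a,e,M)` independent of `q, Γ, t` (as `w0_tb_wL`). -/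
theorem coer_wG_tb (a e M : ℕ) :
    ∃ C : ℝ, 0 ≤ C ∧ ∀ q Γ t : ℝ, 1 < q → 0 ≤ Γ → t < 0 → TB C (wG a e M q Γ t) := by
  obtain ⟨K, hK, h⟩ := w0_tb_base
  have hall : ∀ q Γ t : ℝ, 1 < q → 0 ≤ Γ → t < 0 →
      TB ((tbPow K a + 2 * tbPow K a * tbPow K e + tbPow K e)
        + 2 * (tbPow K a + 2 * tbPow K a * tbPow K e + tbPow K e) * (tbPow K M + 2 * tbPow K M ^ 2)
        + (tbPow K M + 2 * tbPow K M ^ 2)) (wG a e M q Γ t) := by
    intro q Γ t hq hΓ ht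
    have h1 : TB K (fun y => rh2 q t y) := h (ell2 q t) (w0_ell2_pos hq ht)
    have h2 : TB K (fun y => (1 + Γ) * (-t) + Xt y) :=
      h _ (mul_pos (by linarith) (by linarith))
    have h3 : TB K (fun y => Th t y) := h (-t) (by linarith)
    exact ((h1.pow a).mul (h2.pow e)).div (h3.pow M)
  exact ⟨_, (hall 2 0 (-1) (by norm_num) le_rfl (by norm_num)).nonneg_C, hall⟩

end Claimed.Agent.R324.Core
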