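/-
Row 324 (S0582), AP/A5 (pointwise coercivity), sub-architect helper232.   Blueprint origin/helper232:docs/R324_blueprint.md, section 7.2b.
Weights wG a e M = R^a L^e / T^M  (R = rh2 = ell2 + Xt, L = (1+Gam) Lam + Xt, T = Th = Lam + Xt);  wL a M = wG a 1 (M+1), wH a M = wG a 0 M, rh2^2 = wG 2 0 0.
NOTE: as functions of y in R the weights are smooth only near [-1,1] (T may vanish for |y|>1): use ContDiffAt.
Xt = X for y >= 1/2, Xt = 15/16 for y <= 0, Xt in [3/4,1] for y <= 1/2.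
-/
import Claimed.Agent.R324.Core.AP.Coer.Defs
import Claimed.Agent.R324.Bohm.Alpha
import Claimed.Agent.R324.Core.AP.Coer.WtA

set_option autoImplicit false

namespace Claimed.Agent.R324.Core

open Set
open scoped ContDiff


theorem wL_core_id (a M e : ℕ) (he : e + M = a + 48) (c G δ Λ : ℝ) (hc : 0 < c) (hδ : 0 < δ)
    (hΛ : 0 < Λ) :
    (c * Λ) ^ a * (G * Λ) / Λ ^ (M + 1)
      = c ^ (a + 52) * G / δ ^ 4 * Λ ^ e * (δ * Λ) * ((δ * Λ) ^ 3 / (c * Λ) ^ 52) := by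
  have h1 : Λ ^ (a + 1) / Λ ^ (M + 1) = Λ ^ (e + 4) / Λ ^ 52 := by
    rw [div_eq_div_iff (by positivity) (by positivity), ← pow_add, ← pow_add]
    congr 1
    omega
  have h2 : (c * Λ) ^ a * (G * Λ) / Λ ^ (M + 1) = c ^ a * G * (Λ ^ (a + 1) / Λ ^ (M + 1)) := by
    rw [mul_pow, pow_succ]
    ring
  have h3 : c ^ (a + 52) * G / δ ^ 4 * Λ ^ e * (δ * Λ) * ((δ * Λ) ^ 3 / (c * Λ) ^ 52)
      = c ^ a * G * (Λ ^ (e + 4) / Λ ^ 52) := by
    rw [pow_add c a 52, pow_add Λ e 4]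
    field_simp
  rw [h2, h3, h1]

/-- core zone: all of `X, R, L, T` are comparable to `Λ`;  `e + M = a + 48`. -/
theorem wL_core (a M e : ℕ) (he : e + M = a + 48) (q δ K Γ : ℝ) (hq : 10 ^ 6 ≤ q) (hδ : 0 < δ) (hK : 1 ≤ K)
    (hΓ : 0 ≤ Γ) : ∃ K₀ : ℝ, 0 ≤ K₀ ∧ ∀ t y : ℝ, t < 0 → ell2 q t ≤ -t → y ∈ Ioc (1 / 2 : ℝ) 1 →
      δ * (-t) ≤ Xf y → Xf y ≤ K * (-t) →
      wL a M q Γ t y ≤ K₀ * (-t) ^ e * Xf y * wH 3 52 q t y := by
  have hc : 0 < 1 + K := by linarith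
  have hG : 0 < 1 + Γ + K := by linarith
  refine ⟨(1 + K) ^ (a + 52) * (1 + Γ + K) / δ ^ 4, by positivity, ?_⟩
  intro t y ht hell hy hX1 hX2
  have hXt : Xt y = Xf y := coer_Xt_facts.1 y hy.1.le
  have hell0 := coer_ell2_pos q t hq ht
  have hΛ : 0 < -t := by linarith
  have hδΛ : 0 < δ * (-t) := by positivity
  have hX0 : 0 < Xf y := by linarith
  have hR1 : δ * (-t) ≤ ell2 q t + Xf y := by linarith
  have hR2 : ell2 q t + Xf y ≤ (1 + K) * (-t) := by nlinarith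
  have hL2 : (1 + Γ) * (-t) + Xf y ≤ (1 + Γ + K) * (-t) := by nlinarith
  have hL0 : 0 ≤ (1 + Γ) * (-t) + Xf y := by nlinarith
  have hT1 : -t ≤ -t + Xf y := by linarith
  have hT2 : -t + Xf y ≤ (1 + K) * (-t) := by nlinarith
  unfold wL wH rh2 Th
  rw [hXt]
  have s1 : (ell2 q t + Xf y) ^ a * ((1 + Γ) * (-t) + Xf y) / (-t + Xf y) ^ (M + 1)
      ≤ ((1 + K) * (-t)) ^ a * ((1 + Γ + K) * (-t)) / (-t) ^ (M + 1) := by
    apply div_le_div₀ (by positivity)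
    · exact mul_le_mul (pow_le_pow_left₀ (by linarith) hR2 a) hL2 hL0 (by positivity)
    · positivity
    · exact pow_le_pow_left₀ hΛ.le hT1 (M + 1)
  have s2 : (δ * (-t)) ^ 3 / ((1 + K) * (-t)) ^ 52 ≤ (ell2 q t + Xf y) ^ 3 / (-t + Xf y) ^ 52 := by
    apply div_le_div₀ (by positivity)
    · exact pow_le_pow_left₀ hδΛ.le hR1 3
    · positivity
    · exact pow_le_pow_left₀ (by linarith) hT2 52
  refine s1.trans ?_
  rw [wL_core_id a M e he (1 + K) (1 + Γ + K) δ (-t) hc hδ hΛ]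
  exact mul_le_mul (mul_le_mul_of_nonneg_left hX1 (by positivity)) s2 (by positivity) (by positivity)

end Claimed.Agent.R324.Core
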