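/-
Row 324 (S0582), AP/A5 (pointwise coercivity), sub-architect helper232.   Blueprint origin/helper232:docs/R324_blueprint.md, section 7.2b.
Weights wG a e M = R^a L^e / T^M  (R = rh2 = ell2 + Xt, L = (1+Gam) Lam + Xt, T = Th = Lam + Xt);  wL a M = wG a 1 (M+1), wH a M = wG a 0 M, rh2^2 = wG 2 0 0.
NOTE: as functions of y in R the weights are smooth only near [-1,1] (T may vanish for |y|>1): use ContDiffAt.
Xt = X for y >= 1/2, Xt = 15/16 for y <= 0, Xt in [3/4,1] for y <= 1/2.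
-/
import Claimed.Agent.R324.Core.AP.Coer.Defs
import Claimed.Agent.R324.Bohm.Alpha
import Claimed.Agent.R324.Core.AP.Coer.WtA

set_option autoImplicit false

namespace Claimed.Agent.R324.Core

open Set
open scoped ContDiff


theorem wtdt_pow {f : ℝ → ℝ} {f' t : ℝ} (hf : HasDerivAt f f' t) (h0 : f t ≠ 0) (n : ℕ) :
    HasDerivAt (fun s => f s ^ n) (f t ^ n * (n * f' / f t)) t := by
  have h := hf.fun_pow n
  refine h.congr_deriv ?_
  cases n with
  | zero => simp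
  | succ m =>
    simp only [Nat.add_sub_cancel]
    field_simp
    ring

theorem wtdt_gen {R L T : ℝ → ℝ} {R' L' T' t : ℝ} (hR : HasDerivAt R R' t) (hL : HasDerivAt L L' t)
    (hT : HasDerivAt T T' t) (hR0 : R t ≠ 0) (hL0 : L t ≠ 0) (hT0 : T t ≠ 0) (a e M : ℕ) :
    HasDerivAt (fun s => R s ^ a * L s ^ e / T s ^ M)
      (R t ^ a * L t ^ e / T t ^ M * (a * R' / R t + e * L' / L t - M * T' / T t)) t := by
  have h := ((wtdt_pow hR hR0 a).fun_mul (wtdt_pow hL hL0 e)).fun_div (wtdt_pow hT hT0 M) (pow_ne_zero _ hT0)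
  refine h.congr_deriv ?_
  field_simp

theorem wtdt_ell2 (q t : ℝ) (ht : t < 0) :
    HasDerivAt (fun s => ell2 q s) (-(2 * gaF q * ell2 q t / (-t))) t := by
  have h0 : (0 : ℝ) < -t := by linarith
  have h1 : HasDerivAt (fun s : ℝ => -s) (-1) t := (hasDerivAt_id t).neg
  have h2 : HasDerivAt (fun s : ℝ => (-s) ^ (2 * gaF q)) ((-1) * (2 * gaF q) * (-t) ^ (2 * gaF q - 1)) t :=
    h1.rpow_const (Or.inl h0.ne')
  have h3 := h2.const_mul ((q - 1) / 100)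
  have e : (fun s => ell2 q s) = fun s : ℝ => (q - 1) / 100 * (-s) ^ (2 * gaF q) := rfl
  rw [e]
  refine h3.congr_deriv ?_
  unfold ell2 lam2
  rw [Real.rpow_sub_one h0.ne']
  ring

theorem wtdt_gaF_pos (q : ℝ) (hq : 10 ^ 6 ≤ q) : 0 < gaF q := by
  have h := (bAl_bounds (q := q) (by linarith)).1
  unfold gaF
  positivity

/-- time derivative.   `∂_t ℓ² = -2γ ℓ²/Λ`, `∂_t L = -(1+Γ)`, `∂_t T = -1`. -/
theorem wG_dt (a e M : ℕ) (q Γ t y : ℝ) (hq : 10 ^ 6 ≤ q) (hΓ : 0 ≤ Γ) (ht : t < 0) (hy : y ∈ Icc (-1 : ℝ) 1) :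
    HasDerivAt (fun s => wG a e M q Γ s y)
      (wG a e M q Γ t y * (a * (-(2 * gaF q * ell2 q t / (-t))) / rh2 q t y
        - e * (1 + Γ) / ((1 + Γ) * (-t) + Xt y) + M / Th t y)) t := by
  have h0 : (0 : ℝ) < -t := by linarith
  have hX := (Xt_nonneg hy.1 hy.2).1
  have hR0 : rh2 q t y ≠ 0 := (w0_rh2_pos (by linarith) ht hy).ne'
  have hT0 : Th t y ≠ 0 := (w0_Th_pos ht hy).ne'
  have hL0 : (1 + Γ) * (-t) + Xt y ≠ 0 := by
    have : 0 < (1 + Γ) * (-t) := by positivity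
    linarith
  have hR : HasDerivAt (fun s => rh2 q s y) (-(2 * gaF q * ell2 q t / (-t))) t :=
    (wtdt_ell2 q t ht).add_const (Xt y)
  have h1 : HasDerivAt (fun s : ℝ => -s) (-1) t := (hasDerivAt_id t).neg
  have hL : HasDerivAt (fun s : ℝ => (1 + Γ) * (-s) + Xt y) ((1 + Γ) * (-1)) t :=
    (h1.const_mul (1 + Γ)).add_const (Xt y)
  have hT : HasDerivAt (fun s : ℝ => Th s y) (-1) t := h1.add_const (Xt y)
  have h := wtdt_gen hR hL hT hR0 hL0 hT0 a e M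
  have e1 : (fun s => wG a e M q Γ s y)
      = fun s => (rh2 q s y) ^ a * ((1 + Γ) * (-s) + Xt y) ^ e / (Th s y) ^ M := rfl
  rw [e1]
  refine h.congr_deriv ?_
  unfold wG
  ring

theorem wG_dt_le (a e M : ℕ) (q Γ t y : ℝ) (hq : 10 ^ 6 ≤ q) (hΓ : 0 ≤ Γ) (ht : t < 0) (hy : y ∈ Icc (-1 : ℝ) 1) :
    Xf y * deriv (fun s => wG a e M q Γ s y) t
      ≤ wG a e M q Γ t y * (Xf y * (M / Th t y - e * (1 + Γ) / ((1 + Γ) * (-t) + Xt y))) := by
  rw [(wG_dt a e M q Γ t y hq hΓ ht hy).deriv]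
  have h0 : (0 : ℝ) < -t := by linarith
  have hw := wG_pos a e M q Γ t y hq hΓ ht hy
  have hXf := w0_Xf_nonneg hy
  have hR := w0_rh2_pos (q := q) (by linarith) ht hy
  have hl := w0_ell2_pos (q := q) (by linarith) ht
  have hg := wtdt_gaF_pos q hq
  have h1 : 0 ≤ (a : ℝ) * (2 * gaF q * ell2 q t / (-t)) / rh2 q t y := by positivity
  have h2 : (a : ℝ) * (-(2 * gaF q * ell2 q t / (-t))) / rh2 q t y
      = -((a : ℝ) * (2 * gaF q * ell2 q t / (-t)) / rh2 q t y) := by ring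
  rw [h2]
  have h3 : 0 ≤ wG a e M q Γ t y * Xf y * ((a : ℝ) * (2 * gaF q * ell2 q t / (-t)) / rh2 q t y) := by positivity
  nlinarith [h3]

end Claimed.Agent.R324.Core
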