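/-
Row 324 (S0582), AP/A5 (pointwise coercivity), sub-architect helper232.   Blueprint origin/helper232:docs/R324_blueprint.md, section 7.2b.
Weights wG a e M = R^a L^e / T^M  (R = rh2 = ell2 + Xt, L = (1+Gam) Lam + Xt, T = Th = Lam + Xt);  wL a M = wG a 1 (M+1), wH a M = wG a 0 M, rh2^2 = wG 2 0 0.
NOTE: as functions of y in R the weights are smooth only near [-1,1] (T may vanish for |y|>1): use ContDiffAt.
Xt = X for y >= 1/2, Xt = 15/16 for y <= 0, Xt in [3/4,1] for y <= 1/2.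
-/
import Claimed.Agent.R324.Core.AP.Coer.Defs
import Claimed.Agent.R324.Bohm.Alpha
import Claimed.Agent.R324.Core.AP.Coer.WtDt

set_option autoImplicit false

namespace Claimed.Agent.R324.Core

open Set
open scoped ContDiff


/-- `(M+1)/T - (1+Γ)/L = M/T - Γ X̃/(L T)`. -/
theorem wL_dt_any (a M : ℕ) (q Γ t y : ℝ) (hq : 10 ^ 6 ≤ q) (hΓ : 0 ≤ Γ) (ht : t < 0) (hy : y ∈ Icc (-1 : ℝ) 1) :
    Xf y * deriv (fun s => wG a 1 (M + 1) q Γ s y) t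
      ≤ wG a 1 (M + 1) q Γ t y * (M * (Xf y / Th t y)
        - Γ * (Xf y * Xt y / (((1 + Γ) * (-t) + Xt y) * Th t y))) := by
  have h := wG_dt_le a 1 (M + 1) q Γ t y hq hΓ ht hy
  refine h.trans (le_of_eq ?_)
  have h0 : (0 : ℝ) < -t := by linarith
  have hX := (Xt_nonneg hy.1 hy.2).1
  have hT0 : Th t y ≠ 0 := (w0_Th_pos ht hy).ne'
  have hL0 : (1 + Γ) * (-t) + Xt y ≠ 0 := by
    have : 0 < (1 + Γ) * (-t) := by positivity
    linarith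
  congr 1
  have hLT : (1 + Γ) * (-t) + Xt y = (1 + Γ) * Th t y - Γ * Xt y := by
    have e : Th t y = -t + Xt y := rfl
    rw [e]
    ring
  generalize (1 + Γ) * (-t) + Xt y = L at hLT hL0 ⊢
  generalize Th t y = T at hLT hT0 ⊢
  push_cast
  field_simp
  linear_combination Xf y * hLT

/-- far zone, north:  `X ≥ Γ Λ`, `Γ ≥ 1`:  `L ≤ 3 X`, `T ≤ 2 X`. -/
theorem wL_dt_far (a M : ℕ) (q Γ t y : ℝ) (hq : 10 ^ 6 ≤ q) (hΓ : 1 ≤ Γ) (ht : t < 0)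
    (hy : y ∈ Ioc (1 / 2 : ℝ) 1) (hX : Γ * (-t) ≤ Xf y) :
    Xf y * deriv (fun s => wG a 1 (M + 1) q Γ s y) t ≤ wG a 1 (M + 1) q Γ t y * (M - Γ / 6) := by
  have hy' : y ∈ Icc (-1 : ℝ) 1 := ⟨by linarith [hy.1], hy.2⟩
  have hΓ0 : 0 ≤ Γ := by linarith
  have h := wL_dt_any a M q Γ t y hq hΓ0 ht hy'
  refine h.trans ?_
  have hw := wG_pos a 1 (M + 1) q Γ t y hq hΓ0 ht hy'
  refine mul_le_mul_of_nonneg_left ?_ hw.le
  have h0 : (0 : ℝ) < -t := by linarith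
  have hXt : Xt y = Xf y := Xt_eq hy.1.le
  have e : Th t y = -t + Xt y := rfl
  rw [e, hXt]
  have hX0 : 0 < Xf y := lt_of_lt_of_le (by positivity) hX
  have hΛX : -t ≤ Xf y := by nlinarith
  have hT : 0 < -t + Xf y := by linarith
  have hL : 0 < (1 + Γ) * (-t) + Xf y := by positivity
  have h1 : Xf y / (-t + Xf y) ≤ 1 := by
    rw [div_le_one hT]
    linarith
  have h2 : 1 / 6 ≤ Xf y * Xf y / (((1 + Γ) * (-t) + Xf y) * (-t + Xf y)) := by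
    rw [div_le_div_iff₀ (by norm_num) (by positivity)]
    have hL3 : (1 + Γ) * (-t) + Xf y ≤ 3 * Xf y := by nlinarith
    have hT2 : -t + Xf y ≤ 2 * Xf y := by linarith
    have h3 : ((1 + Γ) * (-t) + Xf y) * (-t + Xf y) ≤ 3 * Xf y * (2 * Xf y) :=
      mul_le_mul hL3 hT2 hT.le (by positivity)
    nlinarith
  have hM : (0 : ℝ) ≤ M := Nat.cast_nonneg M
  have h4 : (M : ℝ) * (Xf y / (-t + Xf y)) ≤ M * 1 := mul_le_mul_of_nonneg_left h1 hM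
  have h5 : Γ * (1 / 6) ≤ Γ * (Xf y * Xf y / (((1 + Γ) * (-t) + Xf y) * (-t + Xf y))) :=
    mul_le_mul_of_nonneg_left h2 hΓ0
  linarith

/-- middle zone:  `y ≤ 1/2`, `X ≥ 1/16`, `(1+Γ) Λ ≤ 1`:  `L, T ≤ 2`, `X̃ ≥ 3/4`, `X/T ≤ 4/3`. -/
theorem wL_dt_mid (a M : ℕ) (q Γ t y : ℝ) (hq : 10 ^ 6 ≤ q) (hΓ : 0 ≤ Γ) (ht : t < 0) (ht' : (1 + Γ) * (-t) ≤ 1)
    (hy : y ∈ Icc (-1 : ℝ) (1 / 2)) (hX : 1 / 16 ≤ Xf y) :
    Xf y * deriv (fun s => wG a 1 (M + 1) q Γ s y) t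
      ≤ wG a 1 (M + 1) q Γ t y * (4 / 3 * M - 3 * Γ / 256) := by
  have hy' : y ∈ Icc (-1 : ℝ) 1 := ⟨hy.1, by linarith [hy.2]⟩
  have h := wL_dt_any a M q Γ t y hq hΓ ht hy'
  refine h.trans ?_
  have hw := wG_pos a 1 (M + 1) q Γ t y hq hΓ ht hy'
  refine mul_le_mul_of_nonneg_left ?_ hw.le
  have h0 : (0 : ℝ) < -t := by linarith
  obtain ⟨hXt1, hXt2⟩ := Xt_mem hy.2 hy.1
  have hTp := w0_Th_pos ht hy'
  have hXT := w0_Xf_le_Th ht hy'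
  have e : Th t y = -t + Xt y := rfl
  have hΛ1 : -t ≤ 1 := by nlinarith
  have hT2 : Th t y ≤ 2 := by rw [e]; linarith
  have hL : 0 < (1 + Γ) * (-t) + Xt y := by positivity
  have hL2 : (1 + Γ) * (-t) + Xt y ≤ 2 := by linarith
  have h1 : Xf y / Th t y ≤ 4 / 3 := by
    rw [div_le_iff₀ hTp]
    exact hXT
  have h2 : 3 / 256 ≤ Xf y * Xt y / (((1 + Γ) * (-t) + Xt y) * Th t y) := by
    rw [div_le_div_iff₀ (by norm_num) (by positivity)]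
    have h3 : ((1 + Γ) * (-t) + Xt y) * Th t y ≤ 2 * 2 := mul_le_mul hL2 hT2 hTp.le (by norm_num)
    have h4 : 1 / 16 * (3 / 4) ≤ Xf y * Xt y := mul_le_mul hX hXt1 (by norm_num) (by linarith)
    nlinarith
  have hM : (0 : ℝ) ≤ M := Nat.cast_nonneg M
  have h4 : (M : ℝ) * (Xf y / Th t y) ≤ M * (4 / 3) := mul_le_mul_of_nonneg_left h1 hM
  have h5 : Γ * (3 / 256) ≤ Γ * (Xf y * Xt y / (((1 + Γ) * (-t) + Xt y) * Th t y)) :=
    mul_le_mul_of_nonneg_left h2 hΓ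
  linarith

end Claimed.Agent.R324.Core
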