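/-
Row 324 (S0582), AP/A5 (pointwise coercivity), sub-architect helper232.   Blueprint origin/helper232:docs/R324_blueprint.md, section 7.2b.
Weights wG a e M = R^a L^e / T^M  (R = rh2 = ell2 + Xt, L = (1+Gam) Lam + Xt, T = Th = Lam + Xt);  wL a M = wG a 1 (M+1), wH a M = wG a 0 M, rh2^2 = wG 2 0 0.
NOTE: as functions of y in R the weights are smooth only near [-1,1] (T may vanish for |y|>1): use ContDiffAt.
Xt = X for y >= 1/2, Xt = 15/16 for y <= 0, Xt in [3/4,1] for y <= 1/2.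
-/
import Claimed.Agent.R324.Core.AP.Coer.Defs
import Claimed.Agent.R324.Bohm.Alpha
import Claimed.Agent.R324.Core.AP.Coer.WtA

set_option autoImplicit false

namespace Claimed.Agent.R324.Core

open Set
open scoped ContDiff


/-- `ℓ² = (q-1)/100 Λ^{2γ} ≤ Λ` for small `Λ` (`2γ = 16/α > 5`).   = `w0_ell2_le` (Core/W/WtB.lean) with `Λ₀ = 100/q`. -/
theorem coer_ell2_le (q : ℝ) (hq : 10 ^ 6 ≤ q) : ∃ Λ₀ : ℝ, 0 < Λ₀ ∧ ∀ t ∈ Ico (-Λ₀) 0, ell2 q t ≤ -t := by
  have hq0 : 0 < q := by linarith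
  exact ⟨100 / q, by positivity, fun t ht => w0_ell2_le (by linarith) ht.2 (by linarith [ht.1])⟩

end Claimed.Agent.R324.Core
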