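/-
Row 324 (S0582), AP/A5 (pointwise coercivity), sub-architect helper232.   Blueprint origin/helper232:docs/R324_blueprint.md, section 7.2b.
Weights wG a e M = R^a L^e / T^M  (R = rh2 = ell2 + Xt, L = (1+Gam) Lam + Xt, T = Th = Lam + Xt);  wL a M = wG a 1 (M+1), wH a M = wG a 0 M, rh2^2 = wG 2 0 0.
NOTE: as functions of y in R the weights are smooth only near [-1,1] (T may vanish for |y|>1): use ContDiffAt.
Xt = X for y >= 1/2, Xt = 15/16 for y <= 0, Xt in [3/4,1] for y <= 1/2.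
-/
import Claimed.Agent.R324.Core.AP.Coer.Defs
import Claimed.Agent.R324.Bohm.Alpha
import Claimed.Agent.R324.Core.AP.Coer.WtA

set_option autoImplicit false

namespace Claimed.Agent.R324.Core

open Set
open scoped ContDiff


/-- as in `w0_tb_wL` (Core/W/TBe.lean): `TB _ (wG a e M q Γ t)`, field `.sm`;  or directly `ContDiffAt.div`, `w0_contDiff_Xt`, `w0_Th_pos`. -/
theorem wG_contDiffAt (a e M : ℕ) (q Γ t y : ℝ) (hq : 10 ^ 6 ≤ q) (hΓ : 0 ≤ Γ) (ht : t < 0)
    (hy : y ∈ Icc (-1 : ℝ) 1) : ContDiffAt ℝ ∞ (wG a e M q Γ t) y := by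
  obtain ⟨C, -, h⟩ := coer_wG_tb a e M
  exact (h q Γ t (by linarith) hΓ ht).sm y hy

end Claimed.Agent.R324.Core
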