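/-
Row 324 (S0582), AP/A5 (pointwise coercivity), sub-architect helper232.   Blueprint origin/helper232:docs/R324_blueprint.md, section 7.2b.
Weights wG a e M = R^a L^e / T^M  (R = rh2 = ell2 + Xt, L = (1+Gam) Lam + Xt, T = Th = Lam + Xt);  wL a M = wG a 1 (M+1), wH a M = wG a 0 M, rh2^2 = wG 2 0 0.
NOTE: as functions of y in R the weights are smooth only near [-1,1] (T may vanish for |y|>1): use ContDiffAt.
Xt = X for y >= 1/2, Xt = 15/16 for y <= 0, Xt in [3/4,1] for y <= 1/2.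
-/
import Claimed.Agent.R324.Core.AP.Coer.Defs
import Claimed.Agent.R324.Bohm.Alpha
import Claimed.Agent.R324.Core.AP.Coer.WtA
import Claimed.Agent.R324.Core.AP.Coer.WtSm

set_option autoImplicit false

namespace Claimed.Agent.R324.Core

open Set
open scoped ContDiff


/-- general bounds, uniform in `q, Γ, t`.   SHORT PROOF: copy `w0_tb_wL` of Core/W/TBe.lean:  `obtain ⟨K, hK, h⟩ := w0_tb_base`, `((h1.pow a).mul (h2.pow e)).div (h3.pow M) : TB _ (wG a e M q Γ t)`, then `.t1`, `.t2`.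
Idea:   `tt V = χ₁ (a/R + e/L - M/T) V`, `χ₁ = tt X̃`, `|χ₁|, |tt χ₁| ≤ C X̃` on `[-1,1]`
(`y > 1/2`: explicit; `y ≤ 1/2`: `X̃ ≥ 3/4` and continuity on a compact interval), `R, L, T ≥ X̃`. -/
theorem wG_gen_bd (a e M : ℕ) : ∃ C : ℝ, ∀ q Γ t y : ℝ, 10 ^ 6 ≤ q → 0 ≤ Γ → t < 0 → y ∈ Icc (-1 : ℝ) 1 →
    |tt (wG a e M q Γ t) y| ≤ C * wG a e M q Γ t y ∧ |tt (tt (wG a e M q Γ t)) y| ≤ C * wG a e M q Γ t y := by
  obtain ⟨C, -, h⟩ := coer_wG_tb a e M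
  exact ⟨C, fun q Γ t y hq hΓ ht hy =>
    ⟨(h q Γ t (by linarith) hΓ ht).t1 y hy, (h q Γ t (by linarith) hΓ ht).t2 y hy⟩⟩

end Claimed.Agent.R324.Core
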