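/-
Row 324 (S0582), AP/A5 (pointwise coercivity), sub-architect helper232.   Blueprint origin/helper232:docs/R324_blueprint.md, section 7.2b.
Weights wG a e M = R^a L^e / T^M  (R = rh2 = ell2 + Xt, L = (1+Gam) Lam + Xt, T = Th = Lam + Xt);  wL a M = wG a 1 (M+1), wH a M = wG a 0 M, rh2^2 = wG 2 0 0.
NOTE: as functions of y in R the weights are smooth only near [-1,1] (T may vanish for |y|>1): use ContDiffAt.
Xt = X for y >= 1/2, Xt = 15/16 for y <= 0, Xt in [3/4,1] for y <= 1/2.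
-/
import Claimed.Agent.R324.Core.AP.Coer.Defs
import Claimed.Agent.R324.Bohm.Alpha
import Claimed.Agent.R324.Core.AP.Coer.WtA

set_option autoImplicit false

namespace Claimed.Agent.R324.Core

open Set
open scoped ContDiff


theorem wG_pow_log (u : ℝ) (hu : u ≠ 0) (n : ℕ) : (n : ℝ) * u ^ (n - 1) = n * (u ^ n / u) := by
  cases n with
  | zero => simp
  | succ m =>
    rw [Nat.add_sub_cancel, pow_succ]
    field_simp

theorem wG_base_diff (c z : ℝ) : DifferentiableAt ℝ (fun w => c + Xf w) z :=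
  (differentiableAt_const c).add (hasDerivAt_Xf z).differentiableAt

theorem wG_tt_base (c z : ℝ) : tt (fun w => c + Xf w) z = 2 * z * Xf z := by
  rw [tt_add (differentiableAt_const c) (hasDerivAt_Xf z).differentiableAt, tt_const, tt_Xf]
  ring

theorem wG_tt_basepow (c z : ℝ) (h : c + Xf z ≠ 0) (n : ℕ) :
    tt (fun w => (c + Xf w) ^ n) z = 2 * z * (n * (Xf z / (c + Xf z))) * (c + Xf z) ^ n := by
  rw [tt_pow (wG_base_diff c z), wG_tt_base, wG_pow_log _ h]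
  field_simp

/-- the explicit model of the weight on the north side, at every point where the three bases do not vanish. -/
theorem wG_tt_model (a e M : ℕ) (c1 c2 c3 z : ℝ) (h1 : c1 + Xf z ≠ 0) (h2 : c2 + Xf z ≠ 0)
    (h3 : c3 + Xf z ≠ 0) :
    tt (fun w => (c1 + Xf w) ^ a * (c2 + Xf w) ^ e / (c3 + Xf w) ^ M) z
      = 2 * z * (a * (Xf z / (c1 + Xf z)) + e * (Xf z / (c2 + Xf z)) - M * (Xf z / (c3 + Xf z)))
        * ((c1 + Xf z) ^ a * (c2 + Xf z) ^ e / (c3 + Xf z) ^ M) := by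
  have d1 : DifferentiableAt ℝ (fun w => (c1 + Xf w) ^ a) z := (wG_base_diff c1 z).pow a
  have d2 : DifferentiableAt ℝ (fun w => (c2 + Xf w) ^ e) z := (wG_base_diff c2 z).pow e
  have d3 : DifferentiableAt ℝ (fun w => (c3 + Xf w) ^ M) z := (wG_base_diff c3 z).pow M
  have hp3 : (c3 + Xf z) ^ M ≠ 0 := pow_ne_zero _ h3
  have d12 : DifferentiableAt ℝ (fun w => (c1 + Xf w) ^ a * (c2 + Xf w) ^ e) z := d1.mul d2
  rw [tt_div d12 d3 hp3, tt_mul d1 d2, wG_tt_basepow c1 z h1, wG_tt_basepow c2 z h2,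
    wG_tt_basepow c3 z h3]
  field_simp

/-- near `y > 1/2` the weight is the model. -/
theorem wG_ev_model (a e M : ℕ) (q Γ t y : ℝ) (hy : 1 / 2 < y) :
    Filter.EventuallyEq (nhds y) (wG a e M q Γ t)
      (fun w => (ell2 q t + Xf w) ^ a * ((1 + Γ) * (-t) + Xf w) ^ e / (-t + Xf w) ^ M) := by
  filter_upwards [Ioi_mem_nhds hy] with z hz
  unfold wG rh2 Th
  rw [Xt_eq (le_of_lt hz)]

theorem wG_eq_model (a e M : ℕ) (q Γ t y : ℝ) (hy : 1 / 2 < y) :
    wG a e M q Γ t y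
      = (ell2 q t + Xf y) ^ a * ((1 + Γ) * (-t) + Xf y) ^ e / (-t + Xf y) ^ M :=
  (wG_ev_model a e M q Γ t y hy).self_of_nhds

theorem nG1_eq_model (a e M : ℕ) (q Γ t y : ℝ) (hy : 1 / 2 < y) :
    nG1 a e M q Γ t y
      = 2 * y * (a * (Xf y / (ell2 q t + Xf y)) + e * (Xf y / ((1 + Γ) * (-t) + Xf y))
          - M * (Xf y / (-t + Xf y))) := by
  unfold nG1 rh2 Th
  rw [Xt_eq (le_of_lt hy)]

/-- the formula of `wG_tt_north` at every `y > 1/2` where the three bases do not vanish. -/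
theorem wG_tt_north_gen (a e M : ℕ) (q Γ t y : ℝ) (hy : 1 / 2 < y) (h1 : ell2 q t + Xf y ≠ 0)
    (h2 : (1 + Γ) * (-t) + Xf y ≠ 0) (h3 : -t + Xf y ≠ 0) :
    tt (wG a e M q Γ t) y = nG1 a e M q Γ t y * wG a e M q Γ t y := by
  rw [tt_congr (wG_ev_model a e M q Γ t y hy), wG_tt_model a e M _ _ _ y h1 h2 h3,
    nG1_eq_model a e M q Γ t y hy, wG_eq_model a e M q Γ t y hy]

/-- positivity of the three bases on `(1/2,1]`. -/
theorem wG_bases_pos (q Γ t y : ℝ) (hq : 10 ^ 6 ≤ q) (hΓ : 0 ≤ Γ) (ht : t < 0)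
    (hy : y ∈ Ioc (1 / 2 : ℝ) 1) :
    0 < ell2 q t + Xf y ∧ 0 < (1 + Γ) * (-t) + Xf y ∧ 0 < -t + Xf y := by
  have hX : 0 ≤ Xf y := by
    unfold Xf
    nlinarith [hy.1, hy.2]
  have h1 : 0 < ell2 q t := coer_ell2_pos q t hq ht
  have h2 : 0 < (1 + Γ) * (-t) := mul_pos (by linarith) (by linarith)
  exact ⟨by linarith, by linarith, by linarith⟩

/-- (compare `w0_tt_wL_N` in Core/W/TBf.lean and its hints.)   north side: near `y > 1/2` the weight is `(ℓ²+X)^a ((1+Γ)Λ+X)^e/(Λ+X)^M`, `tt X = 2 y X`. -/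
theorem wG_tt_north (a e M : ℕ) (q Γ t y : ℝ) (hq : 10 ^ 6 ≤ q) (hΓ : 0 ≤ Γ) (ht : t < 0)
    (hy : y ∈ Ioc (1 / 2 : ℝ) 1) :
    tt (wG a e M q Γ t) y = nG1 a e M q Γ t y * wG a e M q Γ t y := by
  obtain ⟨h1, h2, h3⟩ := wG_bases_pos q Γ t y hq hΓ ht hy
  exact wG_tt_north_gen a e M q Γ t y hy.1 h1.ne' h2.ne' h3.ne'

end Claimed.Agent.R324.Core
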