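/-
Row 324 (S0582), AP/A5 (pointwise coercivity), sub-architect helper232.   Blueprint origin/helper232:docs/R324_blueprint.md, section 7.2b.
Weights wG a e M = R^a L^e / T^M  (R = rh2 = ell2 + Xt, L = (1+Gam) Lam + Xt, T = Th = Lam + Xt);  wL a M = wG a 1 (M+1), wH a M = wG a 0 M, rh2^2 = wG 2 0 0.
NOTE: as functions of y in R the weights are smooth only near [-1,1] (T may vanish for |y|>1): use ContDiffAt.
Xt = X for y >= 1/2, Xt = 15/16 for y <= 0, Xt in [3/4,1] for y <= 1/2.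
-/
import Claimed.Agent.R324.Core.AP.Coer.Defs
import Claimed.Agent.R324.Bohm.Alpha
import Claimed.Agent.R324.Core.AP.Coer.WtN1

set_option autoImplicit false

namespace Claimed.Agent.R324.Core

open Set
open scoped ContDiff


theorem wG_s_diff (c z : ℝ) (h : c + Xf z ≠ 0) :
    DifferentiableAt ℝ (fun w => Xf w / (c + Xf w)) z :=
  (hasDerivAt_Xf z).differentiableAt.div (wG_base_diff c z) h

theorem wG_tt_s (c z : ℝ) (h : c + Xf z ≠ 0) :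
    tt (fun w => Xf w / (c + Xf w)) z
      = 2 * z * (Xf z / (c + Xf z)) * (1 - Xf z / (c + Xf z)) := by
  rw [tt_div (hasDerivAt_Xf z).differentiableAt (wG_base_diff c z) h, tt_Xf, wG_tt_base]
  field_simp

theorem wG_n_diff (a e M : ℕ) (c1 c2 c3 z : ℝ) (h1 : c1 + Xf z ≠ 0) (h2 : c2 + Xf z ≠ 0)
    (h3 : c3 + Xf z ≠ 0) :
    DifferentiableAt ℝ (fun w => (a : ℝ) * (Xf w / (c1 + Xf w)) + e * (Xf w / (c2 + Xf w))
      - M * (Xf w / (c3 + Xf w))) z :=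
  (((wG_s_diff c1 z h1).const_mul (a : ℝ)).add ((wG_s_diff c2 z h2).const_mul (e : ℝ))).sub
    ((wG_s_diff c3 z h3).const_mul (M : ℝ))

theorem wG_tt_n (a e M : ℕ) (c1 c2 c3 z : ℝ) (h1 : c1 + Xf z ≠ 0) (h2 : c2 + Xf z ≠ 0)
    (h3 : c3 + Xf z ≠ 0) :
    tt (fun w => 2 * w * ((a : ℝ) * (Xf w / (c1 + Xf w)) + e * (Xf w / (c2 + Xf w))
      - M * (Xf w / (c3 + Xf w)))) z
      = (4 * z ^ 2 - 2 * Xf z)
          * (a * (Xf z / (c1 + Xf z)) + e * (Xf z / (c2 + Xf z)) - M * (Xf z / (c3 + Xf z)))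
        + 4 * z ^ 2 * (-(a * (Xf z / (c1 + Xf z)) ^ 2) - e * (Xf z / (c2 + Xf z)) ^ 2
          + M * (Xf z / (c3 + Xf z)) ^ 2) := by
  have s1 := wG_s_diff c1 z h1
  have s2 := wG_s_diff c2 z h2
  have s3 := wG_s_diff c3 z h3
  have dl : DifferentiableAt ℝ (fun w : ℝ => 2 * w) z := differentiableAt_id.const_mul (2 : ℝ)
  have d12 : DifferentiableAt ℝ (fun w => (a : ℝ) * (Xf w / (c1 + Xf w)) + e * (Xf w / (c2 + Xf w))) z :=
    (s1.const_mul (a : ℝ)).add (s2.const_mul (e : ℝ))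
  rw [tt_mul dl (wG_n_diff a e M c1 c2 c3 z h1 h2 h3), tt_const_mul 2 (differentiableAt_fun_id (x := z)), tt_id,
    tt_sub d12 (s3.const_mul (M : ℝ)), tt_add (s1.const_mul (a : ℝ)) (s2.const_mul (e : ℝ)),
    tt_const_mul _ s1, tt_const_mul _ s2, tt_const_mul _ s3, wG_tt_s c1 z h1, wG_tt_s c2 z h2,
    wG_tt_s c3 z h3]
  ring

theorem wG_model_diff (a e M : ℕ) (c1 c2 c3 z : ℝ) (h3 : c3 + Xf z ≠ 0) :
    DifferentiableAt ℝ (fun w => (c1 + Xf w) ^ a * (c2 + Xf w) ^ e / (c3 + Xf w) ^ M) z :=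
  (((wG_base_diff c1 z).pow a).mul ((wG_base_diff c2 z).pow e)).div ((wG_base_diff c3 z).pow M)
    (pow_ne_zero _ h3)

theorem wG_base_ev (c y : ℝ) (h : c + Xf y ≠ 0) : ∀ᶠ z in nhds y, c + Xf z ≠ 0 :=
  (wG_base_diff c y).continuousAt.eventually_ne h

theorem nG2_eq_model (a e M : ℕ) (q Γ t y : ℝ) (hy : 1 / 2 < y) :
    nG2 a e M q Γ t y
      = (4 * y ^ 2 - 2 * Xf y)
          * (a * (Xf y / (ell2 q t + Xf y)) + e * (Xf y / ((1 + Γ) * (-t) + Xf y))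
            - M * (Xf y / (-t + Xf y)))
        + 4 * y ^ 2 * (-(a * (Xf y / (ell2 q t + Xf y)) ^ 2)
          - e * (Xf y / ((1 + Γ) * (-t) + Xf y)) ^ 2 + M * (Xf y / (-t + Xf y)) ^ 2) := by
  unfold nG2 rh2 Th
  rw [Xt_eq (le_of_lt hy)]

/-- `tt (n V) = (tt n + n²) V`;  `tt (X/(c+X)) = 2 y (X/(c+X)) (1 - X/(c+X))`, `tt y = -X`. -/
theorem wG_tt2_north (a e M : ℕ) (q Γ t y : ℝ) (hq : 10 ^ 6 ≤ q) (hΓ : 0 ≤ Γ) (ht : t < 0)
    (hy : y ∈ Ioc (1 / 2 : ℝ) 1) :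
    tt (tt (wG a e M q Γ t)) y = (nG2 a e M q Γ t y + nG1 a e M q Γ t y ^ 2) * wG a e M q Γ t y := by
  obtain ⟨h1, h2, h3⟩ := wG_bases_pos q Γ t y hq hΓ ht hy
  have hev : Filter.EventuallyEq (nhds y) (tt (wG a e M q Γ t))
      (fun w => (2 * w * ((a : ℝ) * (Xf w / (ell2 q t + Xf w)) + e * (Xf w / ((1 + Γ) * (-t) + Xf w))
          - M * (Xf w / (-t + Xf w))))
        * ((ell2 q t + Xf w) ^ a * ((1 + Γ) * (-t) + Xf w) ^ e / (-t + Xf w) ^ M)) := by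
    filter_upwards [Ioi_mem_nhds hy.1, wG_base_ev _ y h1.ne', wG_base_ev _ y h2.ne',
      wG_base_ev _ y h3.ne'] with z hz g1 g2 g3
    rw [wG_tt_north_gen a e M q Γ t z hz g1 g2 g3, nG1_eq_model a e M q Γ t z hz,
      wG_eq_model a e M q Γ t z hz]
  have dn : DifferentiableAt ℝ (fun w => 2 * w * ((a : ℝ) * (Xf w / (ell2 q t + Xf w))
      + e * (Xf w / ((1 + Γ) * (-t) + Xf w)) - M * (Xf w / (-t + Xf w)))) y :=
    (differentiableAt_id.const_mul (2 : ℝ)).mul (wG_n_diff a e M _ _ _ y h1.ne' h2.ne' h3.ne')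
  rw [tt_congr hev, tt_mul dn (wG_model_diff a e M _ _ _ y h3.ne'),
    wG_tt_n a e M _ _ _ y h1.ne' h2.ne' h3.ne', wG_tt_model a e M _ _ _ y h1.ne' h2.ne' h3.ne',
    nG2_eq_model a e M q Γ t y hy.1, nG1_eq_model a e M q Γ t y hy.1, wG_eq_model a e M q Γ t y hy.1]
  ring

end Claimed.Agent.R324.Core
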