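/-
Row 324 (S0582), AP/A5 (pointwise coercivity), sub-architect helper232.   Blueprint origin/helper232:docs/R324_blueprint.md, section 7.2b.
Weights wG a e M = R^a L^e / T^M  (R = rh2 = ell2 + Xt, L = (1+Gam) Lam + Xt, T = Th = Lam + Xt);  wL a M = wG a 1 (M+1), wH a M = wG a 0 M, rh2^2 = wG 2 0 0.
NOTE: as functions of y in R the weights are smooth only near [-1,1] (T may vanish for |y|>1): use ContDiffAt.
Xt = X for y >= 1/2, Xt = 15/16 for y <= 0, Xt in [3/4,1] for y <= 1/2.
-/
import Claimed.Agent.R324.Core.AP.Coer.Defs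
import Claimed.Agent.R324.Bohm.Alpha
import Claimed.Agent.R324.Core.AP.Coer.WtA

set_option autoImplicit false

namespace Claimed.Agent.R324.Core

open Set
open scoped ContDiff


/-- south side: the weight is constant near `y < 0`. -/
theorem wG_tt_south (a e M : ℕ) (q Γ t y : ℝ) (hy : y < 0) :
    tt (wG a e M q Γ t) y = 0 ∧ tt (tt (wG a e M q Γ t)) y = 0 := by
  have hev : Filter.EventuallyEq (nhds y) (wG a e M q Γ t) (fun _ => wG a e M q Γ t y) := by
    filter_upwards [Iio_mem_nhds hy] with z hz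
    unfold wG rh2 Th
    rw [w0_Xt_S (le_of_lt hz), w0_Xt_S hy.le]
  refine ⟨by rw [tt_congr hev, tt_const], ?_⟩
  rw [tt_congr (tt_ev_congr hev)]
  have h0 : tt (fun _ : ℝ => wG a e M q Γ t y) = fun _ => 0 := funext fun z => tt_const _ z
  rw [h0, tt_const]

end Claimed.Agent.R324.Core
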