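/-
Row 324 (S0582), AP/A5 (pointwise coercivity), sub-architect helper232.   Blueprint origin/helper232:docs/R324_blueprint.md, section 7.2b.
Weights wG a e M = R^a L^e / T^M  (R = rh2 = ell2 + Xt, L = (1+Gam) Lam + Xt, T = Th = Lam + Xt);  wL a M = wG a 1 (M+1), wH a M = wG a 0 M, rh2^2 = wG 2 0 0.
NOTE: as functions of y in R the weights are smooth only near [-1,1] (T may vanish for |y|>1): use ContDiffAt.
Xt = X for y >= 1/2, Xt = 15/16 for y <= 0, Xt in [3/4,1] for y <= 1/2.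
-/
import Claimed.Agent.R324.Core.AP.Coer.Defs
import Claimed.Agent.R324.Bohm.Alpha
import Claimed.Agent.R324.Core.AP.Coer.WtA

set_option autoImplicit false

namespace Claimed.Agent.R324.Core

open Set
open scoped ContDiff


theorem nG_tip_aux (a e M y X sR sL sT δ : ℝ) (ha0 : 0 ≤ a) (ha : a ≤ 4) (he0 : 0 ≤ e) (he : e ≤ 1)
    (hM : 0 ≤ M) (hy1 : 1 / 2 < y) (hy2 : y ≤ 1) (hX : X = 1 - y ^ 2) (hδ0 : 0 < δ)
    (hδ : (M + 1) * δ ≤ 1 / 200) (hR0 : 0 ≤ sR) (hR1 : sR ≤ 1) (hL0 : 0 ≤ sL) (hL1 : sL ≤ δ)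
    (hT0 : 0 ≤ sT) (hT1 : sT ≤ δ) :
    2 * y * (a * sR) - 1 / 100 ≤ 2 * y * (a * sR + e * sL - M * sT) ∧
    2 * y * (a * sR + e * sL - M * sT) ≤ 9 ∧
    |(4 * y ^ 2 - 2 * X) * (a * sR + e * sL - M * sT)
      + 4 * y ^ 2 * (-(a * sR ^ 2) - e * sL ^ 2 + M * sT ^ 2)| ≤ 40 := by
  have hysq1 : y ^ 2 ≤ 1 := by nlinarith
  have hysq0 : 1 / 4 ≤ y ^ 2 := by nlinarith
  have hMδ0 : 0 ≤ M * δ := mul_nonneg hM hδ0.le
  have hMδ : M * δ ≤ 1 / 200 := by nlinarith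
  have hδ' : δ ≤ 1 / 200 := by nlinarith
  obtain ⟨A, hA⟩ : ∃ A, A = a * sR := ⟨_, rfl⟩
  obtain ⟨E, hE⟩ : ∃ E, E = e * sL := ⟨_, rfl⟩
  obtain ⟨T, hT⟩ : ∃ T, T = M * sT := ⟨_, rfl⟩
  obtain ⟨A2, hA2⟩ : ∃ A2, A2 = a * sR ^ 2 := ⟨_, rfl⟩
  obtain ⟨E2, hE2⟩ : ∃ E2, E2 = e * sL ^ 2 := ⟨_, rfl⟩
  obtain ⟨T2, hT2⟩ : ∃ T2, T2 = M * sT ^ 2 := ⟨_, rfl⟩
  have a0 : 0 ≤ A := hA ▸ mul_nonneg ha0 hR0
  have a1 : A ≤ 4 := by rw [hA]; nlinarith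
  have e0 : 0 ≤ E := hE ▸ mul_nonneg he0 hL0
  have e1 : E ≤ 1 / 200 := by rw [hE]; nlinarith
  have t0 : 0 ≤ T := hT ▸ mul_nonneg hM hT0
  have t1 : T ≤ 1 / 200 := by
    rw [hT]
    exact (mul_le_mul_of_nonneg_left hT1 hM).trans hMδ
  have hsR2 : sR ^ 2 ≤ 1 := by nlinarith
  have hsL2 : sL ^ 2 ≤ sL := by nlinarith
  have hsT2 : sT ^ 2 ≤ sT := by nlinarith
  have a20 : 0 ≤ A2 := hA2 ▸ mul_nonneg ha0 (sq_nonneg _)
  have a21 : A2 ≤ 4 := by rw [hA2]; nlinarith [sq_nonneg sR]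
  have e20 : 0 ≤ E2 := hE2 ▸ mul_nonneg he0 (sq_nonneg _)
  have e21 : E2 ≤ 1 / 200 := by
    rw [hE2]
    exact ((mul_le_mul_of_nonneg_left hsL2 he0).trans (hE ▸ le_rfl)).trans e1
  have t20 : 0 ≤ T2 := hT2 ▸ mul_nonneg hM (sq_nonneg _)
  have t21 : T2 ≤ 1 / 200 := by
    rw [hT2]
    exact ((mul_le_mul_of_nonneg_left hsT2 hM).trans (hT ▸ le_rfl)).trans t1
  rw [← hA, ← hE, ← hT, ← hA2, ← hE2, ← hT2]
  have hy0 : 0 < y := by linarith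
  have yA : y * A ≤ A := mul_le_of_le_one_left a0 hy2
  have yE : y * E ≤ E := mul_le_of_le_one_left e0 hy2
  have yT : y * T ≤ T := mul_le_of_le_one_left t0 hy2
  have yE0 : 0 ≤ y * E := mul_nonneg hy0.le e0
  have yT0 : 0 ≤ y * T := mul_nonneg hy0.le t0
  have hexp : 2 * y * (A + E - T) = 2 * y * A + 2 * (y * E) - 2 * (y * T) := by ring
  have hexp2 : 2 * y * A = 2 * (y * A) := by ring
  refine ⟨by rw [hexp]; linarith, by rw [hexp, hexp2]; linarith, ?_⟩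
  have c1 : |4 * y ^ 2 - 2 * X| ≤ 4 := by
    rw [hX, abs_le]
    constructor <;> linarith
  have c2 : |4 * y ^ 2| ≤ 4 := by
    rw [abs_le]
    constructor <;> linarith
  have u1 : |A + E - T| ≤ 5 := by
    rw [abs_le]
    constructor <;> linarith
  have v1 : |-A2 - E2 + T2| ≤ 5 := by
    rw [abs_le]
    constructor <;> linarith
  calc |(4 * y ^ 2 - 2 * X) * (A + E - T) + 4 * y ^ 2 * (-A2 - E2 + T2)|
      ≤ |(4 * y ^ 2 - 2 * X) * (A + E - T)| + |4 * y ^ 2 * (-A2 - E2 + T2)| := abs_add_le _ _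
    _ = |4 * y ^ 2 - 2 * X| * |A + E - T| + |4 * y ^ 2| * |-A2 - E2 + T2| := by
        rw [abs_mul, abs_mul]
    _ ≤ 4 * 5 + 4 * 5 :=
        add_le_add (mul_le_mul c1 u1 (abs_nonneg _) (by norm_num))
          (mul_le_mul c2 v1 (abs_nonneg _) (by norm_num))
    _ = 40 := by norm_num

/-- tip zone: the logarithmic derivatives.   `X/L, X/T ≤ X/Λ ≤ δ`. -/
theorem nG_tip (a e M : ℕ) (ha4 : a ≤ 4) (he : e ≤ 1) (q Γ t y δ : ℝ) (hq : 10 ^ 6 ≤ q) (hΓ : 0 ≤ Γ) (ht : t < 0)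
    (hy : y ∈ Ioc (1 / 2 : ℝ) 1) (hδ0 : 0 < δ) (hδ : (M + 1) * δ ≤ 1 / 200) (hX : Xf y ≤ δ * (-t)) :
    2 * y * (a * (Xf y / rh2 q t y)) - 1 / 100 ≤ nG1 a e M q Γ t y ∧ nG1 a e M q Γ t y ≤ 9 ∧
    |nG2 a e M q Γ t y| ≤ 40 := by
  have hXt : Xt y = Xf y := coer_Xt_facts.1 y hy.1.le
  have hell := coer_ell2_pos q t hq ht
  have hΛ : 0 < -t := by linarith
  have hX0 : 0 ≤ Xf y := by
    unfold Xf
    nlinarith [hy.1, hy.2]
  have hR : rh2 q t y = ell2 q t + Xf y := by rw [rh2, hXt]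
  have hT : Th t y = -t + Xf y := by rw [Th, hXt]
  have hRp : 0 < ell2 q t + Xf y := by linarith
  have hTp : 0 < -t + Xf y := by linarith
  have hLp : 0 < (1 + Γ) * (-t) + Xf y := by nlinarith
  unfold nG1 nG2
  rw [hR, hT]
  refine nG_tip_aux a e M y (Xf y) _ _ _ δ (Nat.cast_nonneg a) (by exact_mod_cast ha4)
    (Nat.cast_nonneg e) (by exact_mod_cast he) (Nat.cast_nonneg M) hy.1 hy.2 rfl hδ0 hδ
    (div_nonneg hX0 hRp.le) ?_ (div_nonneg hX0 hLp.le) ?_ (div_nonneg hX0 hTp.le) ?_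
  · rw [div_le_one hRp]
    linarith
  · rw [div_le_iff₀ hLp]
    nlinarith
  · rw [div_le_iff₀ hTp]
    nlinarith

end Claimed.Agent.R324.Core
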