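/-
Row 324 (S0582), AP/A5 (pointwise coercivity), sub-architect helper232.   Blueprint origin/helper232:docs/R324_blueprint.md, section 7.2b.
Zone lemma.
-/
import Claimed.Agent.R324.Core.AP.Coer.Alg
import Claimed.Agent.R324.Core.AP.Coer.Form
import Claimed.Agent.R324.Core.AP.Coer.Wt

set_option autoImplicit false

namespace Claimed.Agent.R324.Core

open Set
open scoped ContDiff


theorem coer_zgen_mul_le {a b α β : ℝ} (ha : |a| ≤ α) (hb : |b| ≤ β) : |a * b| ≤ α * β := by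
  rw [abs_mul]
  exact mul_le_mul ha hb (abs_nonneg _) ((abs_nonneg _).trans ha)

/-- **GENERAL BOUND**  (`coer_zz_expand`, `wG_gen_bd`, `CoefBd`, `coer_alg_quad_gen`). -/
theorem coer_gen (q : ℝ) (hq : 10 ^ 6 ≤ q) (g : Bg) (hg : BgSm g) (hbd : CoefBd q g) (a e M : ℕ) :
    ∃ C₂ Λ₀ : ℝ, 0 ≤ C₂ ∧ 0 < Λ₀ ∧ ∀ Γ : ℝ, 0 ≤ Γ → ∀ t ∈ Ico (-Λ₀) 0, ∀ y ∈ Icc (-1 : ℝ) 1, ∀ ξ : Fin 3 → ℝ,
      2 * zzF q g (wG a e M q Γ t) t y * nk q ξ + 2 * wG a e M q Γ t y * quadM q g (t, y) ξ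
        ≤ C₂ * wG a e M q Γ t y * nk q ξ := by
  obtain ⟨C, Λ₀, hΛ, hb⟩ := hbd
  obtain ⟨K, hK⟩ := wG_gen_bd a e M
  have hq0 : (0 : ℝ) ≤ q := by linarith [show (0 : ℝ) ≤ 10 ^ 6 by norm_num]
  refine ⟨|C| * (6 * |K| + 6) + 2 * |C| * (q + 6), Λ₀, by positivity, hΛ, ?_⟩
  intro Γ hΓ t ht y hy ξ
  have ht0 : t < 0 := ht.2
  obtain ⟨hZ, hZ1, hZ2, hb0, hb1, hm, -⟩ := hb t ht y hy
  have hCC : C ≤ |C| := le_abs_self C
  obtain ⟨hv1, hv2⟩ := hK q Γ t y hq hΓ ht0 hy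
  have hV : 0 < wG a e M q Γ t y := wG_pos a e M q Γ t y hq hΓ ht0 hy
  have hN : 0 ≤ nk q ξ := coer_nk_nonneg q hq0 ξ
  rw [coer_zz_expand q hg ht0 (wG a e M q Γ t) y (wG_contDiffAt a e M q Γ t y hq hΓ ht0 hy)]
  set V : ℝ := wG a e M q Γ t y with hVdef
  set v1 : ℝ := tt (wG a e M q Γ t) y with hv1def
  set v2 : ℝ := tt (tt (wG a e M q Γ t)) y with hv2def
  have hKV : K * V ≤ |K| * V := mul_le_mul_of_nonneg_right (le_abs_self K) hV.le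
  have hv1' : |v1| ≤ |K| * V := hv1.trans hKV
  have hv2' : |v2| ≤ |K| * V := hv2.trans hKV
  have hy1 : |y| ≤ 1 := abs_le.2 ⟨hy.1, hy.2⟩
  have hVabs : |V| ≤ V := le_of_eq (abs_of_pos hV)
  have hyy : |y ^ 2 - Xf y| ≤ 1 := by
    unfold Xf
    rw [abs_le]
    have h1 : y ^ 2 ≤ 1 := by
      have := sq_le_one_iff_abs_le_one y
      exact this.2 hy1
    constructor <;> nlinarith [sq_nonneg y]
  have hA2 : |v1 + y * V| ≤ (|K| + 1) * V := by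
    calc |v1 + y * V| ≤ |v1| + |y * V| := abs_add_le _ _
      _ ≤ |K| * V + 1 * V := add_le_add hv1' (coer_zgen_mul_le hy1 hVabs)
      _ = (|K| + 1) * V := by ring
  have hA1 : |v2 + 2 * y * v1 + (y ^ 2 - Xf y) * V| ≤ (3 * |K| + 1) * V := by
    have h2y : |2 * y| ≤ 2 := by
      rw [abs_mul, abs_two]
      linarith
    calc |v2 + 2 * y * v1 + (y ^ 2 - Xf y) * V|
        ≤ |v2 + 2 * y * v1| + |(y ^ 2 - Xf y) * V| := abs_add_le _ _
      _ ≤ (|v2| + |2 * y * v1|) + |(y ^ 2 - Xf y) * V| := add_le_add (abs_add_le _ _) le_rfl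
      _ ≤ (|K| * V + 2 * (|K| * V)) + 1 * V :=
          add_le_add (add_le_add hv2' (coer_zgen_mul_le h2y hv1')) (coer_zgen_mul_le hyy hVabs)
      _ = (3 * |K| + 1) * V := by ring
  have t1 := (le_abs_self _).trans (coer_zgen_mul_le (hZ.trans hCC) hA1)
  have t2 := (le_abs_self _).trans (coer_zgen_mul_le hA2 (hZ1.trans hCC))
  have t3 := (le_abs_self _).trans (coer_zgen_mul_le hVabs (hZ2.trans hCC))
  have t4 := (neg_abs_le _).trans' (neg_le_neg (coer_zgen_mul_le hA2 (hb0.trans hCC)))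
  have t5 := (neg_abs_le _).trans' (neg_le_neg (coer_zgen_mul_le hVabs (hb1.trans hCC)))
  have hzz : zzE q g t y V v1 v2 ≤ |C| * (6 * |K| + 6) * V := by
    unfold zzE
    nlinarith [t1, t2, t3, t4, t5]
  have hquad : quadM q g (t, y) ξ ≤ |C| * (q + 6) * nk q ξ :=
    coer_alg_quad_gen q |C| hq (fun i k => mF q g i k (t, y)) (fun i k => (hm i k).trans hCC) ξ
  have e1 : zzE q g t y V v1 v2 * nk q ξ ≤ |C| * (6 * |K| + 6) * V * nk q ξ :=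
    mul_le_mul_of_nonneg_right hzz hN
  have e2 : 2 * V * quadM q g (t, y) ξ ≤ 2 * V * (|C| * (q + 6) * nk q ξ) :=
    mul_le_mul_of_nonneg_left hquad (by positivity)
  calc zzE q g t y V v1 v2 * nk q ξ + 2 * V * quadM q g (t, y) ξ
      ≤ |C| * (6 * |K| + 6) * V * nk q ξ + 2 * V * (|C| * (q + 6) * nk q ξ) := add_le_add e1 e2
    _ = (|C| * (6 * |K| + 6) + 2 * |C| * (q + 6)) * V * nk q ξ := by ring

end Claimed.Agent.R324.Core
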