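/-
Row 324 (S0582), AP/A5 (pointwise coercivity), sub-architect helper232.   Blueprint origin/helper232:docs/R324_blueprint.md, section 7.2b.
Zone lemma.
-/
import Claimed.Agent.R324.Core.AP.Coer.Alg
import Claimed.Agent.R324.Core.AP.Coer.Form
import Claimed.Agent.R324.Core.AP.Coer.Wt

set_option autoImplicit false

namespace Claimed.Agent.R324.Core

open Set
open scoped ContDiff


/-- the potential near the tip  (`coer_ttZ`, `coer_tt2Z`, `coer_bh`, `coer_ttbh`, `coer_alg_coef`, `coer_alg_pot`). -/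
theorem coer_pot_tip (q : ℝ) (hq : 10 ^ 6 ≤ q) (g : Bg) (hg : BgSm g) (t y : ℝ) (ht : t < 0)
    (hy : y ∈ Icc (1 / 2 : ℝ) 1) (hX : Xf y ≤ 1 / q ^ 2)
    (hZ : |g.Z (t, y) - 1| ≤ 3 / q) (hb1 : |Xf y * g.dd (t, y)| ≤ 14 / q)
    (htb : |tt (fun z => Xf z * g.dd (t, z)) y| ≤ 60)
    (ho1 : -(201 / 100) ≤ Xf y * g.wp (t, y)) (ho1' : Xf y * g.wp (t, y) ≤ 1 / 100)
    (ho2 : |Xf y ^ 2 * g.wpp (t, y)| ≤ 13) (hp0 : |Xf y * g.W (t, y)| ≤ 1 / 100)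
    (hp1 : |Xf y ^ 2 * dY g.W (t, y)| ≤ 1 / 100)
    (v0 n1 n2 : ℝ) (hv0 : 0 ≤ v0) (hn1 : -(1 / 100) ≤ n1) (hn1' : n1 ≤ 9) (hn2 : |n2| ≤ 40) :
    zzE q g t y v0 (n1 * v0) ((n2 + n1 ^ 2) * v0) ≤ v0 * (274 - (n1 + y) * (q - 5)) := by
  have hy0 : 0 ≤ y := by linarith [hy.1]
  have hX0 : 0 ≤ Xf y := by
    unfold Xf
    nlinarith [hy.1, hy.2]
  have hyX : y ^ 2 = 1 - Xf y := by unfold Xf; ring
  obtain ⟨c1, c2, c3, c4⟩ := coer_alg_coef q (g.Z (t, y)) (Xf y * g.dd (t, y))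
    (tt (fun z => Xf z * g.dd (t, z)) y) (Xf y * g.wp (t, y)) (Xf y ^ 2 * g.wpp (t, y))
    (Xf y * g.W (t, y)) (Xf y ^ 2 * dY g.W (t, y)) (Xf y) y
    hq hZ hb1 htb ho1 ho1' ho2 hp0 hp1 hX0 hX hyX hy0
  rw [← coer_ttZ hg ht y] at c1
  rw [← coer_tt2Z hg ht y] at c2
  rw [← coer_bh q g t y] at c3
  rw [← coer_ttbh q hg ht y] at c4
  have key := coer_alg_pot q (g.Z (t, y)) (tt (sl g.Z t) y) (tt (tt (sl g.Z t)) y) (g.bh q (t, y))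
    (tt (sl (g.bh q) t) y) n1 n2 (Xf y) y hq hZ c1 c2 c3 c4 hn1 hn1' hn2 hX0 hy.1 hy.2
  have e : zzE q g t y v0 (n1 * v0) ((n2 + n1 ^ 2) * v0)
      = v0 * (g.Z (t, y) * ((n2 + n1 ^ 2) + 2 * y * n1 + (y ^ 2 - Xf y))
        + 2 * (n1 + y) * tt (sl g.Z t) y + tt (tt (sl g.Z t)) y - (n1 + y) * g.bh q (t, y)
        - tt (sl (g.bh q) t) y) := by
    unfold zzE; ring
  rw [e]
  exact mul_le_mul_of_nonneg_left key hv0

end Claimed.Agent.R324.Core
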