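/-
Row 324 (S0582), AP/A5 (pointwise coercivity), sub-architect helper232.   Blueprint origin/helper232:docs/R324_blueprint.md, section 7.2b.
Zone lemma.
-/
import Claimed.Agent.R324.Core.AP.Coer.Alg
import Claimed.Agent.R324.Core.AP.Coer.Form
import Claimed.Agent.R324.Core.AP.Coer.Wt

set_option autoImplicit false

namespace Claimed.Agent.R324.Core

open Set
open scoped ContDiff


/-- quadratic form near the tip  (`coer_mF_formula`, `coer_alg_entries`, `coer_alg_quad`). -/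
theorem coer_quad_tip (q : ℝ) (hq : 10 ^ 6 ≤ q) (g : Bg) (hg : BgSm g) (t y : ℝ) (ht : t < 0)
    (hy : y ∈ Icc (1 / 2 : ℝ) 1) (hX : Xf y ≤ 1 / q ^ 2)
    (hZ : |g.Z (t, y) - 1| ≤ 3 / q) (hb1 : |Xf y * g.dd (t, y)| ≤ 14 / q)
    (ho1 : -(201 / 100) ≤ Xf y * g.wp (t, y)) (ho1' : Xf y * g.wp (t, y) ≤ 1 / 100)
    (ho2 : |Xf y ^ 2 * g.wpp (t, y)| ≤ 13) (ξ : Fin 3 → ℝ) :
    quadM q g (t, y) ξ ≤ (2 * (Xf y * Real.exp (-g.w (t, y))) + q / 100 + 14) * nk q ξ := by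
  have hq0 : (0 : ℝ) < q := by linarith [show (0 : ℝ) < 10 ^ 6 by norm_num]
  have hy0 : 0 ≤ y := by linarith [hy.1]
  have hX0 : 0 ≤ Xf y := by
    unfold Xf
    nlinarith [hy.1, hy.2]
  have hyX : y ^ 2 = 1 - Xf y := by unfold Xf; ring
  have hP : 0 ≤ Xf y * Real.exp (-g.w (t, y)) := mul_nonneg hX0 (Real.exp_pos _).le
  obtain ⟨f00, f01, f02, f10, f11, f12, f20, f21, f22⟩ := coer_mF_formula q hq0 hg ht y
  obtain ⟨e00, e11, e22, e01, e02, e12⟩ := coer_alg_entries q (g.Z (t, y)) (Xf y * g.dd (t, y))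
    (Xf y * g.wp (t, y)) (Xf y ^ 2 * g.wpp (t, y)) (Xf y * Real.exp (-g.w (t, y))) (Xf y) y
    hq hZ hb1 ho1 ho1' ho2 hX0 hX hyX hy0
  have key := coer_alg_quad q (Xf y * Real.exp (-g.w (t, y))) hq hP (fun i k => mF q g i k (t, y))
    (by simp only [f00]; exact e00) (by simp only [f11]; exact e11) (by simp only [f22]; exact e22)
    (by simp only [f01, f10]; exact e01) (by simp only [f02, f20]; exact e02)
    (by simp only [f12, f21]; exact e12) ξ
  unfold quadM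
  exact key

end Claimed.Agent.R324.Core
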