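/-
Row 324 (S0582), AP/A5 (pointwise coercivity), sub-architect helper232.   Blueprint origin/helper232:docs/R324_blueprint.md, section 7.2b.
Zone lemma.
-/
import Claimed.Agent.R324.Core.AP.Coer.Alg
import Claimed.Agent.R324.Core.AP.Coer.Form
import Claimed.Agent.R324.Core.AP.Coer.Wt

set_option autoImplicit false

namespace Claimed.Agent.R324.Core

open Set
open scoped ContDiff


/-- **SOUTH CAP**  `y < 0`, `X ≤ 1/16`:   `2 𝔷_V = -(q-2)(y² - X) V`, `⟨𝐦 ξ, ξ⟩ ≤ 2 q X |ξ|²`: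
`5 - (q-2)(1 - 2X) + 4 q X ≤ 5 - (7/8)(q-2) + q/4 ≤ -q/4`. -/
theorem coer_southcap (q : ℝ) (hq : 10 ^ 6 ≤ q) (g : Bg) (hg : BgSm g) (ho : OutS g) (a e M : ℕ) (Γ t y : ℝ)
    (hΓ : 0 ≤ Γ) (ht : t < 0) (hy : y ∈ Ico (-1 : ℝ) 0) (hX : Xf y ≤ 1 / 16) (r : ℝ)
    (hr : r ≤ 5 * wG a e M q Γ t y) (ξ : Fin 3 → ℝ) :
    (r + 2 * zzF q g (wG a e M q Γ t) t y) * nk q ξ + 2 * wG a e M q Γ t y * quadM q g (t, y) ξ
      ≤ -(q / 4) * wG a e M q Γ t y * nk q ξ := by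
  have hq6 : (10 : ℝ) ^ 6 = 1000000 := by norm_num
  have hq0 : (0 : ℝ) < q := by linarith
  have hyI : y ∈ Icc (-1 : ℝ) 1 := ⟨hy.1, by linarith [hy.2]⟩
  obtain ⟨hZ, hZ1, hZ2, hb0, hb1, -, hQ⟩ := coer_south q hq0 hg ho ht y (by linarith [hy.2])
  obtain ⟨hv1, hv2⟩ := wG_tt_south a e M q Γ t y hy.2
  have hV : 0 < wG a e M q Γ t y := wG_pos a e M q Γ t y hq hΓ ht hyI
  have hN : 0 ≤ nk q ξ := coer_nk_nonneg q hq0.le ξ
  rw [coer_zz_expand q hg ht (wG a e M q Γ t) y (wG_contDiffAt a e M q Γ t y hq hΓ ht hyI), hv1, hv2]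
  set V : ℝ := wG a e M q Γ t y with hVdef
  have hX0 : 0 ≤ Xf y := by
    unfold Xf
    nlinarith [hy.1, hy.2]
  have hyX : y ^ 2 = 1 - Xf y := by
    unfold Xf
    ring
  have hzz : zzE q g t y V 0 0 = -(q - 2) * (1 - 2 * Xf y) * V := by
    unfold zzE
    rw [hZ, hZ1, hZ2, hb0, hb1]
    have : y * V * ((q - 1) * y) = (q - 1) * V * y ^ 2 := by ring
    linear_combination (V - (q - 1) * V) * hyX
  have hnk : nk q ξ = (q + 1) * ξ 0 ^ 2 + 2 * ξ 1 ^ 2 + q / (q + 1) * ξ 2 ^ 2 := by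
    simp [nk, kapJ, Fin.sum_univ_three]
  have hqq : 0 ≤ q / (q + 1) := by positivity
  have hquad : quadM q g (t, y) ξ ≤ 2 * q * Xf y * nk q ξ := by
    rw [hQ ξ, hnk]
    have a1 : 2 * (2 * Xf y) * ξ 1 ^ 2 ≤ 2 * q * Xf y * (2 * ξ 1 ^ 2) := by
      have : 0 ≤ Xf y * ξ 1 ^ 2 := mul_nonneg hX0 (sq_nonneg _)
      nlinarith
    have a2 : q / (q + 1) * (-2 * Xf y - (2 * q + 2) * y ^ 2) * ξ 2 ^ 2
        ≤ 2 * q * Xf y * (q / (q + 1) * ξ 2 ^ 2) := by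
      have h3 : 0 ≤ q / (q + 1) * ξ 2 ^ 2 := mul_nonneg hqq (sq_nonneg _)
      have h4 : -2 * Xf y - (2 * q + 2) * y ^ 2 ≤ 2 * q * Xf y := by
        nlinarith [sq_nonneg y, mul_nonneg hq0.le hX0]
      calc q / (q + 1) * (-2 * Xf y - (2 * q + 2) * y ^ 2) * ξ 2 ^ 2
          = (-2 * Xf y - (2 * q + 2) * y ^ 2) * (q / (q + 1) * ξ 2 ^ 2) := by ring
        _ ≤ 2 * q * Xf y * (q / (q + 1) * ξ 2 ^ 2) := mul_le_mul_of_nonneg_right h4 h3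
    nlinarith [a1, a2]
  have hVN : 0 ≤ V * nk q ξ := mul_nonneg hV.le hN
  have e1 : (r + zzE q g t y V 0 0) * nk q ξ ≤ (5 * V + -(q - 2) * (1 - 2 * Xf y) * V) * nk q ξ := by
    rw [hzz]
    exact mul_le_mul_of_nonneg_right (by linarith) hN
  have e2 : 2 * V * quadM q g (t, y) ξ ≤ 2 * V * (2 * q * Xf y * nk q ξ) :=
    mul_le_mul_of_nonneg_left hquad (by positivity)
  have hc : 5 - (q - 2) * (1 - 2 * Xf y) + 4 * q * Xf y ≤ -(q / 4) := by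
    nlinarith
  calc (r + zzE q g t y V 0 0) * nk q ξ + 2 * V * quadM q g (t, y) ξ
      ≤ (5 * V + -(q - 2) * (1 - 2 * Xf y) * V) * nk q ξ + 2 * V * (2 * q * Xf y * nk q ξ) :=
        add_le_add e1 e2
    _ = (5 - (q - 2) * (1 - 2 * Xf y) + 4 * q * Xf y) * (V * nk q ξ) := by ring
    _ ≤ -(q / 4) * (V * nk q ξ) := mul_le_mul_of_nonneg_right hc hVN
    _ = -(q / 4) * V * nk q ξ := by ring

end Claimed.Agent.R324.Core
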