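/-
Row 324 (S0582), AP/A5 (pointwise coercivity), sub-architect helper232.   Blueprint origin/helper232:docs/R324_blueprint.md, section 7.2b.
Zone lemma.
-/
import Claimed.Agent.R324.Core.AP.Coer.Alg
import Claimed.Agent.R324.Core.AP.Coer.Form
import Claimed.Agent.R324.Core.AP.Coer.Wt
import Claimed.Agent.R324.Core.AP.Coer.ZQuad
import Claimed.Agent.R324.Core.AP.Coer.ZPot

set_option autoImplicit false

namespace Claimed.Agent.R324.Core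

open Set
open scoped ContDiff


/-- **TIP ZONE.**   For the weight `V = wG a e M`, `2 ≤ a ≤ 4`, `e ≤ 1`; `r` collects `X ∂_t V` and the other harmless terms.
`δ = min δ₀ (1/(200 (M+1)))`;  `Λ₀` so small that `δ Λ₀ ≤ 1/q²`;  `s = X/r̂²`, `1 - s = ℓ²/r̂²`. -/
theorem coer_tip (q : ℝ) (hq : 10 ^ 6 ≤ q) (g : Bg) (hg : BgSm g) (hbox : TipBox q g) (a e M : ℕ) (ha : 2 ≤ a)
    (ha4 : a ≤ 4) (he : e ≤ 1) :
    ∃ δ Λ₀ : ℝ, 0 < δ ∧ δ < 1 ∧ 0 < Λ₀ ∧ ∀ Γ : ℝ, 0 ≤ Γ → ∀ t ∈ Ico (-Λ₀) 0, ∀ y ∈ Icc (0 : ℝ) 1,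
      Xf y ≤ δ * (-t) → ∀ r : ℝ, r ≤ wG a e M q Γ t y → ∀ ξ : Fin 3 → ℝ,
        (r + 2 * zzF q g (wG a e M q Γ t) t y) * nk q ξ + 2 * wG a e M q Γ t y * quadM q g (t, y) ξ
          ≤ -(q / 4) * wG a e M q Γ t y * nk q ξ := by
  obtain ⟨δ₀, Λ₁, hδ₀, hΛ₁, hB⟩ := hbox
  have hq6 : (10 : ℝ) ^ 6 = 1000000 := by norm_num
  have hq0 : (0 : ℝ) < q := by linarith
  have hM0 : (0 : ℝ) ≤ M := Nat.cast_nonneg M
  have hM1 : (0 : ℝ) < (M : ℝ) + 1 := by linarith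
  obtain ⟨δ, hδdef⟩ : ∃ δ : ℝ, δ = min δ₀ (1 / (200 * ((M : ℝ) + 1))) := ⟨_, rfl⟩
  have hδpos : 0 < δ := by
    rw [hδdef]
    exact lt_min hδ₀ (by positivity)
  have hδle0 : δ ≤ δ₀ := by
    rw [hδdef]
    exact min_le_left _ _
  have hδle1 : δ ≤ 1 / (200 * ((M : ℝ) + 1)) := by
    rw [hδdef]
    exact min_le_right _ _
  have hδM : ((M : ℝ) + 1) * δ ≤ 1 / 200 := by
    calc ((M : ℝ) + 1) * δ ≤ ((M : ℝ) + 1) * (1 / (200 * ((M : ℝ) + 1))) :=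
          mul_le_mul_of_nonneg_left hδle1 hM1.le
      _ = 1 / 200 := by field_simp
  have hδ1 : δ < 1 := by nlinarith [mul_nonneg hM0 hδpos.le]
  have hq2pos : (0 : ℝ) < 1 / q ^ 2 := by positivity
  refine ⟨δ, min Λ₁ (1 / q ^ 2), hδpos, hδ1, lt_min hΛ₁ hq2pos, ?_⟩
  intro Γ hΓ t ht y hy hX r hr ξ
  have ht0 : t < 0 := ht.2
  have htΛ1 : -Λ₁ ≤ t := by
    have := min_le_left Λ₁ (1 / q ^ 2)
    linarith [ht.1]
  have htq : -t ≤ 1 / q ^ 2 := by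
    have := min_le_right Λ₁ (1 / q ^ 2)
    linarith [ht.1]
  have hXq : Xf y ≤ 1 / q ^ 2 := by
    calc Xf y ≤ δ * (-t) := hX
      _ ≤ 1 * (-t) := mul_le_mul_of_nonneg_right hδ1.le (by linarith)
      _ ≤ 1 / q ^ 2 := by linarith
  have hq2 : 1 / q ^ 2 ≤ 1 / 1000 := by
    rw [div_le_div_iff₀ (by positivity) (by norm_num)]
    nlinarith
  have hyhalf : 1 / 2 < y := by
    by_contra hcon
    have h1 : y ≤ 1 / 2 := not_lt.mp hcon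
    have h2 : Xf y ≤ 1 / 1000 := hXq.trans hq2
    unfold Xf at h2
    nlinarith [hy.1]
  have hyI : y ∈ Icc (-1 : ℝ) 1 := ⟨by linarith [hy.1], hy.2⟩
  have hyN : y ∈ Ioc (1 / 2 : ℝ) 1 := ⟨hyhalf, hy.2⟩
  have hyC : y ∈ Icc (1 / 2 : ℝ) 1 := ⟨hyhalf.le, hy.2⟩
  obtain ⟨bZ, bb1, btb, bo1, bo1', bo2, bP1, bP2, bp0, bp1⟩ := hB t ⟨htΛ1, ht0⟩ y hyC
    (hX.trans (mul_le_mul_of_nonneg_right hδle0 (by linarith)))
  obtain ⟨n1lo, n1hi, n2b⟩ := nG_tip a e M ha4 he q Γ t y δ hq hΓ ht0 hyN hδpos hδM hX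
  have hV : 0 < wG a e M q Γ t y := wG_pos a e M q Γ t y hq hΓ ht0 hyI
  have hN : 0 ≤ nk q ξ := coer_nk_nonneg q hq0.le ξ
  have hX0 : 0 ≤ Xf y := by
    unfold Xf
    nlinarith [hy.1, hy.2]
  have hyX : y ^ 2 = 1 - Xf y := by
    unfold Xf
    ring
  have hell : 0 < ell2 q t := coer_ell2_pos q t hq ht0
  have hR : rh2 q t y = ell2 q t + Xf y := by rw [rh2, coer_Xt_facts.1 y hyhalf.le]
  have hRp : 0 < rh2 q t y := by rw [hR]; linarith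
  have hs0 : 0 ≤ Xf y / rh2 q t y := div_nonneg hX0 hRp.le
  have hs1 : Xf y / rh2 q t y ≤ 1 := by
    rw [div_le_one hRp, hR]
    linarith
  have h1s : 1 - Xf y / rh2 q t y = ell2 q t / rh2 q t y := by
    rw [eq_div_iff hRp.ne', sub_mul, div_mul_cancel₀ _ hRp.ne', hR]
    ring
  have ha0 : (0 : ℝ) ≤ a := Nat.cast_nonneg a
  have haR : (2 : ℝ) ≤ a := by exact_mod_cast ha
  have ha4R : (a : ℝ) ≤ 4 := by exact_mod_cast ha4
  have hn1neg : -(1 / 100) ≤ nG1 a e M q Γ t y := by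
    have : 0 ≤ 2 * y * (a * (Xf y / rh2 q t y)) :=
      mul_nonneg (by linarith [hy.1]) (mul_nonneg ha0 hs0)
    linarith
  have hP2 : 100 * (1 - Xf y / rh2 q t y) * (Xf y * Real.exp (-g.w (t, y)))
      ≤ 1001 / 1000 * (q - 1) * (Xf y / rh2 q t y) := by
    rw [h1s]
    have e1 : 100 * (ell2 q t / rh2 q t y) * (Xf y * Real.exp (-g.w (t, y)))
        = (Xf y * Real.exp (-g.w (t, y)) * (100 * ell2 q t)) / rh2 q t y := by
      field_simp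
    have e2 : 1001 / 1000 * (q - 1) * (Xf y / rh2 q t y)
        = (1001 / 1000 * (q - 1) * Xf y) / rh2 q t y := by
      field_simp
    rw [e1, e2]
    exact div_le_div_of_nonneg_right bP2 hRp.le
  have hpot := coer_pot_tip q hq g hg t y ht0 hyC hXq bZ bb1 btb bo1 bo1' bo2 bp0 bp1
    (wG a e M q Γ t y) (nG1 a e M q Γ t y) (nG2 a e M q Γ t y) hV.le hn1neg n1hi n2b
  have hquad := coer_quad_tip q hq g hg t y ht0 hyC hXq bZ bb1 bo1 bo1' bo2 ξ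
  have halg := coer_alg_tip q a (Xf y / rh2 q t y) (Xf y * Real.exp (-g.w (t, y)))
    (nG1 a e M q Γ t y) y (Xf y) 1 hq haR ha4R hs0 hs1 bP1 hP2 hX0 hXq hyX hy.1 n1lo le_rfl
  rw [coer_zz_expand q hg ht0 (wG a e M q Γ t) y (wG_contDiffAt a e M q Γ t y hq hΓ ht0 hyI),
    wG_tt_north a e M q Γ t y hq hΓ ht0 hyN, wG_tt2_north a e M q Γ t y hq hΓ ht0 hyN]
  obtain ⟨V, hVdef⟩ : ∃ V : ℝ, V = wG a e M q Γ t y := ⟨_, rfl⟩
  obtain ⟨n1, hn1def⟩ : ∃ n1 : ℝ, n1 = nG1 a e M q Γ t y := ⟨_, rfl⟩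
  obtain ⟨n2, hn2def⟩ : ∃ n2 : ℝ, n2 = nG2 a e M q Γ t y := ⟨_, rfl⟩
  obtain ⟨P, hPdef⟩ : ∃ P : ℝ, P = Xf y * Real.exp (-g.w (t, y)) := ⟨_, rfl⟩
  rw [← hVdef, ← hn1def, ← hn2def] at hpot ⊢
  rw [← hPdef] at hquad halg
  rw [← hn1def] at halg
  rw [← hVdef] at hV hr
  have hVN : 0 ≤ V * nk q ξ := mul_nonneg hV.le hN
  have e1 : (r + zzE q g t y V (n1 * V) ((n2 + n1 ^ 2) * V)) * nk q ξ
      ≤ (V + V * (274 - (n1 + y) * (q - 5))) * nk q ξ :=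
    mul_le_mul_of_nonneg_right (add_le_add hr hpot) hN
  have e2 : 2 * V * quadM q g (t, y) ξ ≤ 2 * V * ((2 * P + q / 100 + 14) * nk q ξ) :=
    mul_le_mul_of_nonneg_left hquad (by positivity)
  calc (r + zzE q g t y V (n1 * V) ((n2 + n1 ^ 2) * V)) * nk q ξ + 2 * V * quadM q g (t, y) ξ
      ≤ (V + V * (274 - (n1 + y) * (q - 5))) * nk q ξ + 2 * V * ((2 * P + q / 100 + 14) * nk q ξ) :=
        add_le_add e1 e2
    _ = (1 + (274 - (n1 + y) * (q - 5)) + 2 * (2 * P + q / 100 + 14)) * (V * nk q ξ) := by ring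
    _ ≤ -(q / 4) * (V * nk q ξ) := mul_le_mul_of_nonneg_right halg hVN
    _ = -(q / 4) * V * nk q ξ := by ring

end Claimed.Agent.R324.Core
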